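import Vale.Agent.P246.MathlibUsed
import Vale.Agent.P246.Defs0

set_option linter.all false

section

section

namespace Vale.Agent.P246

open CategoryTheory

theorem threeD_comp_aux {R : Type} [Ring R] {a b : ℕ} (v : Fin a → R) (w : Fin b → Fin a → R)
    (h : ∀ j, ∑ i, w j i * v i = 0) : ∀ i, threeD v w (i + 1) ≫ threeD v w i = 0
  | 0 => by
    apply ModuleCat.hom_ext
    apply LinearMap.ext
    intro t
    have h2 : ∀ t : Fin b → R, lmap v (lmap w t) = 0 := by
      intro t
      rw [lmap, lmap, Fintype.linearCombination_apply R w t, map_sum]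
      apply Finset.sum_eq_zero
      intro j _
      rw [map_smul, Fintype.linearCombination_apply]
      have h3 := h j
      simp only [smul_eq_mul]
      rw [h3, mul_zero]
    exact h2 t
  | _ + 1 => by
    change (0 : threeX R a b _ ⟶ threeX R a b _) ≫ _ = 0
    exact Limits.zero_comp

variable {G : Type} [Group G]

theorem foxWord_nil {m : ℕ} (x : Fin m → G) : foxWord x [] = 0 := rfl

theorem foxWord_true {m : ℕ} (x : Fin m → G) (i : Fin m) (w : List (Fin m × Bool)) :
    foxWord x ((i, true) :: w) = Pi.single i 1 + elt (x i) • foxWord x w := by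
  funext k
  rw [foxWord, List.foldr_cons, foxStep, if_pos rfl, Pi.add_apply, Pi.single_apply, Pi.smul_apply,
    smul_eq_mul]
  rfl

theorem foxWord_false {m : ℕ} (x : Fin m → G) (i : Fin m) (w : List (Fin m × Bool)) :
    foxWord x ((i, false) :: w) = elt (x i)⁻¹ • (foxWord x w - Pi.single i 1) := by
  funext k
  rw [foxWord, List.foldr_cons, foxStep, if_neg (by simp), Pi.smul_apply, Pi.sub_apply,
    Pi.single_apply, smul_eq_mul]
  rfl

/-- The fundamental formula `∑ (∂w/∂x_i) (x_i - 1) = w - 1`. -/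
theorem foxWord_formula {m : ℕ} (x : Fin m → G) (w : List (Fin m × Bool)) :
    Fintype.linearCombination (ZG G) (fun i => elt (x i) - 1) (foxWord x w)
      = elt (FreeGroup.lift x (FreeGroup.mk w)) - 1 := by
  induction w with
  | nil =>
    rw [foxWord_nil, map_zero]
    have : (FreeGroup.mk [] : FreeGroup (Fin m)) = 1 := rfl
    rw [this, map_one]
    exact (sub_self _).symm
  | cons a w ih =>
    obtain ⟨i, b⟩ := a
    have h : (FreeGroup.mk ((i, b) :: w) : FreeGroup (Fin m))
        = FreeGroup.mk [(i, b)] * FreeGroup.mk w := rfl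
    rw [h, map_mul]
    cases b
    · have h2 : FreeGroup.lift x (FreeGroup.mk [(i, false)]) = (x i)⁻¹ := by
        have : (FreeGroup.mk [(i, false)] : FreeGroup (Fin m)) = (FreeGroup.of i)⁻¹ := rfl
        rw [this, map_inv, FreeGroup.lift_apply_of]
      rw [foxWord_false, map_smul, map_sub, ih, Fintype.linearCombination_apply_single, one_smul,
        h2, smul_sub, smul_sub, smul_sub, smul_eq_mul,
        smul_eq_mul, smul_eq_mul, mul_one, elt, elt, elt, elt, MonoidAlgebra.single_mul_single,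
        MonoidAlgebra.single_mul_single, one_mul, inv_mul_cancel, MonoidAlgebra.one_def]
      abel
    · have h2 : FreeGroup.lift x (FreeGroup.mk [(i, true)]) = x i := FreeGroup.lift_apply_of
      rw [foxWord_true, map_add, map_smul, ih, Fintype.linearCombination_apply_single, one_smul,
        h2, smul_sub, smul_eq_mul, smul_eq_mul,
        mul_one, elt, elt, elt, MonoidAlgebra.single_mul_single, one_mul]
      abel

theorem fox_rel_aux (P : FinPresentation G) (j : Fin P.rels) :
    ∑ i, foxWord P.x (P.r j).toWord i * (elt (P.x i) - 1) = 0 := by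
  have h1 := foxWord_formula P.x (P.r j).toWord
  rw [FreeGroup.mk_toWord] at h1
  have h : P.r j ∈ (FreeGroup.lift P.x).ker := by
    rw [P.ker_eq]
    exact Subgroup.subset_normalClosure ⟨j, rfl⟩
  rw [MonoidHom.mem_ker.1 h, Fintype.linearCombination_apply] at h1
  have h2 : (elt (1 : G) : ZG G) - 1 = 0 := sub_self _
  rw [h2] at h1
  simpa only [smul_eq_mul] using h1

end Vale.Agent.P246
end
end

section

section

namespace Vale.Agent.P246

/-- Two rows over a commutative ring are equivalent under the general linear group. -/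
def RowEquiv {ι R : Type*} [Fintype ι] [DecidableEq ι] [CommRing R] (v w : ι → R) : Prop :=
  ∃ g : Matrix ι ι R, IsUnit g.det ∧ Matrix.vecMul v g = w

/-- The Laurent polynomial ring in `n` variables over the integers (integral group ring of
`ℤ^n`, written additively). -/
abbrev L (n : ℕ) : Type := AddMonoidAlgebra ℤ (Fin n → ℤ)

end Vale.Agent.P246
end
end

section

section

namespace Vale.Agent.P246

open Matrix

section Rows

variable {ι κ R S : Type*} [Fintype ι] [DecidableEq ι] [Fintype κ] [DecidableEq κ]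
  [CommRing R] [CommRing S]

theorem RowEquiv.refl (v : ι → R) : RowEquiv v v := ⟨1, by simp, by simp⟩

theorem RowEquiv.symm {v w : ι → R} (h : RowEquiv v w) : RowEquiv w v := by
  obtain ⟨g, hg, rfl⟩ := h
  refine ⟨g⁻¹, ?_, ?_⟩
  · rw [Matrix.isUnit_nonsing_inv_det_iff]; exact hg
  · rw [Matrix.vecMul_vecMul, Matrix.mul_nonsing_inv _ hg, Matrix.vecMul_one]

theorem RowEquiv.trans {u v w : ι → R} (h : RowEquiv u v) (h' : RowEquiv v w) :
    RowEquiv u w := by
  obtain ⟨g, hg, rfl⟩ := h
  obtain ⟨g', hg', rfl⟩ := h'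
  refine ⟨g * g', ?_, ?_⟩
  · rw [Matrix.det_mul]; exact hg.mul hg'
  · rw [Matrix.vecMul_vecMul]

theorem RowEquiv.map {v w : ι → R} (h : RowEquiv v w) (f : R →+* S) :
    RowEquiv (fun i => f (v i)) (fun i => f (w i)) := by
  obtain ⟨g, hg, rfl⟩ := h
  refine ⟨g.map f, ?_, ?_⟩
  · have : (g.map f).det = f g.det := by
      rw [RingHom.map_det]; rfl
    rw [this]; exact hg.map f
  · funext i
    rw [RingHom.map_vecMul]
    rfl

theorem RowEquiv.reindex {v w : ι → R} (h : RowEquiv v w) (e : κ ≃ ι) :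
    RowEquiv (fun i => v (e i)) (fun i => w (e i)) := by
  obtain ⟨g, hg, rfl⟩ := h
  refine ⟨g.submatrix e e, ?_, ?_⟩
  · rw [Matrix.det_submatrix_equiv_self]; exact hg
  · funext i
    simp only [Matrix.vecMul, dotProduct, Matrix.submatrix_apply]
    exact Equiv.sum_comp e (fun j => v j * g j (e i))

theorem RowEquiv.of_reindex {v w : ι → R} (e : κ ≃ ι)
    (h : RowEquiv (fun i => v (e i)) (fun i => w (e i))) : RowEquiv v w := by
  have := h.reindex e.symm
  simpa using this

theorem RowEquiv.sum_left {v w : ι → R} (h : RowEquiv v w) (u : κ → R) :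
    RowEquiv (Sum.elim v u) (Sum.elim w u) := by
  obtain ⟨g, hg, rfl⟩ := h
  refine ⟨Matrix.fromBlocks g 0 0 1, ?_, ?_⟩
  · rw [Matrix.det_fromBlocks_zero₂₁]; simpa only [det_one, mul_one] using hg
  · rw [Matrix.vecMul_fromBlocks]; simp

theorem RowEquiv.add_right (v : ι → R) (u : κ → R) (B : Matrix ι κ R) :
    RowEquiv (Sum.elim v u) (Sum.elim v (v ᵥ* B + u)) := by
  refine ⟨Matrix.fromBlocks 1 B 0 1, ?_, ?_⟩
  · rw [Matrix.det_fromBlocks_zero₂₁]; simp
  · rw [Matrix.vecMul_fromBlocks]; simp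

theorem RowEquiv.add_left (v : ι → R) (u : κ → R) (C : Matrix κ ι R) :
    RowEquiv (Sum.elim v u) (Sum.elim (v + u ᵥ* C) u) := by
  refine ⟨Matrix.fromBlocks 1 0 C 1, ?_, ?_⟩
  · rw [Matrix.det_fromBlocks_zero₁₂]; simp
  · rw [Matrix.vecMul_fromBlocks]; simp

theorem RowEquiv.add_right' (v : ι → R) (u u' : κ → R)
    (h : ∀ j, u' j - u j ∈ Ideal.span (Set.range v)) :
    RowEquiv (Sum.elim v u) (Sum.elim v u') := by
  have h1 : ∀ j, ∃ c : ι → R, ∑ i, c i * v i = u' j - u j := by
    intro j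
    exact (Ideal.mem_span_range_iff_exists_fun).1 (h j)
  choose c hc using h1
  have := RowEquiv.add_right v u (Matrix.of fun i j => c j i)
  convert this using 2
  funext j
  simp only [Pi.add_apply, Matrix.vecMul, dotProduct, Matrix.of_apply]
  have := hc j
  rw [show ∑ i, v i * c j i = ∑ i, c j i * v i from Finset.sum_congr rfl fun i _ => mul_comm _ _,
    this]
  ring

theorem RowEquiv.add_left' (v v' : ι → R) (u : κ → R)
    (h : ∀ j, v' j - v j ∈ Ideal.span (Set.range u)) :
    RowEquiv (Sum.elim v u) (Sum.elim v' u) := by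
  have h1 : ∀ j, ∃ c : κ → R, ∑ i, c i * u i = v' j - v j := by
    intro j
    exact (Ideal.mem_span_range_iff_exists_fun).1 (h j)
  choose c hc using h1
  have := RowEquiv.add_left v u (Matrix.of fun i j => c j i)
  convert this using 2
  funext j
  simp only [Pi.add_apply, Matrix.vecMul, dotProduct, Matrix.of_apply]
  have := hc j
  rw [show ∑ i, u i * c j i = ∑ i, c j i * u i from Finset.sum_congr rfl fun i _ => mul_comm _ _,
    this]
  ring

theorem span_range_sum (v : ι → R) (u : κ → R) :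
    Ideal.span (Set.range (Sum.elim v u)) = Ideal.span (Set.range v) ⊔ Ideal.span (Set.range u) := by
  rw [Set.Sum.elim_range, Ideal.span_union]

theorem RowEquiv.span_eq {v w : ι → R} (h : RowEquiv v w) :
    Ideal.span (Set.range v) = Ideal.span (Set.range w) := by
  have key : ∀ {v w : ι → R}, RowEquiv v w →
      Ideal.span (Set.range w) ≤ Ideal.span (Set.range v) := by
    rintro v w ⟨g, -, rfl⟩
    rw [Ideal.span_le]
    rintro _ ⟨i, rfl⟩
    simp only [Matrix.vecMul, dotProduct]
    exact Ideal.sum_mem _ fun j _ => Ideal.mul_mem_right _ _ (Ideal.subset_span ⟨j, rfl⟩)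
  exact le_antisymm (key h.symm) (key h)

end Rows

end Vale.Agent.P246
end
end

section

section

namespace Vale.Agent.P246

open Matrix Polynomial

theorem exists_avoid {R : Type*} [CommRing R] [IsDomain R] [UniqueFactorizationMonoid R]
    (a f : R) (hf : f ≠ 0) : ∃ u : R, u ≠ 0 ∧ ∀ p, Prime p → (p ∣ u ↔ p ∣ f ∧ ¬ p ∣ a) := by
  revert hf
  refine UniqueFactorizationMonoid.induction_on_prime f ?_ ?_ ?_
  · intro h; exact absurd rfl h
  · intro x hx _
    refine ⟨1, one_ne_zero, fun p hp => ?_⟩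
    constructor
    · intro h
      exact absurd (isUnit_of_dvd_one h) hp.not_isUnit
    · rintro ⟨h, -⟩
      exact absurd (isUnit_of_dvd_unit h hx) hp.not_isUnit
  · intro x p₀ hx hp₀ ih _
    obtain ⟨u, hu0, hu⟩ := ih hx
    by_cases ha : p₀ ∣ a
    · refine ⟨u, hu0, fun p hp => ?_⟩
      rw [hu p hp]
      constructor
      · rintro ⟨h1, h2⟩
        exact ⟨h1.mul_left _, h2⟩
      · rintro ⟨h1, h2⟩
        rcases hp.dvd_or_dvd h1 with h | h
        · exfalso
          have : Associated p p₀ := (hp.dvd_prime_iff_associated hp₀).1 h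
          exact h2 (this.dvd.trans ha)
        · exact ⟨h, h2⟩
    · refine ⟨p₀ * u, mul_ne_zero hp₀.ne_zero hu0, fun p hp => ?_⟩
      constructor
      · intro h
        rcases hp.dvd_or_dvd h with h | h
        · have : Associated p p₀ := (hp.dvd_prime_iff_associated hp₀).1 h
          exact ⟨h.mul_right _, fun h' => ha (this.symm.dvd.trans h')⟩
        · obtain ⟨h1, h2⟩ := (hu p hp).1 h
          exact ⟨h1.mul_left _, h2⟩
      · rintro ⟨h1, h2⟩
        rcases hp.dvd_or_dvd h1 with h | h
        · exact h.mul_right _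
        · exact ((hu p hp).2 ⟨h, h2⟩).mul_left _

theorem comp_sub_comp_dvd {A : Type*} [CommRing A] (p b b' : A[X]) :
    b - b' ∣ p.comp b - p.comp b' := by
  have := Polynomial.sub_dvd_eval_sub b b' (p.map (C : A →+* A[X]))
  simpa only [Polynomial.comp, eval_map] using this

theorem pair_lemma {A : Type*} [CommRing A] [IsDomain A] (f₁ f₂ g₁ g₂ : A[X]) (c : A)
    (h : f₁ * g₁ + f₂ * g₂ = C c) (b b' : A[X]) (hb : C c ∣ b' - b) :
    RowEquiv ![f₁.comp b, f₂.comp b] ![f₁.comp b', f₂.comp b'] := by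
  by_cases hc : c = 0
  · subst hc
    have : b' = b := by
      rw [map_zero, zero_dvd_iff] at hb
      exact sub_eq_zero.1 hb
    subst this
    exact RowEquiv.refl _
  have key : ∀ p : A[X], ∃ q : A[X], p.comp b' = p.comp b + C c * q := by
    intro p
    obtain ⟨q, hq⟩ := hb.trans (comp_sub_comp_dvd p b' b)
    exact ⟨q, by rw [← hq]; ring⟩
  obtain ⟨q1, hq1⟩ := key f₁
  obtain ⟨q2, hq2⟩ := key f₂
  obtain ⟨r1, hr1⟩ := key g₁
  obtain ⟨r2, hr2⟩ := key g₂
  have hcomp : ∀ d : A[X], f₁.comp d * g₁.comp d + f₂.comp d * g₂.comp d = C c := by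
    intro d
    have := congrArg (fun p => p.comp d) h
    simpa only [add_comp, mul_comp, C_comp] using this
  set M : Matrix (Fin 2) (Fin 2) A[X] := !![f₁.comp b, f₂.comp b; -g₂.comp b, g₁.comp b] with hM
  set M' : Matrix (Fin 2) (Fin 2) A[X] := !![f₁.comp b', f₂.comp b'; -g₂.comp b', g₁.comp b']
    with hM'
  set H : Matrix (Fin 2) (Fin 2) A[X] := !![q1, q2; -r2, r1] with hH
  have hdM : M.det = C c := by
    rw [hM, Matrix.det_fin_two_of, ← hcomp b]; ring
  have hdM' : M'.det = C c := by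
    rw [hM', Matrix.det_fin_two_of, ← hcomp b']; ring
  have hMM : M' = M + (C c : A[X]) • H := by
    rw [hM, hM', hH]
    ext i j
    fin_cases i <;> fin_cases j <;> simp [hq1, hq2, hr1, hr2]
    ring
  have hprod : M * (1 + M.adjugate * H) = M' := by
    rw [Matrix.mul_add, Matrix.mul_one, ← Matrix.mul_assoc, Matrix.mul_adjugate, hdM, hMM]
    simp
  refine ⟨1 + M.adjugate * H, ?_, ?_⟩
  · have : C c * (1 + M.adjugate * H).det = C c * 1 := by
      rw [mul_one, ← hdM, ← Matrix.det_mul, hprod, hdM', hdM]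
    have h1 := mul_left_cancel₀ (by simpa only [ne_eq, C_eq_zero] using hc) this
    rw [h1]; exact isUnit_one
  · have e1 : ![f₁.comp b, f₂.comp b] = Pi.single (0 : Fin 2) 1 ᵥ* M := by
      rw [Matrix.single_one_vecMul]
      funext i
      fin_cases i <;> simp [hM]
    have e2 : ![f₁.comp b', f₂.comp b'] = Pi.single (0 : Fin 2) 1 ᵥ* M' := by
      rw [Matrix.single_one_vecMul]
      funext i
      fin_cases i <;> simp [hM']
    rw [e1, e2, Matrix.vecMul_vecMul, hprod]


/-- in a principal ideal domain: a stable range type lemma -/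
theorem exists_coprime_add {R : Type*} [CommRing R] [IsDomain R] [IsPrincipalIdealRing R]
    (f a : R) (hf : f ≠ 0) (I : Ideal R) (h : Ideal.span {f, a} ⊔ I = ⊤) :
    ∃ c ∈ I, IsCoprime f (a + c) := by
  obtain ⟨u, hu0, hu⟩ := exists_avoid a f hf
  obtain ⟨d, rfl⟩ : ∃ d, I = Ideal.span {d} := ⟨_, (Submodule.IsPrincipal.span_singleton_generator I).symm⟩
  refine ⟨d * u, Ideal.mul_mem_right _ _ (Ideal.mem_span_singleton_self d), ?_⟩
  apply isCoprime_of_prime_dvd
  · rintro ⟨h1, -⟩; exact hf h1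
  · intro p hp hpf hpa
    by_cases ha : p ∣ a
    · have h1 : p ∣ d * u := (dvd_add_right ha).1 hpa
      rcases hp.dvd_or_dvd h1 with h2 | h2
      · have : Ideal.span {f, a} ⊔ Ideal.span {d} ≤ Ideal.span {p} := by
          rw [sup_le_iff]
          constructor
          · rw [Ideal.span_le]
            rintro x (rfl | rfl)
            · exact Ideal.mem_span_singleton.2 hpf
            · exact Ideal.mem_span_singleton.2 ha
          · rw [Ideal.span_singleton_le_span_singleton]; exact h2
        rw [h, top_le_iff, Ideal.span_singleton_eq_top] at this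
        exact hp.not_isUnit this
      · exact ((hu p hp).1 h2).2 ha
    · have : p ∣ u := (hu p hp).2 ⟨hpf, ha⟩
      exact ha ((dvd_add_left (this.mul_left d)).1 hpa)

theorem exists_const_mem {A : Type*} [CommRing A] (m : Ideal A) (f g : A[X]) (hf : f.Monic)
    (h : IsCoprime (f.map (Ideal.Quotient.mk m)) (g.map (Ideal.Quotient.mk m))) :
    ∃ r : A, r - 1 ∈ m ∧ C r ∈ Ideal.span {f, g} := by
  have hfin : Module.Finite A (A[X] ⧸ Ideal.span {f}) := hf.finite_quotient
  have hfin2 : Module.Finite A (A[X] ⧸ Ideal.span {f, g}) := by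
    have hle : Ideal.span {f} ≤ Ideal.span {f, g} := Ideal.span_mono (by simp)
    exact Module.Finite.of_surjective
      ((Ideal.Quotient.factorₐ A hle).toLinearMap) (Ideal.Quotient.factor_surjective hle)
  obtain ⟨α, β, hαβ⟩ := h
  obtain ⟨α, rfl⟩ := Polynomial.map_surjective _ Ideal.Quotient.mk_surjective α
  obtain ⟨β, rfl⟩ := Polynomial.map_surjective _ Ideal.Quotient.mk_surjective β
  have hmem : α * f + β * g - 1 ∈ Ideal.map (C : A →+* A[X]) m := by
    have hk : RingHom.ker (mapRingHom (Ideal.Quotient.mk m)) = m.map C := by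
      rw [Polynomial.ker_mapRingHom, Ideal.mk_ker]
    rw [← hk, RingHom.mem_ker]
    simp only [coe_mapRingHom, Polynomial.map_sub, Polynomial.map_add, Polynomial.map_mul, hαβ, Polynomial.map_one, sub_self]
  have htop : (⊤ : Submodule A (A[X] ⧸ Ideal.span {f, g})) ≤ m • ⊤ := by
    rintro x -
    obtain ⟨x, rfl⟩ := Ideal.Quotient.mk_surjective x
    have h1 : Ideal.Quotient.mk (Ideal.span {f, g}) x
        = Ideal.Quotient.mk (Ideal.span {f, g}) (-(x * (α * f + β * g - 1))) := by
      rw [Ideal.Quotient.eq]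
      have : x - -(x * (α * f + β * g - 1)) = (x * α) * f + (x * β) * g := by ring
      rw [this]
      exact Ideal.mem_span_pair.2 ⟨_, _, rfl⟩
    rw [h1]
    have h2 : ∀ y ∈ Ideal.map (C : A →+* A[X]) m,
        Ideal.Quotient.mk (Ideal.span {f, g}) y ∈
          m • (⊤ : Submodule A (A[X] ⧸ Ideal.span {f, g})) := by
      intro y hy
      rw [Ideal.map] at hy
      refine Submodule.span_induction ?_ ?_ ?_ ?_ hy
      · rintro _ ⟨c, hc, rfl⟩
        have : Ideal.Quotient.mk (Ideal.span {f, g}) (C c)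
            = c • (1 : A[X] ⧸ Ideal.span {f, g}) := by
          have h0 : (C c : A[X]) = c • (1 : A[X]) := by rw [smul_eq_C_mul, mul_one]
          rw [h0]; rfl
        rw [this]
        exact Submodule.smul_mem_smul hc trivial
      · simp
      · intro x y _ _ hx hy
        rw [map_add]; exact add_mem hx hy
      · intro a x _ hx
        rw [smul_eq_mul, map_mul]
        refine Submodule.smul_induction_on hx ?_ ?_
        · intro r hr n _
          rw [mul_smul_comm]
          exact Submodule.smul_mem_smul hr trivial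
        · intro x y hx hy
          rw [mul_add]; exact add_mem hx hy
    apply h2
    rw [neg_mem_iff]
    exact Ideal.mul_mem_left _ _ hmem
  obtain ⟨r, hr1, hr2⟩ := Submodule.exists_sub_one_mem_and_smul_eq_zero_of_fg_of_le_smul m ⊤
    hfin2.fg_top htop
  refine ⟨r, hr1, ?_⟩
  have := hr2 1 trivial
  have h0 : (C r : A[X]) = r • (1 : A[X]) := by rw [smul_eq_C_mul, mul_one]
  rw [← Ideal.Quotient.eq_zero_iff_mem, h0]
  exact this

theorem monic_aux {A : Type*} [CommRing A] [IsDomain A] {κ : Type*} [Fintype κ] [DecidableEq κ]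
    (v : Fin 2 ⊕ κ → A[X]) (hv : Ideal.span (Set.range v) = ⊤) (hm : (v (Sum.inl 0)).Monic)
    (b b' : A[X]) : RowEquiv (fun j => (v j).comp b) (fun j => (v j).comp b') := by
  -- the ideal of good constants
  let J : Ideal A :=
    { carrier := {c | ∀ b b' : A[X], C c ∣ b' - b →
        RowEquiv (fun j => (v j).comp b) (fun j => (v j).comp b')}
      add_mem' := by
        intro c c' hc hc' b b' h
        obtain ⟨d, hd⟩ := h
        refine (hc b (b + C c * d) ⟨d, by ring⟩).trans (hc' _ _ ⟨d, ?_⟩)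
        rw [map_add] at hd
        linear_combination hd
      zero_mem' := by
        intro b b' h
        rw [map_zero, zero_dvd_iff, sub_eq_zero] at h
        subst h
        exact RowEquiv.refl _
      smul_mem' := by
        intro a c hc b b' h
        refine hc b b' (dvd_trans ⟨C a, ?_⟩ h)
        rw [smul_eq_mul, map_mul, mul_comm] }
  suffices hJ : J = ⊤ by
    have : (1 : A) ∈ J := by rw [hJ]; trivial
    exact this b b' (by simp)
  by_contra hJ
  obtain ⟨m, hmax, hJm⟩ := Ideal.exists_le_maximal J hJ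
  let _ : Field (A ⧸ m) := Ideal.Quotient.field m
  set π : A[X] →+* (A ⧸ m)[X] := mapRingHom (Ideal.Quotient.mk m) with hπ
  have hπs : Function.Surjective π := Polynomial.map_surjective _ Ideal.Quotient.mk_surjective
  have hf0 : π (v (Sum.inl 0)) ≠ 0 := (hm.map (Ideal.Quotient.mk m)).ne_zero
  have hspan : Ideal.span {π (v (Sum.inl 0)), π (v (Sum.inl 1))}
      ⊔ Ideal.span (Set.range fun j => π (v (Sum.inr j))) = ⊤ := by
    have h1 : Ideal.map π (Ideal.span (Set.range v)) = ⊤ := by rw [hv, Ideal.map_top]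
    rw [Ideal.map_span] at h1
    rw [← Ideal.span_union, ← h1]
    congr 1
    ext x
    constructor
    · rintro ((rfl | rfl) | ⟨j, rfl⟩)
      · exact ⟨_, ⟨_, rfl⟩, rfl⟩
      · exact ⟨_, ⟨_, rfl⟩, rfl⟩
      · exact ⟨_, ⟨_, rfl⟩, rfl⟩
    · rintro ⟨_, ⟨j, rfl⟩, rfl⟩
      rcases j with j | j
      · fin_cases j
        · left; left; rfl
        · left; right; rfl
      · right; exact ⟨j, rfl⟩
  obtain ⟨c, hc, hcop⟩ := exists_coprime_add _ _ hf0 _ hspan
  obtain ⟨e, he⟩ := (Ideal.mem_span_range_iff_exists_fun).1 hc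
  choose E hE using fun j => hπs (e j)
  set g : A[X] := v (Sum.inl 1) + ∑ j, E j * v (Sum.inr j) with hg
  have hπg : π g = π (v (Sum.inl 1)) + c := by
    rw [hg, map_add, map_sum, ← he]
    congr 1
    refine Finset.sum_congr rfl fun j _ => ?_
    rw [map_mul, hE]
  rw [← hπg] at hcop
  obtain ⟨r, hr1, hr2⟩ := exists_const_mem m (v (Sum.inl 0)) g hm hcop
  have hrm : r ∉ m := by
    intro h
    apply hmax.ne_top
    rw [Ideal.eq_top_iff_one]
    have := m.sub_mem h hr1
    simpa using this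
  apply hrm
  apply hJm
  intro b b' hbb
  obtain ⟨g₁, g₂, hgg⟩ := Ideal.mem_span_pair.1 hr2
  -- replace the second coordinate
  have hrow : RowEquiv v (Sum.elim ![v (Sum.inl 0), g] (fun j => v (Sum.inr j))) := by
    have h0 : v = Sum.elim (fun i => v (Sum.inl i)) (fun j => v (Sum.inr j)) := by
      funext j; rcases j with j | j <;> rfl
    have := RowEquiv.add_left' (fun i => v (Sum.inl i)) ![v (Sum.inl 0), g]
      (fun j => v (Sum.inr j)) (by
        intro j
        fin_cases j
        · simp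
        · have : (![v (Sum.inl 0), g] : Fin 2 → A[X]) 1 - v (Sum.inl 1)
              = ∑ j, E j * v (Sum.inr j) := by
            simp only [Fin.isValue, hg, cons_val_one, cons_val_fin_one, add_sub_cancel_left]
          change (![v (Sum.inl 0), g] : Fin 2 → A[X]) 1 - v (Sum.inl 1) ∈ _
          rw [this]
          exact (Ideal.mem_span_range_iff_exists_fun).2 ⟨E, rfl⟩)
    rw [← h0] at this
    exact this
  have hcomp : ∀ d : A[X], RowEquiv (fun j => (v j).comp d)
      (Sum.elim ![(v (Sum.inl 0)).comp d, g.comp d] (fun j => (v (Sum.inr j)).comp d)) := by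
    intro d
    have := hrow.map (compRingHom d)
    have h2 : (fun i => (compRingHom d)
        ((Sum.elim ![v (Sum.inl 0), g] (fun j => v (Sum.inr j)) : Fin 2 ⊕ κ → A[X]) i))
        = Sum.elim ![(v (Sum.inl 0)).comp d, g.comp d] (fun j => (v (Sum.inr j)).comp d) := by
      funext i
      rcases i with i | i
      · fin_cases i <;> rfl
      · rfl
    rw [h2] at this
    exact this
  refine (hcomp b).trans (RowEquiv.trans ?_ (hcomp b').symm)
  refine ((pair_lemma (v (Sum.inl 0)) g g₁ g₂ r (by rw [← hgg]; ring) b b' hbb).sum_left _).trans ?_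
  apply RowEquiv.add_right'
  intro j
  have h1 : C r ∣ (v (Sum.inr j)).comp b' - (v (Sum.inr j)).comp b :=
    hbb.trans (comp_sub_comp_dvd _ _ _)
  obtain ⟨q, hq⟩ := h1
  rw [hq]
  apply Ideal.mul_mem_right
  have h2 : C r = g₁.comp b' * (v (Sum.inl 0)).comp b' + g₂.comp b' * g.comp b' := by
    have := congrArg (fun p => p.comp b') hgg
    simpa only [Fin.isValue, C_comp, add_comp, mul_comp] using this.symm
  rw [h2]
  refine add_mem (Ideal.mul_mem_left _ _ (Ideal.subset_span ⟨0, rfl⟩))
    (Ideal.mul_mem_left _ _ (Ideal.subset_span ⟨1, rfl⟩))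

theorem suslin_monic {A : Type*} [CommRing A] [IsDomain A] {k : ℕ}
    (v : Fin k → A[X]) (hv : Ideal.span (Set.range v) = ⊤)
    (i : Fin k) (hi : (v i).Monic) :
    RowEquiv v (fun j => C ((v j).eval 0)) := by
  rcases k with _ | _ | k
  · exact i.elim0
  · -- a single entry
    have h1 : v i = 1 := by
      apply hi.eq_one_of_isUnit
      rw [← Ideal.span_singleton_eq_top, ← hv]
      congr 1
      ext x
      constructor
      · rintro rfl; exact ⟨i, rfl⟩
      · rintro ⟨j, rfl⟩
        obtain rfl : j = i := Fin.ext (by omega)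
        rfl
    have : v = fun j => C ((v j).eval 0) := by
      funext j
      obtain rfl : j = i := Fin.ext (by omega)
      rw [h1]; simp
    rw [← this]
    exact RowEquiv.refl _
  · -- the general case
    obtain ⟨e, he⟩ : ∃ e : Fin 2 ⊕ Fin k ≃ Fin (k + 2), e (Sum.inl 0) = i := by
      let e₀ : Fin 2 ⊕ Fin k ≃ Fin (k + 2) := finSumFinEquiv.trans (finCongr (by ring))
      exact ⟨e₀.trans (Equiv.swap (e₀ (Sum.inl 0)) i), by simp⟩
    apply RowEquiv.of_reindex e
    have := monic_aux (fun j => v (e j)) (by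
      rw [← hv]
      congr 1
      exact e.surjective.range_comp v) (by rw [he]; exact hi) X 0
    have h2 : (fun j => (v (e j)).comp 0) = fun j => C ((v (e j)).eval 0) := by
      funext j; simp
    rw [h2] at this
    simpa using this

end Vale.Agent.P246
end
end

section

section

namespace Vale.Agent.P246

open Polynomial

/-- An ideal that is nonzero and not contained in any principal prime ideal. -/
def Big {R : Type*} [CommRing R] (I : Ideal R) : Prop :=
  I ≠ ⊥ ∧ ∀ p, Prime p → ¬ I ≤ Ideal.span {p}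

theorem Big.map_equiv {R S : Type*} [CommRing R] [CommRing S] (e : R ≃+* S) {I : Ideal R}
    (h : Big I) : Big (I.map (e : R →+* S)) := by
  refine ⟨fun hb => h.1 ?_, fun p hp hle => ?_⟩
  · exact (Ideal.map_eq_bot_iff_of_injective (f := (e : R →+* S)) e.injective).1 hb
  · apply h.2 (e.symm p)
    · exact (MulEquiv.prime_iff e.symm).2 hp
    · intro x hx
      have h1 : e x ∈ Ideal.span {p} := hle (Ideal.mem_map_of_mem (e : R →+* S) hx)
      rw [Ideal.mem_span_singleton] at h1 ⊢
      have := map_dvd e.symm h1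
      simpa only [RingEquiv.symm_apply_apply] using this

variable {B : Type*} [CommRing B] [IsDomain B] [UniqueFactorizationMonoid B]

theorem exists_comb_const (p g : B[X]) (hp : Prime p) (hdeg : p.natDegree ≠ 0)
    (hg : ¬ p ∣ g) : ∃ b : B, b ≠ 0 ∧ C b ∈ Ideal.span {p, g} := by
  let K := FractionRing B
  let _ : NormalizedGCDMonoid B := Classical.choice (inferInstance)
  have hprim : p.IsPrimitive := hp.irreducible.isPrimitive hdeg
  have hirr : Irreducible (p.map (algebraMap B K)) :=
    (hprim.irreducible_iff_irreducible_map_fraction_map).1 hp.irreducible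
  have hnd : ¬ p.map (algebraMap B K) ∣ g.map (algebraMap B K) := fun h =>
    hg (hprim.dvd_of_fraction_map_dvd_fraction_map h)
  obtain ⟨α, β, hαβ⟩ := (hirr.coprime_iff_not_dvd).2 hnd
  obtain ⟨a, ha, ha'⟩ := IsLocalization.integerNormalization_spec (nonZeroDivisors B) α
  obtain ⟨b, hb, hb'⟩ := IsLocalization.integerNormalization_spec (nonZeroDivisors B) β
  set α' := IsLocalization.integerNormalization (nonZeroDivisors B) α
  set β' := IsLocalization.integerNormalization (nonZeroDivisors B) β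
  have ha0 : a ≠ 0 := nonZeroDivisors.ne_zero ha
  have hb0 : b ≠ 0 := nonZeroDivisors.ne_zero hb
  refine ⟨a * b, mul_ne_zero ha0 hb0, ?_⟩
  rw [Ideal.mem_span_pair]
  refine ⟨C b * α', C a * β', ?_⟩
  apply Polynomial.map_injective (algebraMap B K) (IsFractionRing.injective B K)
  have e1 : (a • α : K[X]) = C (algebraMap B K a) * α := by
    rw [Algebra.smul_def]; rfl
  have e2 : (b • β : K[X]) = C (algebraMap B K b) * β := by
    rw [Algebra.smul_def]; rfl
  simp only [Polynomial.map_add, Polynomial.map_mul, Polynomial.map_C, ha', hb', e1, e2, map_mul]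
  linear_combination (C (algebraMap B K a) * C (algebraMap B K b)) * hαβ

theorem exists_const_of_big (J : Ideal B[X]) (hJ : Big J) : ∃ b : B, b ≠ 0 ∧ C b ∈ J := by
  have claim : ∀ f : B[X], f ≠ 0 → ∀ b : B, b ≠ 0 → C b * f ∈ J → ∃ b : B, b ≠ 0 ∧ C b ∈ J := by
    intro f
    refine UniqueFactorizationMonoid.induction_on_prime f ?_ ?_ ?_
    · intro h; exact absurd rfl h
    · intro x hx _ b hb hbx
      refine ⟨b, hb, ?_⟩
      obtain ⟨u, rfl⟩ := hx
      have := J.mul_mem_right (↑u⁻¹ : B[X]) hbx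
      rwa [mul_assoc, Units.mul_inv, mul_one] at this
    · intro x p hx hp ih _ b hb hbx
      by_cases hdeg : p.natDegree = 0
      · obtain ⟨c, rfl⟩ : ∃ c, p = C c := ⟨_, Polynomial.eq_C_of_natDegree_eq_zero hdeg⟩
        have hc : c ≠ 0 := by
          rintro rfl
          exact hp.ne_zero (by simp)
        refine ih hx (b * c) (mul_ne_zero hb hc) ?_
        rw [map_mul, mul_assoc]; exact hbx
      · obtain ⟨g, hgJ, hg⟩ : ∃ g ∈ J, ¬ p ∣ g := by
          by_contra hcon
          push Not at hcon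
          exact hJ.2 p hp fun g hg => Ideal.mem_span_singleton.2 (hcon g hg)
        obtain ⟨c, hc, hcm⟩ := exists_comb_const p g hp hdeg hg
        obtain ⟨α, β, hαβ⟩ := Ideal.mem_span_pair.1 hcm
        refine ih hx (b * c) (mul_ne_zero hb hc) ?_
        rw [map_mul, ← hαβ]
        have : C b * (α * p + β * g) * x = α * (C b * (p * x)) + (C b * β * x) * g := by ring
        rw [this]
        exact J.add_mem (J.mul_mem_left _ hbx) (J.mul_mem_left _ hgJ)
  obtain ⟨f, hf, hf0⟩ := Submodule.exists_mem_ne_zero_of_ne_bot hJ.1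
  exact claim f hf0 1 one_ne_zero (by simpa using hf)

theorem big_bottom (J : Ideal B[X]) (hsat : ∀ f, X * f ∈ J → f ∈ J) (hJ : Big J) :
    Big (J.map (constantCoeff : B[X] →+* B)) := by
  have hsurj : Function.Surjective (constantCoeff : B[X] →+* B) := fun b => ⟨C b, by simp⟩
  have hmem : ∀ b, b ∈ J.map (constantCoeff : B[X] →+* B) ↔ ∃ f ∈ J, f.coeff 0 = b := by
    intro b
    rw [Ideal.mem_map_iff_of_surjective _ hsurj]
    simp [constantCoeff_apply]
  have hsat' : ∀ (k : ℕ) (f : B[X]), X ^ k * f ∈ J → f ∈ J := by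
    intro k
    induction k with
    | zero => intro f hf; simpa using hf
    | succ k ih =>
      intro f hf
      apply ih
      apply hsat
      rw [← mul_assoc, ← pow_succ']; exact hf
  constructor
  · intro hb
    apply hJ.2 X Polynomial.prime_X
    intro f hf
    have : f.coeff 0 ∈ J.map (constantCoeff : B[X] →+* B) := (hmem _).2 ⟨f, hf, rfl⟩
    rw [hb, Ideal.mem_bot] at this
    rw [Ideal.mem_span_singleton]
    exact Polynomial.X_dvd_iff.2 this
  · intro q hq hle
    obtain ⟨b, hb, hbJ⟩ := exists_const_of_big J hJ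
    obtain ⟨e, u, hqu, rfl⟩ : ∃ e u, ¬ q ∣ u ∧ b = q ^ e * u :=
      WfDvdMonoid.max_power_factor hb hq.irreducible
    have hCq : Prime (C q : B[X]) := Polynomial.prime_C_iff.2 hq
    obtain ⟨f, hfJ, hf⟩ : ∃ f ∈ J, ¬ C q ∣ f := by
      by_contra hcon
      push Not at hcon
      exact hJ.2 _ hCq fun g hg => Ideal.mem_span_singleton.2 (hcon g hg)
    -- split off the part of `f` below the first coefficient prime to `q`
    obtain ⟨k, G, f'', hfG, hG⟩ : ∃ (k : ℕ) (G f'' : B[X]), f = X ^ k * G + C q * f'' ∧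
        ¬ q ∣ G.coeff 0 := by
      have hex : ∃ k, ¬ q ∣ f.coeff k := by
        by_contra hcon
        push Not at hcon
        exact hf ((Polynomial.C_dvd_iff_dvd_coeff _ _).2 hcon)
      classical
      let k := Nat.find hex
      have hk : ¬ q ∣ f.coeff k := Nat.find_spec hex
      have hlt : ∀ j < k, q ∣ f.coeff j := fun j hj => by
        have := Nat.find_min hex hj
        push Not at this
        exact this
      obtain ⟨G, hG⟩ : ∃ G : B[X], ∀ j, G.coeff j = f.coeff (j + k) :=
        ⟨(divX^[k]) f, by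
          intro j
          have : ∀ (k : ℕ) (f : B[X]) (j : ℕ), ((divX^[k]) f).coeff j = f.coeff (j + k) := by
            intro k
            induction k with
            | zero => intro f j; simp
            | succ k ih =>
              intro f j
              rw [Function.iterate_succ_apply, ih, Polynomial.coeff_divX]
              congr 1
          exact this k f j⟩
      have hdiv : C q ∣ f - X ^ k * G := by
        rw [Polynomial.C_dvd_iff_dvd_coeff]
        intro j
        rw [Polynomial.coeff_sub, Polynomial.coeff_X_pow_mul']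
        split_ifs with h
        · rw [hG, Nat.sub_add_cancel h, sub_self]; exact dvd_zero _
        · rw [sub_zero]; exact hlt j (not_le.1 h)
      obtain ⟨f'', hf''⟩ := hdiv
      refine ⟨k, G, f'', ?_, ?_⟩
      · rw [← hf'']; ring
      · rw [hG]; simpa using hk
    -- the key element
    have h1 : C u * (X ^ k * G) ^ e ∈ J := by
      have h2 : X ^ k * G = f + (- (C q * f'')) := by rw [hfG]; ring
      obtain ⟨w, hw⟩ : f ∣ (f + (- (C q * f''))) ^ e - (- (C q * f'')) ^ e := by
        have := sub_dvd_pow_sub_pow (f + (- (C q * f''))) (- (C q * f'')) e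
        simpa only [sub_neg_eq_add, neg_add_cancel_right] using this
      have h3 : C u * (X ^ k * G) ^ e
          = (C u * w) * f + ((-1) ^ e * f'' ^ e) * C (q ^ e * u) := by
        rw [h2, ← sub_add_cancel ((f + (- (C q * f''))) ^ e) ((- (C q * f'')) ^ e), hw,
          neg_pow, mul_pow, map_mul, map_pow]
        ring
      rw [h3]
      exact J.add_mem (J.mul_mem_left _ hfJ) (J.mul_mem_left _ hbJ)
    have h4 : C u * G ^ e ∈ J := by
      apply hsat' (k * e)
      have : X ^ (k * e) * (C u * G ^ e) = C u * (X ^ k * G) ^ e := by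
        rw [mul_pow, pow_mul]; ring
      rw [this]; exact h1
    have h5 : u * G.coeff 0 ^ e ∈ Ideal.span {q} := by
      apply hle
      rw [hmem]
      refine ⟨_, h4, ?_⟩
      rw [Polynomial.coeff_C_mul]
      congr 1
      exact map_pow (constantCoeff : B[X] →+* B) G e
    rw [Ideal.mem_span_singleton] at h5
    rcases hq.dvd_or_dvd h5 with h6 | h6
    · exact hqu h6
    · exact hG (hq.dvd_of_dvd_pow h6)

end Vale.Agent.P246
end
end

section

section

namespace Vale.Agent.P246

open Polynomial LaurentPolynomial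

section

variable {B : Type*} [CommRing B] [IsDomain B] [UniqueFactorizationMonoid B]

theorem laurent_isDomain {B : Type*} [CommRing B] [IsDomain B] : IsDomain B[T;T⁻¹] := by
  have : IsLocalization (Submonoid.powers (X : B[X])) B[T;T⁻¹] := LaurentPolynomial.isLocalization
  exact IsLocalization.isDomain_of_le_nonZeroDivisors (S := B[T;T⁻¹])
    (powers_le_nonZeroDivisors_of_noZeroDivisors (X_ne_zero : (X : B[X]) ≠ 0))

theorem laurent_ufd : UniqueFactorizationMonoid B[T;T⁻¹] := by
  have : IsLocalization (Submonoid.powers (X : B[X])) B[T;T⁻¹] := LaurentPolynomial.isLocalization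
  exact UniqueFactorizationMonoid.of_isLocalization (Submonoid.powers (X : B[X])) _

theorem laurent_prime {p : B[X]} (hp : Prime p) (hX : ¬ p ∣ X) : Prime (toLaurent p) := by
  have : IsLocalization (Submonoid.powers (X : B[X])) B[T;T⁻¹] := LaurentPolynomial.isLocalization
  have h := (IsLocalization.toLocalizationMap (Submonoid.powers (X : B[X])) B[T;T⁻¹]).map_prime hp
  apply h
  · change toLaurent p ≠ 0
    rw [Polynomial.toLaurent_ne_zero]; exact hp.ne_zero
  · intro hu
    change IsUnit (toLaurent p) at hu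
    obtain ⟨w, hw⟩ := hu.exists_right_inv
    obtain ⟨n, w', hw'⟩ := LaurentPolynomial.exists_T_pow w
    have h1 : toLaurent (p * w') = toLaurent (X ^ n) := by
      rw [map_mul, hw', toLaurent_X_pow, ← mul_assoc, hw, one_mul]
    have h2 : p * w' = X ^ n := toLaurent_injective h1
    exact hX (hp.dvd_of_dvd_pow (Dvd.intro _ h2))

theorem toLaurent_mem_of_mul {I : Ideal B[T;T⁻¹]} {n : ℤ} {f : B[T;T⁻¹]} (h : f * T n ∈ I) :
    f ∈ I := by
  have := I.mul_mem_right (T (-n)) h
  rwa [mul_T_assoc, add_neg_cancel, T_zero, mul_one] at this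

theorem big_laurent {I : Ideal B[T;T⁻¹]} (hI : Big I) :
    Big ((I.comap (toLaurent : B[X] →+* B[T;T⁻¹])).map (constantCoeff : B[X] →+* B)) := by
  have hsat : ∀ f : B[X], X * f ∈ I.comap (toLaurent : B[X] →+* B[T;T⁻¹]) →
      f ∈ I.comap (toLaurent : B[X] →+* B[T;T⁻¹]) := by
    intro f hf
    rw [Ideal.mem_comap, map_mul, toLaurent_X, mul_comm] at hf
    exact toLaurent_mem_of_mul hf
  apply big_bottom _ hsat
  obtain ⟨f₀, hf₀, hf₀0⟩ := Submodule.exists_mem_ne_zero_of_ne_bot hI.1
  obtain ⟨n, f₁, hf₁⟩ := LaurentPolynomial.exists_T_pow f₀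
  have hf₁0 : f₁ ≠ 0 := by
    rintro rfl
    rw [map_zero] at hf₁
    apply hf₀0
    have h2 : f₀ * T (n : ℤ) * T (-(n : ℤ)) = 0 := by rw [← hf₁, zero_mul]
    rwa [mul_T_assoc, add_neg_cancel, T_zero, mul_one] at h2
  have hf₁I : f₁ ∈ I.comap (toLaurent : B[X] →+* B[T;T⁻¹]) := by
    rw [Ideal.mem_comap, hf₁]; exact I.mul_mem_right _ hf₀
  constructor
  · intro h
    rw [h, Ideal.mem_bot] at hf₁I
    exact hf₁0 hf₁I
  · intro p hp hle
    by_cases hX : p ∣ X
    · -- descent
      have hXp : (X : B[X]) ∣ p :=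
        ((hp.dvd_prime_iff_associated Polynomial.prime_X).1 hX).symm.dvd
      have key : ∀ k : ℕ, (X : B[X]) ^ k ∣ f₁ := by
        have : ∀ k : ℕ, ∀ f ∈ I.comap (toLaurent : B[X] →+* B[T;T⁻¹]), (X : B[X]) ^ k ∣ f := by
          intro k
          induction k with
          | zero => intro f _; simp
          | succ k ih =>
            intro f hf
            obtain ⟨g, rfl⟩ := hXp.trans (Ideal.mem_span_singleton.1 (hle hf))
            rw [pow_succ']
            exact mul_dvd_mul_left X (ih g (hsat g hf))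
        exact fun k => this k f₁ hf₁I
      have := key (f₁.natDegree + 1)
      have h2 := Polynomial.natDegree_le_of_dvd this hf₁0
      rw [Polynomial.natDegree_X_pow] at h2
      omega
    · apply hI.2 _ (laurent_prime hp hX)
      intro f hf
      obtain ⟨n, f', hf'⟩ := LaurentPolynomial.exists_T_pow f
      have h1 : f' ∈ I.comap (toLaurent : B[X] →+* B[T;T⁻¹]) := by
        rw [Ideal.mem_comap, hf']; exact I.mul_mem_right _ hf
      have h2 : p ∣ f' := Ideal.mem_span_singleton.1 (hle h1)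
      have h3 : toLaurent p ∣ f * T n := by rw [← hf']; exact map_dvd _ h2
      rw [Ideal.mem_span_singleton]
      exact (isUnit_T (n : ℤ)).dvd_mul_right.1 h3

end

end Vale.Agent.P246
end
end

section

section

namespace Vale.Agent.P246

open Polynomial LaurentPolynomial

/-- split off the zeroth coordinate -/
def headTail (n : ℕ) : (Fin (n + 1) → ℤ) ≃+ ℤ × (Fin n → ℤ) where
  toFun f := (f 0, Fin.tail f)
  invFun p := Fin.cons p.1 p.2
  left_inv f := by simp
  right_inv p := by simp
  map_add' f g := by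
    ext
    · rfl
    · rfl

/-- the ring isomorphism splitting off the zeroth variable -/
noncomputable def sig (n : ℕ) : L (n + 1) ≃+* (L n)[T;T⁻¹] :=
  (AddMonoidAlgebra.mapDomainRingEquiv ℤ (headTail n)).trans AddMonoidAlgebra.curryRingEquiv

theorem sig_single (n : ℕ) (γ : Fin (n + 1) → ℤ) (r : ℤ) :
    sig n (AddMonoidAlgebra.single γ r)
      = AddMonoidAlgebra.single (γ 0) (AddMonoidAlgebra.single (Fin.tail γ) r) := by
  have h1 : AddMonoidAlgebra.mapDomainRingEquiv ℤ (headTail n) (AddMonoidAlgebra.single γ r)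
      = AddMonoidAlgebra.single (headTail n γ) r := by
    simp
  rw [sig, RingEquiv.trans_apply, h1]
  exact AddMonoidAlgebra.curryRingEquiv_single _ _ _

theorem sig_coeff (n : ℕ) (f : L (n + 1)) (d : ℤ) (γ : Fin n → ℤ) :
    ((sig n f).coeff d).coeff γ = f.coeff (Fin.cons d γ) := by
  induction f using AddMonoidAlgebra.induction_linear with
  | zero => simp only [map_zero, AddMonoidAlgebra.coeff_zero, Finsupp.coe_zero, Pi.zero_apply]
  | add f g hf hg => simp [hf, hg]
  | single a b =>
    rw [sig_single]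
    simp only [AddMonoidAlgebra.coeff_single, Finsupp.single_apply]
    by_cases h0 : a 0 = d
    · by_cases h1 : Fin.tail a = γ
      · have : a = Fin.cons d γ := by rw [← h0, ← h1, Fin.cons_self_tail]
        simp [this]
      · have : a ≠ Fin.cons d γ := by
          rintro rfl; exact h1 (by simp)
        simp [h0, h1, this]
    · have : a ≠ Fin.cons d γ := by
        rintro rfl; exact h0 (by simp)
      simp [h0, this]

theorem isDomain_L : ∀ n, IsDomain (L n)
  | 0 => by
    have e : L 0 ≃+* ℤ := AddMonoidAlgebra.uniqueRingEquiv _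
    exact MulEquiv.isDomain ℤ e.toMulEquiv
  | n + 1 => by
    have := isDomain_L n
    have := laurent_isDomain (B := L n)
    exact MulEquiv.isDomain _ (sig n).toMulEquiv

theorem ufd_L : ∀ n, UniqueFactorizationMonoid (L n)
  | 0 => by
    have e : L 0 ≃+* ℤ := AddMonoidAlgebra.uniqueRingEquiv _
    exact e.symm.toMulEquiv.uniqueFactorizationMonoid inferInstance
  | n + 1 => by
    have := isDomain_L n
    have := ufd_L n
    have := laurent_ufd (B := L n)
    exact (sig n).symm.toMulEquiv.uniqueFactorizationMonoid inferInstance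

/-- lexicographic order, coordinate zero dominant -/
def lexLt : (n : ℕ) → (Fin n → ℤ) → (Fin n → ℤ) → Prop
  | 0, _, _ => False
  | n + 1, a, b => a 0 < b 0 ∨ (a 0 = b 0 ∧ lexLt n (Fin.tail a) (Fin.tail b))

theorem lexLt_succ (n : ℕ) (a b : Fin (n + 1) → ℤ) :
    lexLt (n + 1) a b ↔ (a 0 < b 0 ∨ (a 0 = b 0 ∧ lexLt n (Fin.tail a) (Fin.tail b))) := Iff.rfl

theorem symm_mem_of_mem_map {R S : Type*} [CommRing R] [CommRing S] (e : R ≃+* S) (I : Ideal R)
    (y : S) (hy : y ∈ I.map (e : R →+* S)) : e.symm y ∈ I := by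
  obtain ⟨x, hx, hx'⟩ := (Ideal.mem_map_iff_of_surjective (e : R →+* S) e.surjective).1 hy
  have : x = e.symm y := by
    rw [RingEquiv.eq_symm_apply]; exact hx'
  rw [← this]; exact hx

theorem toLaurent_coeff_nat {B : Type*} [CommRing B] (f : B[X]) (k : ℕ) :
    (toLaurent f).coeff (k : ℤ) = f.coeff k := by
  rw [coeff_toLaurent]
  exact Finsupp.mapDomain_apply (f := (Nat.castEmbedding : ℕ ↪ ℤ)) Nat.castEmbedding.injective
        f.toFinsupp.coeff k

theorem toLaurent_coeff_neg {B : Type*} [CommRing B] (f : B[X]) (d : ℤ) (hd : d < 0) :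
    (toLaurent f).coeff d = 0 := by
  rw [coeff_toLaurent]
  apply Finsupp.mapDomain_of_notMem_range
  rintro ⟨k, hk⟩
  have : (k : ℤ) = d := hk
  omega

/-- there is an element with lexicographically lowest coefficient one -/
def LexBot {n : ℕ} (h : L n) (α : Fin n → ℤ) : Prop :=
  h.coeff α = 1 ∧ ∀ γ, h.coeff γ ≠ 0 → γ = α ∨ lexLt n α γ

theorem exists_lexBot_zero (I : Ideal (L 0)) (hI : Big I) :
    ∃ h ∈ I, ∃ α, LexBot h α := by
  have e : L 0 ≃+* ℤ := AddMonoidAlgebra.uniqueRingEquiv _
  have : IsPrincipalIdealRing (L 0) := IsPrincipalIdealRing.of_surjective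
    (e.symm : ℤ →+* L 0) e.symm.surjective
  have := isDomain_L 0
  have htop : I = ⊤ := by
    by_contra hne
    obtain ⟨m, hm, hle⟩ := Ideal.exists_le_maximal I hne
    obtain ⟨p, hp⟩ := (IsPrincipalIdealRing.principal m).principal
    have hp0 : p ≠ 0 := by
      rintro rfl
      apply hI.1
      rw [eq_bot_iff]
      intro x hx
      have := hle hx
      rw [hp] at this
      simpa only [Submodule.mem_bot, Submodule.span_zero_singleton] using this
    have hpm : m = Ideal.span {p} := hp
    apply hI.2 p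
    · rw [← Ideal.span_singleton_prime hp0, ← hpm]
      exact hm.isPrime
    · rw [← hpm]; exact hle
  refine ⟨1, by rw [htop]; trivial, 0, ?_, ?_⟩
  · simp [AddMonoidAlgebra.one_def]
  · intro γ _; left; exact Subsingleton.elim _ _

theorem lexBot_step (n : ℕ) (f : (L n)[X]) (α' : Fin n → ℤ) (h : LexBot (f.coeff 0) α') :
    LexBot ((sig n).symm (toLaurent f)) (Fin.cons 0 α') := by
  have key : ∀ γ, ((sig n).symm (toLaurent f)).coeff γ
      = ((toLaurent f).coeff (γ 0)).coeff (Fin.tail γ) := by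
    intro γ
    rw [← Fin.cons_self_tail γ, ← sig_coeff, RingEquiv.apply_symm_apply]
    simp
  have h0 : (toLaurent f).coeff 0 = f.coeff 0 := by
    have := toLaurent_coeff_nat f 0
    rwa [Nat.cast_zero] at this
  constructor
  · rw [key, Fin.cons_zero, Fin.tail_cons, h0]; exact h.1
  · intro γ hγ
    rw [key] at hγ
    rcases lt_trichotomy (γ 0) 0 with h1 | h1 | h1
    · rw [toLaurent_coeff_neg _ _ h1] at hγ
      exact absurd rfl hγ
    · rw [h1, h0] at hγ
      rcases h.2 (Fin.tail γ) hγ with h2 | h2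
      · left
        rw [← Fin.cons_self_tail γ, h2, h1]
      · right
        rw [lexLt_succ]
        right
        simpa [h1] using h2
    · right
      rw [lexLt_succ]
      left
      simpa using h1

theorem exists_lexBot : ∀ (n : ℕ) (I : Ideal (L n)), Big I →
    ∃ h ∈ I, ∃ α, LexBot h α
  | 0, I, hI => exists_lexBot_zero I hI
  | n + 1, I, hI => by
    have := isDomain_L n
    have := ufd_L n
    have hI' := hI.map_equiv (sig n)
    have hbig := big_laurent hI'
    obtain ⟨h', hh', α', hα'⟩ := exists_lexBot n _ hbig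
    have hsurj : Function.Surjective (constantCoeff : (L n)[X] →+* (L n)) := fun b => ⟨C b, by simp⟩
    obtain ⟨f, hf, rfl⟩ := (Ideal.mem_map_iff_of_surjective _ hsurj).1 hh'
    exact ⟨_, symm_mem_of_mem_map (sig n) I _ (Ideal.mem_comap.1 hf), Fin.cons 0 α',
      lexBot_step n f α' hα'⟩

end Vale.Agent.P246
end
end

section

section

namespace Vale.Agent.P246

open Polynomial LaurentPolynomial Matrix

section Rows

variable {ι R : Type*} [Fintype ι] [DecidableEq ι] [CommRing R]

theorem RowEquiv.of_unit_entry (w : ι → R) (i : ι) (hi : IsUnit (w i)) :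
    RowEquiv w (Pi.single i 1) := by
  apply RowEquiv.symm
  refine ⟨(1 : Matrix ι ι R).updateRow i w, ?_, ?_⟩
  · have h1 : ((1 : Matrix ι ι R).updateCol i w).det = w i := by
      rw [← Matrix.cramer_apply, Matrix.cramer_one]; rfl
    have h2 : (1 : Matrix ι ι R).updateRow i w = ((1 : Matrix ι ι R).updateCol i w)ᵀ := by
      rw [← Matrix.updateRow_transpose, Matrix.transpose_one]
    rw [h2, Matrix.det_transpose, h1]; exact hi
  · rw [Matrix.single_one_vecMul]
    funext j
    change ((1 : Matrix ι ι R).updateRow i w) i j = w j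
    rw [Matrix.updateRow_self]

theorem RowEquiv.units_mul (v : ι → R) (u : ι → R) (hu : ∀ i, IsUnit (u i)) :
    RowEquiv v (fun j => u j * v j) := by
  refine ⟨Matrix.diagonal u, ?_, ?_⟩
  · rw [Matrix.det_diagonal]
    exact Finset.prod_induction u IsUnit (fun _ _ => IsUnit.mul) isUnit_one (fun i _ => hu i)
  · funext j
    rw [Matrix.vecMul_diagonal, mul_comm]

theorem RowEquiv.single_single (i j : ι) :
    RowEquiv (Pi.single i 1 : ι → R) (Pi.single j 1) := by
  by_cases h : i = j
  · subst h; exact RowEquiv.refl _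
  · refine ((RowEquiv.of_unit_entry (Pi.single i 1 + Pi.single j 1) i ?_).symm).trans
      (RowEquiv.of_unit_entry (Pi.single i 1 + Pi.single j 1) j ?_)
    · simp [h]
    · simp [Ne.symm h]

end Rows

section

variable {B : Type*} [CommRing B]

theorem coeff_mul_T (f : B[T;T⁻¹]) (n d : ℤ) : (f * T n).coeff d = f.coeff (d - n) := by
  have := AddMonoidAlgebra.coeff_mul_single_add f (1 : B) n (d - n)
  rw [sub_add_cancel, mul_one] at this
  exact this

theorem coeff_C_mul' (f : B[T;T⁻¹]) (c : B) (d : ℤ) :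
    (LaurentPolynomial.C c * f).coeff d = c * f.coeff d := by
  rw [← LaurentPolynomial.smul_eq_C_mul]
  rfl

theorem toLaurent_coeff_nat' (f : B[X]) (k : ℕ) :
    (toLaurent f).coeff (k : ℤ) = f.coeff k := by
  rw [coeff_toLaurent]
  exact Finsupp.mapDomain_apply (f := (Nat.castEmbedding : ℕ ↪ ℤ)) Nat.castEmbedding.injective
        f.toFinsupp.coeff k

theorem exists_toLaurent_of_coeff (g : B[T;T⁻¹]) (hg : ∀ e < 0, g.coeff e = 0) :
    ∃ p : B[X], toLaurent p = g := by
  obtain ⟨n, p', hp'⟩ := LaurentPolynomial.exists_T_pow g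
  have h1 : (X : B[X]) ^ n ∣ p' := by
    rw [Polynomial.X_pow_dvd_iff]
    intro d hd
    rw [← toLaurent_coeff_nat', hp', coeff_mul_T]
    apply hg
    omega
  obtain ⟨p, rfl⟩ := h1
  refine ⟨p, ?_⟩
  rw [map_mul, toLaurent_X_pow, mul_comm] at hp'
  have := congrArg (fun x => x * T (-(n : ℤ))) hp'
  simpa [mul_T_assoc] using this

theorem laurent_row [IsDomain B] {k : ℕ} (v : Fin k → B[T;T⁻¹])
    (hv : Ideal.span (Set.range v) = ⊤) (i : Fin k)
    (d : ℤ) (hd : IsUnit ((v i).coeff d)) (hd' : ∀ e, d < e → (v i).coeff e = 0)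
    (c : ℤ) (hc : IsUnit ((v i).coeff c)) (hc' : ∀ e, e < c → (v i).coeff e = 0) :
    RowEquiv v (Pi.single i 1) := by
  have hcd : c ≤ d := by
    by_contra h
    exact hc.ne_zero (hd' c (not_le.1 h))
  -- the polynomial row
  have h1 : ∀ j, ∃ (p : B[X]) (u : B[T;T⁻¹]), IsUnit u ∧ toLaurent p = u * v j ∧
      (j = i → p.Monic ∧ IsUnit (p.coeff 0)) := by
    intro j
    by_cases hj : j = i
    · subst hj
      obtain ⟨b, hb⟩ := hd.exists_left_inv
      have hbu : IsUnit b := IsUnit.of_mul_eq_one _ hb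
      set g := LaurentPolynomial.C b * (v j * T (-c)) with hg
      have hgc : ∀ e, g.coeff e = b * (v j).coeff (e + c) := by
        intro e
        rw [hg, coeff_C_mul', coeff_mul_T, sub_neg_eq_add]
      obtain ⟨p, hp⟩ := exists_toLaurent_of_coeff g (fun e he => by
        rw [hgc, hc' _ (by omega), mul_zero])
      refine ⟨p, LaurentPolynomial.C b * T (-c), (hbu.map _).mul (isUnit_T _), ?_, fun _ => ?_⟩
      · rw [hp, hg]; ring
      · have hpc : ∀ k : ℕ, p.coeff k = b * (v j).coeff (k + c) := by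
          intro k
          rw [← toLaurent_coeff_nat', hp, hgc]
        constructor
        · apply Polynomial.monic_of_natDegree_le_of_coeff_eq_one (d - c).toNat
          · rw [Polynomial.natDegree_le_iff_coeff_eq_zero]
            intro N hN
            rw [hpc, hd' _ (by omega), mul_zero]
          · rw [hpc, show (((d - c).toNat : ℕ) : ℤ) + c = d by omega]; exact hb
        · rw [hpc]
          simpa only [CharP.cast_eq_zero, zero_add, IsUnit.mul_iff] using hbu.mul hc
    · obtain ⟨n, p, hp⟩ := LaurentPolynomial.exists_T_pow (v j)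
      exact ⟨p, T n, isUnit_T _, by rw [hp, mul_comm], fun h => absurd h hj⟩
  choose p u hu hpu hi using h1
  obtain ⟨hmonic, h0⟩ := hi i rfl
  have hrow : RowEquiv v (fun j => toLaurent (p j)) := by
    have := RowEquiv.units_mul v u hu
    simpa [hpu] using this
  have hspan : Ideal.span (Set.range p) = ⊤ := by
    by_contra hne
    obtain ⟨m, hm, hle⟩ := Ideal.exists_le_maximal _ hne
    have hX : X ∉ m := by
      intro hX
      apply hm.ne_top
      have h2 : Polynomial.C ((p i).coeff 0) ∈ m := by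
        have h3 := Polynomial.divX_mul_X_add (p i)
        have h4 : Polynomial.C ((p i).coeff 0) = p i - (p i).divX * X := by
          rw [eq_sub_iff_add_eq, add_comm]; exact h3
        rw [h4]
        exact m.sub_mem (hle (Ideal.subset_span ⟨i, rfl⟩)) (m.mul_mem_left _ hX)
      exact Ideal.eq_top_of_isUnit_mem m h2 (h0.map Polynomial.C)
    have hloc : IsLocalization (Submonoid.powers (X : B[X])) B[T;T⁻¹] :=
      LaurentPolynomial.isLocalization
    have h2 : (1 : B[T;T⁻¹]) ∈ Ideal.map (algebraMap B[X] B[T;T⁻¹]) (Ideal.span (Set.range p)) := by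
      have h3 : Ideal.map (algebraMap B[X] B[T;T⁻¹]) (Ideal.span (Set.range p)) = ⊤ := by
        rw [Ideal.map_span, ← Set.range_comp]
        have := hrow.span_eq
        rw [hv] at this
        exact this.symm
      rw [h3]; trivial
    rw [IsLocalization.mem_map_algebraMap_iff (Submonoid.powers (X : B[X]))] at h2
    obtain ⟨⟨⟨x, hx⟩, ⟨_, ⟨n, rfl⟩⟩⟩, hxy⟩ := h2
    rw [one_mul] at hxy
    have h5 : (X : B[X]) ^ n = x := toLaurent_injective hxy
    exact hX (hm.isPrime.mem_of_pow_mem n (by rw [h5]; exact hle hx))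
  have hs := suslin_monic p hspan i hmonic
  have hs' := hs.map (toLaurent : B[X] →+* B[T;T⁻¹])
  refine hrow.trans (hs'.trans (RowEquiv.of_unit_entry _ i ?_))
  rw [Polynomial.toLaurent_C]
  rw [Polynomial.coeff_zero_eq_eval_zero] at h0
  exact h0.map _

end

end Vale.Agent.P246
end
end

section

section

namespace Vale.Agent.P246

open Polynomial LaurentPolynomial Matrix

/-! ### lexicographic order and weights -/

theorem lexLt_add : ∀ (n : ℕ) (a b c : Fin n → ℤ), lexLt n a b → lexLt n (a + c) (b + c)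
  | 0, _, _, _, h => h
  | n + 1, a, b, c, h => by
    rcases h with h | ⟨h1, h2⟩
    · left
      simpa using h
    · right
      refine ⟨by simp [h1], ?_⟩
      exact lexLt_add n _ _ (Fin.tail c) h2

theorem lexLt_neg : ∀ (n : ℕ) (a b : Fin n → ℤ), lexLt n a b → lexLt n (-b) (-a)
  | 0, _, _, h => h
  | n + 1, a, b, h => by
    rcases h with h | ⟨h1, h2⟩
    · left
      simpa using h
    · right
      refine ⟨by simp [h1], ?_⟩
      exact lexLt_neg n _ _ h2

theorem lexLt_of_zero {n : ℕ} {a b : Fin (n + 1) → ℤ} (h : a 0 < b 0) : lexLt (n + 1) a b :=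
  Or.inl h

/-- the inductive step of the change of coordinates -/
def wstep (n : ℕ) (M : ℤ) (φ : (Fin (n + 1) → ℤ) ≃+ (Fin (n + 1) → ℤ)) :
    (Fin (n + 2) → ℤ) ≃+ (Fin (n + 2) → ℤ) where
  toFun a := Fin.cons (M * a 0 + φ (Fin.tail a) 0) (Fin.cons (a 0) (Fin.tail (φ (Fin.tail a))))
  invFun b := Fin.cons (b 1) (φ.symm (Fin.cons (b 0 - M * b 1) (Fin.tail (Fin.tail b))))
  left_inv a := by
    funext i
    refine Fin.cases ?_ (fun j => ?_) i
    · simp
    · simp only [Fin.cons_zero, Fin.cons_succ, Fin.tail_cons, Fin.cons_one, add_sub_cancel_left,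
        Fin.cons_self_tail, AddEquiv.symm_apply_apply]
      rfl
  right_inv b := by
    funext i
    refine Fin.cases ?_ (fun j => ?_) i
    · simp
    · simp only [Fin.cons_zero, Fin.cons_succ, Fin.tail_cons,
        AddEquiv.apply_symm_apply]
      refine Fin.cases ?_ (fun l => ?_) j
      · simp
      · rfl
  map_add' a b := by
    funext i
    refine Fin.cases ?_ (fun j => ?_) i
    · simp only [Fin.cons_zero, Pi.add_apply]
      have : Fin.tail (a + b) = Fin.tail a + Fin.tail b := rfl
      rw [this, map_add, Pi.add_apply]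
      ring
    · simp only [Fin.cons_succ, Pi.add_apply]
      refine Fin.cases ?_ (fun l => ?_) j
      · simp
      · have : Fin.tail (a + b) = Fin.tail a + Fin.tail b := rfl
        simp only [Fin.cons_succ]
        rw [this, map_add]
        rfl

theorem exists_weight : ∀ (n : ℕ) (S : Finset (Fin (n + 1) → ℤ)),
    ∃ φ : (Fin (n + 1) → ℤ) ≃+ (Fin (n + 1) → ℤ),
      ∀ a ∈ S, ∀ b ∈ S, lexLt (n + 1) a b → φ a 0 < φ b 0
  | 0, S => by
    refine ⟨AddEquiv.refl _, fun a _ b _ h => ?_⟩
    rcases h with h | ⟨_, h2⟩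
    · exact h
    · exact h2.elim
  | n + 1, S => by
    classical
    obtain ⟨φ, hφ⟩ := exists_weight n (S.image Fin.tail)
    obtain ⟨K, hK⟩ : ∃ K : ℤ, ∀ a ∈ S, |φ (Fin.tail a) 0| ≤ K := by
      obtain ⟨K, hK⟩ := (S.image fun a => |φ (Fin.tail a) 0|).bddAbove
      exact ⟨K, fun a ha => hK (by simpa using ⟨a, ha, rfl⟩)⟩
    refine ⟨wstep n (2 * K + 1) φ, fun a ha b hb h => ?_⟩
    change (2 * K + 1) * a 0 + φ (Fin.tail a) 0 < (2 * K + 1) * b 0 + φ (Fin.tail b) 0
    have h1 := abs_le.1 (hK a ha)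
    have h2 := abs_le.1 (hK b hb)
    rcases h with h | ⟨h3, h4⟩
    · have hK0 : 0 ≤ K := (abs_nonneg _).trans (hK a ha)
      have h5 : a 0 + 1 ≤ b 0 := h
      have h6 : (2 * K + 1) * (a 0 + 1) ≤ (2 * K + 1) * b 0 :=
        mul_le_mul_of_nonneg_left h5 (by omega)
      linarith only [h1, h2, h6]
    · rw [h3]
      have := hφ _ (Finset.mem_image_of_mem _ ha) _ (Finset.mem_image_of_mem _ hb) h4
      linarith

/-! ### rows with an extreme entry -/

theorem isUnit_monomial {R M : Type*} [CommRing R] [AddCommGroup M] (a : M) :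
    IsUnit (AddMonoidAlgebra.single a (1 : R)) := by
  refine IsUnit.of_mul_eq_one (AddMonoidAlgebra.single (-a) (1 : R)) ?_
  rw [AddMonoidAlgebra.single_mul_single, add_neg_cancel, mul_one]
  rfl

theorem RowEquiv.of_map_equiv {ι R S : Type*} [Fintype ι] [DecidableEq ι] [CommRing R]
    [CommRing S] (e : R ≃+* S) {v w : ι → R}
    (h : RowEquiv (fun i => e (v i)) (fun i => e (w i))) : RowEquiv v w := by
  have := h.map (e.symm : S →+* R)
  simpa using this

theorem span_range_map_equiv {ι R S : Type*} [CommRing R]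
    [CommRing S] (e : R ≃+* S) {v : ι → R} (h : Ideal.span (Set.range v) = ⊤) :
    Ideal.span (Set.range fun i => e (v i)) = ⊤ := by
  have h1 : Ideal.map (e : R →+* S) (Ideal.span (Set.range v)) = ⊤ := by rw [h, Ideal.map_top]
  rw [Ideal.map_span, ← Set.range_comp] at h1
  exact h1

/-- the ring isomorphism: coordinate change followed by splitting off a variable -/
noncomputable def psi (n : ℕ) (φ : (Fin (n + 1) → ℤ) ≃+ (Fin (n + 1) → ℤ)) :
    L (n + 1) ≃+* (L n)[T;T⁻¹] :=
  (AddMonoidAlgebra.mapDomainRingEquiv ℤ φ).trans (sig n)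

theorem psi_coeff (n : ℕ) (φ : (Fin (n + 1) → ℤ) ≃+ (Fin (n + 1) → ℤ)) (f : L (n + 1))
    (d : ℤ) (γ : Fin n → ℤ) :
    ((psi n φ f).coeff d).coeff γ = f.coeff (φ.symm (Fin.cons d γ)) := by
  rw [psi, RingEquiv.trans_apply, sig_coeff]
  exact Finsupp.mapDomain_equiv_apply (f := φ.toEquiv) f.coeff _

theorem psi_coeff_eq_single (n : ℕ) (φ : (Fin (n + 1) → ℤ) ≃+ (Fin (n + 1) → ℤ)) (f : L (n + 1))
    (α : Fin (n + 1) → ℤ) (h1 : f.coeff α = 1)
    (h2 : ∀ γ, f.coeff γ ≠ 0 → φ γ 0 = φ α 0 → γ = α) :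
    (psi n φ f).coeff (φ α 0) = AddMonoidAlgebra.single (Fin.tail (φ α)) 1 := by
  refine AddMonoidAlgebra.ext (Finsupp.ext fun γ => ?_)
  rw [psi_coeff, AddMonoidAlgebra.coeff_single, Finsupp.single_apply]
  split_ifs with h
  · rw [← h, Fin.cons_self_tail, AddEquiv.symm_apply_apply, h1]
  · by_contra hne
    have := h2 _ hne (by simp)
    apply h
    have h3 := congrArg φ this
    rw [AddEquiv.apply_symm_apply] at h3
    rw [← h3, Fin.tail_cons]

theorem psi_coeff_eq_zero (n : ℕ) (φ : (Fin (n + 1) → ℤ) ≃+ (Fin (n + 1) → ℤ)) (f : L (n + 1))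
    (d : ℤ) (h2 : ∀ γ, f.coeff γ ≠ 0 → φ γ 0 ≠ d) :
    (psi n φ f).coeff d = 0 := by
  refine AddMonoidAlgebra.ext (Finsupp.ext fun γ => ?_)
  rw [psi_coeff]
  by_contra hne
  exact h2 _ hne (by simp)

theorem row_of_extreme (n : ℕ) {k : ℕ} (v : Fin k → L (n + 1))
    (hv : Ideal.span (Set.range v) = ⊤) (i : Fin k) (α β : Fin (n + 1) → ℤ)
    (hα : (v i).coeff α = 1) (hα' : ∀ γ, (v i).coeff γ ≠ 0 → γ = α ∨ lexLt (n + 1) γ α)
    (hβ : (v i).coeff β = 1) (hβ' : ∀ γ, (v i).coeff γ ≠ 0 → γ = β ∨ lexLt (n + 1) β γ) :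
    RowEquiv v (Pi.single i 1) := by
  have hdom := isDomain_L n
  obtain ⟨φ, hφ⟩ := exists_weight n (v i).coeff.support
  have hαS : α ∈ (v i).coeff.support := by rw [Finsupp.mem_support_iff, hα]; exact one_ne_zero
  have hβS : β ∈ (v i).coeff.support := by rw [Finsupp.mem_support_iff, hβ]; exact one_ne_zero
  have h1 : ∀ γ, (v i).coeff γ ≠ 0 → γ = α ∨ φ γ 0 < φ α 0 := by
    intro γ hγ
    rcases hα' γ hγ with h | h
    · exact Or.inl h
    · exact Or.inr (hφ _ (Finsupp.mem_support_iff.2 hγ) _ hαS h)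
  have h2 : ∀ γ, (v i).coeff γ ≠ 0 → γ = β ∨ φ β 0 < φ γ 0 := by
    intro γ hγ
    rcases hβ' γ hγ with h | h
    · exact Or.inl h
    · exact Or.inr (hφ _ hβS _ (Finsupp.mem_support_iff.2 hγ) h)
  apply RowEquiv.of_map_equiv (psi n φ)
  have key := laurent_row (fun j => psi n φ (v j)) (span_range_map_equiv _ hv) i (φ α 0)
    (by
      rw [psi_coeff_eq_single n φ (v i) α hα (fun γ hγ h => by
        rcases h1 γ hγ with h' | h'
        · exact h'
        · omega)]
      exact isUnit_monomial _)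
    (fun e he => psi_coeff_eq_zero n φ (v i) e (fun γ hγ h => by
      rcases h1 γ hγ with h' | h'
      · rw [h'] at h; omega
      · omega))
    (φ β 0)
    (by
      rw [psi_coeff_eq_single n φ (v i) β hβ (fun γ hγ h => by
        rcases h2 γ hγ with h' | h'
        · exact h'
        · omega)]
      exact isUnit_monomial _)
    (fun e he => psi_coeff_eq_zero n φ (v i) e (fun γ hγ h => by
      rcases h2 γ hγ with h' | h'
      · rw [h'] at h; omega
      · omega))
  have h3 : (fun j => psi n φ ((Pi.single i 1 : Fin k → L (n + 1)) j))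
      = (Pi.single i 1 : Fin k → (L n)[T;T⁻¹]) := by
    funext j
    by_cases hj : j = i
    · subst hj; simp
    · simp [hj]
  rw [h3]
  exact key

/-! ### making entries generate a big ideal -/

theorem avoid_many {R ι : Type*} [CommRing R] [IsDomain R] [UniqueFactorizationMonoid R]
    [DecidableEq ι] (f a : R) (hf : f ≠ 0) (v : ι → R) (s : Finset ι) :
    ∃ c : ι → R, ∀ p, Prime p → p ∣ f →
      (p ∣ a + ∑ j ∈ s, c j * v j ↔ p ∣ a ∧ ∀ j ∈ s, p ∣ v j) := by
  induction s using Finset.induction_on with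
  | empty => exact ⟨0, fun p hp hpf => by simp only [Pi.zero_apply, zero_mul, Finset.sum_const_zero, add_zero, Finset.notMem_empty, IsEmpty.forall_iff, implies_true, and_true]⟩
  | insert i s his ih =>
    obtain ⟨c, hc⟩ := ih
    set a' := a + ∑ j ∈ s, c j * v j with ha'
    obtain ⟨u, _, hu⟩ := exists_avoid a' f hf
    refine ⟨Function.update c i u, fun p hp hpf => ?_⟩
    have h1 : a + ∑ j ∈ insert i s, Function.update c i u j * v j = a' + u * v i := by
      rw [Finset.sum_insert his, Function.update_self, ha']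
      have : ∑ j ∈ s, Function.update c i u j * v j = ∑ j ∈ s, c j * v j := by
        refine Finset.sum_congr rfl fun j hj => ?_
        rw [Function.update_of_ne (by rintro rfl; exact his hj)]
      rw [this]; ring
    rw [h1]
    have h2 := hc p hp hpf
    by_cases hpa : p ∣ a'
    · have hpu : ¬ p ∣ u := fun h => ((hu p hp).1 h).2 hpa
      rw [dvd_add_right hpa]
      constructor
      · intro h
        rcases hp.dvd_or_dvd h with h3 | h3
        · exact absurd h3 hpu
        · obtain ⟨h4, h5⟩ := h2.1 hpa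
          refine ⟨h4, fun j hj => ?_⟩
          rcases Finset.mem_insert.1 hj with rfl | hj
          · exact h3
          · exact h5 j hj
      · rintro ⟨_, h⟩
        exact (h i (Finset.mem_insert_self _ _)).mul_left _
    · have hpu : p ∣ u := (hu p hp).2 ⟨hpf, hpa⟩
      constructor
      · intro h
        exact absurd ((dvd_add_left (hpu.mul_right _)).1 h) hpa
      · rintro ⟨h3, h4⟩
        exact absurd (h2.2 ⟨h3, fun j hj => h4 j (Finset.mem_insert_of_mem hj)⟩) hpa

/-! ### the main theorem -/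

/-- the inversion automorphism -/
noncomputable def inv (n : ℕ) : L n ≃+* L n :=
  AddMonoidAlgebra.mapDomainRingEquiv ℤ (AddEquiv.neg (Fin n → ℤ))

theorem inv_coeff (n : ℕ) (f : L n) (γ : Fin n → ℤ) : (inv n f).coeff γ = f.coeff (-γ) :=
  Finsupp.mapDomain_equiv_apply (f := (AddEquiv.neg (Fin n → ℤ)).toEquiv) f.coeff γ

theorem exists_lexTop (n : ℕ) (I : Ideal (L n)) (hI : Big I) :
    ∃ h ∈ I, ∃ α, h.coeff α = 1 ∧ ∀ γ, h.coeff γ ≠ 0 → γ = α ∨ lexLt n γ α := by
  obtain ⟨h, hh, α, h1, h2⟩ := exists_lexBot n _ (hI.map_equiv (inv n))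
  refine ⟨(inv n).symm h, symm_mem_of_mem_map _ _ _ hh, -α, ?_, ?_⟩
  · rw [← inv_coeff, RingEquiv.apply_symm_apply]; exact h1
  · intro γ hγ
    rw [← neg_neg γ, ← inv_coeff, RingEquiv.apply_symm_apply] at hγ
    rcases h2 _ hγ with h3 | h3
    · left; rw [← h3, neg_neg]
    · right
      have := lexLt_neg n _ _ h3
      rwa [neg_neg] at this

theorem coeff_monomial_mul (n : ℕ) (f : L n) (a γ : Fin n → ℤ) :
    (AddMonoidAlgebra.single a (1 : ℤ) * f).coeff γ = f.coeff (γ - a) := by
  rw [mul_comm]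
  have := AddMonoidAlgebra.coeff_mul_single_add f (1 : ℤ) a (γ - a)
  rwa [sub_add_cancel, mul_one] at this

/-- a big ideal contains an element whose addition to `f` makes it extreme -/
theorem exists_extreme (n : ℕ) (I : Ideal (L (n + 1))) (hI : Big I) (f : L (n + 1)) :
    ∃ h ∈ I, ∃ α β, (f + h).coeff α = 1 ∧
      (∀ γ, (f + h).coeff γ ≠ 0 → γ = α ∨ lexLt (n + 1) γ α) ∧
      (f + h).coeff β = 1 ∧
      (∀ γ, (f + h).coeff γ ≠ 0 → γ = β ∨ lexLt (n + 1) β γ) := by
  classical
  obtain ⟨s, hs, β, hs1, hs2⟩ := exists_lexBot _ I hI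
  obtain ⟨t, ht, α, ht1, ht2⟩ := exists_lexTop _ I hI
  -- a bound on first coordinates
  obtain ⟨K, hK⟩ : ∃ K : ℤ, ∀ γ ∈ f.coeff.support ∪ s.coeff.support ∪ t.coeff.support ∪ {α, β},
      |γ 0| ≤ K := by
    obtain ⟨K, hK⟩ := ((f.coeff.support ∪ s.coeff.support ∪ t.coeff.support ∪ {α, β}).image
      fun γ : Fin (n + 1) → ℤ => |γ 0|).bddAbove
    exact ⟨K, fun γ hγ => hK (by
      rw [Finset.coe_image]
      exact ⟨γ, hγ, rfl⟩)⟩
  have hf : ∀ γ, f.coeff γ ≠ 0 → -K ≤ γ 0 ∧ γ 0 ≤ K := fun γ hγ =>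
    abs_le.1 (hK γ (by simp only [Finset.union_assoc, Finset.union_insert, Finset.union_singleton, Finset.mem_insert, Finset.mem_union, Finsupp.mem_support_iff, ne_eq, hγ, not_false_eq_true, true_or, or_true]))
  have hsK : ∀ γ, s.coeff γ ≠ 0 → -K ≤ γ 0 ∧ γ 0 ≤ K := fun γ hγ =>
    abs_le.1 (hK γ (by simp only [Finset.union_assoc, Finset.union_insert, Finset.union_singleton, Finset.mem_insert, Finset.mem_union, Finsupp.mem_support_iff, ne_eq, hγ, not_false_eq_true, true_or, or_true]))
  have htK : ∀ γ, t.coeff γ ≠ 0 → -K ≤ γ 0 ∧ γ 0 ≤ K := fun γ hγ =>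
    abs_le.1 (hK γ (by simp only [Finset.union_assoc, Finset.union_insert, Finset.union_singleton, Finset.mem_insert, Finset.mem_union, Finsupp.mem_support_iff, ne_eq, hγ, not_false_eq_true, or_true]))
  have hα : -K ≤ α 0 ∧ α 0 ≤ K := abs_le.1 (hK α (by simp only [Finset.union_assoc, Finset.union_insert, Finset.union_singleton, Finset.mem_insert, Finset.mem_union, Finsupp.mem_support_iff, ne_eq, true_or]))
  have hβ : -K ≤ β 0 ∧ β 0 ≤ K := abs_le.1 (hK β (by simp only [Finset.union_assoc, Finset.union_insert, Finset.union_singleton, Finset.mem_insert, Finset.mem_union, Finsupp.mem_support_iff, ne_eq, true_or, or_true]))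
  have hK0 : 0 ≤ K := by omega
  set u : Fin (n + 1) → ℤ := Pi.single 0 (K + 1) with hu
  have hu0 : u 0 = K + 1 := by simp [hu]
  set h : L (n + 1) := AddMonoidAlgebra.single (u - α) (1 : ℤ) * t
    + AddMonoidAlgebra.single (- u - β) (1 : ℤ) * s with hh
  have hc : ∀ γ, (f + h).coeff γ = f.coeff γ + (t.coeff (γ - (u - α)) + s.coeff (γ - (-u - β))) := by
    intro γ
    rw [AddMonoidAlgebra.coeff_add, Finsupp.add_apply, hh, AddMonoidAlgebra.coeff_add,
      Finsupp.add_apply, coeff_monomial_mul, coeff_monomial_mul]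
  have hcases : ∀ γ, (f + h).coeff γ ≠ 0 → (-K ≤ γ 0 ∧ γ 0 ≤ K) ∨ t.coeff (γ - (u - α)) ≠ 0
      ∨ s.coeff (γ - (-u - β)) ≠ 0 := by
    intro γ hγ
    by_contra hcon
    push Not at hcon
    obtain ⟨h1, h2, h3⟩ := hcon
    apply hγ
    rw [hc, h2, h3, add_zero, add_zero]
    by_contra h4
    obtain ⟨h5, h6⟩ := hf γ h4
    have := h1 h5
    omega
  have c0 : ∀ γ : Fin (n + 1) → ℤ, (γ - (u - α)) 0 = γ 0 - (K + 1 - α 0) := by
    intro γ; simp [hu0]
  have c1 : ∀ γ : Fin (n + 1) → ℤ, (γ - (-u - β)) 0 = γ 0 + (K + 1) + β 0 := by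
    intro γ; simp [hu0]; ring
  refine ⟨h, I.add_mem (I.mul_mem_left _ ht) (I.mul_mem_left _ hs), u, -u, ?_, ?_, ?_, ?_⟩
  · rw [hc]
    have e1 : f.coeff u = 0 := by
      by_contra h1
      have := hf _ h1
      omega
    have e2 : u - (u - α) = α := by abel
    have e3 : s.coeff (u - (-u - β)) = 0 := by
      by_contra h1
      have := hsK _ h1
      rw [c1] at this
      omega
    rw [e1, e2, e3, ht1]; rfl
  · intro γ hγ
    rcases hcases γ hγ with h1 | h1 | h1
    · right
      apply lexLt_of_zero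
      omega
    · rcases ht2 _ h1 with h2 | h2
      · left
        rw [sub_eq_iff_eq_add] at h2
        rw [h2]; abel
      · right
        have := lexLt_add _ _ _ (u - α) h2
        rwa [sub_add_cancel, add_sub_cancel] at this
    · right
      apply lexLt_of_zero
      have := hsK _ h1
      rw [c1] at this
      omega
  · rw [hc]
    have e1 : f.coeff (-u) = 0 := by
      by_contra h1
      have := hf _ h1
      rw [Pi.neg_apply] at this
      omega
    have e2 : -u - (-u - β) = β := by abel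
    have e3 : t.coeff (-u - (u - α)) = 0 := by
      by_contra h1
      have := htK _ h1
      rw [c0, Pi.neg_apply] at this
      omega
    rw [e1, e2, e3, hs1]; rfl
  · intro γ hγ
    rcases hcases γ hγ with h1 | h1 | h1
    · right
      apply lexLt_of_zero
      rw [Pi.neg_apply]
      omega
    · right
      apply lexLt_of_zero
      have := htK _ h1
      rw [c0] at this
      rw [Pi.neg_apply]
      omega
    · rcases hs2 _ h1 with h2 | h2
      · left
        rw [sub_eq_iff_eq_add] at h2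
        rw [h2]; abel
      · right
        have := lexLt_add _ _ _ (-u - β) h2
        rwa [sub_add_cancel, add_sub_cancel] at this

end Vale.Agent.P246
end
end

section

section

namespace Vale.Agent.P246

open Function

section Basic

variable (R : Type*) [Ring R]

/-- `GL_m(R)` acts transitively on the surjections `R^m → M`, for every `m`. -/
def IsTrans (M : Type*) [AddCommGroup M] [Module R M] : Prop :=
  ∀ (m : ℕ) (θ θ' : (Fin m → R) →ₗ[R] M), Surjective θ → Surjective θ' →
    ∃ g : (Fin m → R) ≃ₗ[R] (Fin m → R), ∀ x, θ' x = θ (g x)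

variable {R}
variable {M N : Type*} [AddCommGroup M] [Module R M] [AddCommGroup N] [Module R N]

theorem IsTrans.apply (h : IsTrans R M) {X Y : Type*} [AddCommGroup X] [Module R X]
    [AddCommGroup Y] [Module R Y] {m : ℕ} (eX : X ≃ₗ[R] (Fin m → R)) (eY : Y ≃ₗ[R] (Fin m → R))
    (θ : X →ₗ[R] M) (θ' : Y →ₗ[R] M) (hθ : Surjective θ) (hθ' : Surjective θ') :
    ∃ g : Y ≃ₗ[R] X, ∀ y, θ' y = θ (g y) := by
  obtain ⟨g, hg⟩ := h m (θ ∘ₗ eX.symm.toLinearMap) (θ' ∘ₗ eY.symm.toLinearMap)
    (by simpa using hθ) (by simpa using hθ')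
  refine ⟨eY.trans (g.trans eX.symm), fun y => ?_⟩
  have := hg (eY y)
  simpa using this

theorem IsTrans.of_equiv (h : IsTrans R M) (e : M ≃ₗ[R] N) : IsTrans R N := by
  intro m θ θ' hθ hθ'
  obtain ⟨g, hg⟩ := h m (e.symm.toLinearMap ∘ₗ θ) (e.symm.toLinearMap ∘ₗ θ')
    (by simpa using hθ) (by simpa using hθ')
  refine ⟨g, fun x => ?_⟩
  have := hg x
  simpa using this

/-- The fibering lemma. -/
theorem fib {P Y : Type*} [AddCommGroup P] [Module R P] [AddCommGroup Y] [Module R Y]
    [Module.Projective R P] (α₁ α₂ : (P × Y) →ₗ[R] M)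
    (h1 : Surjective (fun y => α₁ (0, y)))
    (e : Y ≃ₗ[R] Y) (he : ∀ y, α₂ (0, y) = α₁ (0, e y)) :
    ∃ g : (P × Y) ≃ₗ[R] (P × Y), (∀ z, α₂ z = α₁ (g z)) ∧ ∀ z, (g z).1 = z.1 := by
  -- a correction map
  obtain ⟨c, hc⟩ := Module.projective_lifting_property (α₁ ∘ₗ LinearMap.inr R P Y)
    (α₂ ∘ₗ LinearMap.inl R P Y - α₁ ∘ₗ LinearMap.inl R P Y) (by
      intro m; obtain ⟨y, hy⟩ := h1 m; exact ⟨y, by simpa using hy⟩)
  have hc' : ∀ p, α₁ (0, c p) = α₂ (p, 0) - α₁ (p, 0) := by
    intro p
    have := LinearMap.congr_fun hc p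
    simpa using this
  refine ⟨LinearEquiv.ofLinearMap
      (LinearMap.prod (LinearMap.fst R P Y)
        (e.toLinearMap ∘ₗ LinearMap.snd R P Y + c ∘ₗ LinearMap.fst R P Y))
      (LinearMap.prod (LinearMap.fst R P Y)
        (e.symm.toLinearMap ∘ₗ (LinearMap.snd R P Y - c ∘ₗ LinearMap.fst R P Y)))
      ?_ ?_, ?_, ?_⟩
  · ext x <;> simp
  · ext x <;> simp
  · rintro ⟨p, y⟩
    have e1 : α₂ (p, y) = α₂ (p, 0) + α₂ (0, y) := by rw [← map_add]; simp
    have e2 : α₁ (p, e y + c p) = α₁ (p, 0) + α₁ (0, e y) + α₁ (0, c p) := by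
      rw [← map_add, ← map_add]; simp
    simp only [e1, he, LinearEquiv.coe_ofLinearMap, LinearMap.prod_apply, LinearMap.coe_fst, Function.prod_apply, LinearMap.add_apply, LinearMap.coe_comp, LinearEquiv.coe_coe, LinearMap.coe_snd, comp_apply, e2, hc']
    abel
  · rintro ⟨p, y⟩; simp only [LinearEquiv.coe_ofLinearMap, LinearMap.prod_apply, LinearMap.coe_fst, Function.prod_apply, LinearMap.add_apply, LinearMap.coe_comp, LinearEquiv.coe_coe, LinearMap.coe_snd, comp_apply]

theorem isTrans_of_subsingleton [Subsingleton M] : IsTrans R M := by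
  intro m θ θ' _ _
  exact ⟨LinearEquiv.refl R _, fun x => Subsingleton.elim _ _⟩

/-- adding a free summand of rank one -/
theorem IsTrans.prod_self (hR : IsTrans R R) (hM : IsTrans R M) : IsTrans R (M × R) := by
  intro m θ θ' hθ hθ'
  rcases m with _ | m
  · -- everything is trivial
    have : Subsingleton (Fin 0 → R) := inferInstance
    exact ⟨LinearEquiv.refl R _, fun x => by
      have : x = 0 := Subsingleton.elim _ _
      rw [this, map_zero, map_zero, map_zero]⟩
  · -- coordinates `R × R^m`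
    let eY : (R × (Fin m → R)) ≃ₗ[R] (Fin (m+1) → R) :=
      (Fin.consLinearEquiv R (fun _ : Fin (m+1) => R))
    have hst : Surjective ((LinearMap.fst R R (Fin m → R))) := LinearMap.fst_surjective
    -- normal form of θ
    have key : ∀ θ : (Fin (m+1) → R) →ₗ[R] (M × R), Surjective θ →
        ∃ g : (R × (Fin m → R)) ≃ₗ[R] (Fin (m+1) → R), ∀ z, (θ (g z)).2 = z.1 := by
      intro θ hθ
      obtain ⟨g, hg⟩ := hR.apply (LinearEquiv.refl R _) eY (LinearMap.snd R M R ∘ₗ θ)
        (LinearMap.fst R R (Fin m → R)) (by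
          intro r
          obtain ⟨x, hx⟩ := hθ (0, r)
          exact ⟨x, by simp [hx]⟩) hst
      exact ⟨g, fun z => by simpa using (hg z).symm⟩
    obtain ⟨g, hg⟩ := key θ hθ
    obtain ⟨g', hg'⟩ := key θ' hθ'
    let α : (R × (Fin m → R)) →ₗ[R] M := LinearMap.fst R M R ∘ₗ θ ∘ₗ g.toLinearMap
    let α' : (R × (Fin m → R)) →ₗ[R] M := LinearMap.fst R M R ∘ₗ θ' ∘ₗ g'.toLinearMap
    have sα : Surjective (fun y => α (0, y)) := by
      intro x
      obtain ⟨w, hw⟩ := hθ (x, 0)
      obtain ⟨⟨r, y⟩, rfl⟩ := g.surjective w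
      have h2 := hg (r, y)
      rw [hw] at h2
      simp only at h2
      subst h2
      exact ⟨y, by simp [α, hw]⟩
    have sα' : Surjective (fun y => α' (0, y)) := by
      intro x
      obtain ⟨w, hw⟩ := hθ' (x, 0)
      obtain ⟨⟨r, y⟩, rfl⟩ := g'.surjective w
      have h2 := hg' (r, y)
      rw [hw] at h2
      simp only at h2
      subst h2
      exact ⟨y, by simp [α', hw]⟩
    obtain ⟨e, he⟩ := hM m (α ∘ₗ LinearMap.inr R R (Fin m → R)) (α' ∘ₗ LinearMap.inr R R (Fin m → R))
      (by intro x; obtain ⟨y, hy⟩ := sα x; exact ⟨y, by simpa using hy⟩)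
      (by intro x; obtain ⟨y, hy⟩ := sα' x; exact ⟨y, by simpa using hy⟩)
    obtain ⟨G, hG1, hG2⟩ := fib α α' sα e (fun y => by simpa using he y)
    refine ⟨g'.symm.trans (G.trans g), fun x => ?_⟩
    obtain ⟨z, rfl⟩ := g'.surjective x
    have h1 := hG1 z
    have h2 := hG2 z
    apply Prod.ext
    · simpa [α, α'] using h1
    · simp [hg, hg', h2]

theorem IsTrans.prod_pi (hR : IsTrans R R) (hM : IsTrans R M) (k : ℕ) :
    IsTrans R (M × (Fin k → R)) := by
  induction k with
  | zero => exact hM.of_equiv (LinearEquiv.prodUnique (M₂ := Fin 0 → R)).symm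
  | succ k ih =>
    have := IsTrans.prod_self hR ih
    refine this.of_equiv ?_
    exact (LinearEquiv.prodAssoc R M (Fin k → R) R).trans
      ((LinearEquiv.refl R M).prodCongr ((LinearEquiv.prodComm R _ _).trans
        (Fin.consLinearEquiv R (fun _ : Fin (k+1) => R))))

theorem IsTrans.pi (hR : IsTrans R R) (k : ℕ) : IsTrans R (Fin k → R) := by
  have h0 : IsTrans R PUnit := isTrans_of_subsingleton
  exact (hR.prod_pi h0 k).of_equiv (LinearEquiv.uniqueProd (M₂ := PUnit))

/-- minimal generation of `M` by `k` elements with respect to an augmentation. -/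
def MinGen (ε : R →+* ℤ) (M : Type*) [AddCommGroup M] [Module R M] (k : ℕ) : Prop :=
  ∃ (μ : (Fin k → R) →ₗ[R] M) (e : M →+ (Fin k → ℤ)), Surjective μ ∧
    ∀ x i, e (μ x) i = ε (x i)

theorem MinGen.le {ε : R →+* ℤ} {k : ℕ} (h : MinGen ε M k) {m : ℕ} (θ : (Fin m → R) →ₗ[R] M)
    (hθ : Surjective θ) : k ≤ m := by
  obtain ⟨μ, e, hμ, he⟩ := h
  have hsm : ∀ (r : R) (x : M), e (r • x) = ε r • e x := by
    intro r x
    obtain ⟨y, rfl⟩ := hμ x
    ext i
    rw [← map_smul μ, he, Pi.smul_apply, Pi.smul_apply, he, smul_eq_mul, map_mul, smul_eq_mul]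
  have hz : ∀ y : Fin m → R, (∀ i, ε (y i) = 0) → e (θ y) = 0 := by
    intro y hy
    have : θ y = ∑ i, y i • θ (Pi.single i 1) := by
      conv_lhs => rw [pi_eq_sum_univ' y]
      simp only [map_sum, map_smul]
    rw [this, map_sum]
    apply Finset.sum_eq_zero
    intro i _
    rw [hsm, hy, zero_smul]
  let T : (Fin m → ℤ) →+ (Fin k → ℤ) :=
    e.comp (θ.toAddMonoidHom.comp
      { toFun := fun z i => ((z i : ℤ) : R)
        map_zero' := by ext; simp
        map_add' := by intros; ext; simp })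
  have hT : Surjective T.toIntLinearMap := by
    intro w
    obtain ⟨x, hx⟩ := hθ (μ (fun i => ((w i : ℤ) : R)))
    refine ⟨fun i => ε (x i), ?_⟩
    have h1 : e (θ x) = w := by
      rw [hx]; ext i; simp [he]
    have h2 : e (θ (x - fun i => ((ε (x i) : ℤ) : R))) = 0 := hz _ (by intro i; simp)
    rw [map_sub, map_sub, sub_eq_zero] at h2
    rw [← h1, h2]
    rfl
  have := LinearMap.finrank_le_finrank_of_surjective hT
  simpa only [ge_iff_le, Module.finrank_fintype_fun_eq_card, Fintype.card_fin] using this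

theorem MinGen.prod {ε : R →+* ℤ} {k l : ℕ} (h : MinGen ε M k) (h' : MinGen ε N l) :
    MinGen ε (M × N) (k + l) := by
  obtain ⟨μ, e, hμ, he⟩ := h
  obtain ⟨μ', e', hμ', he'⟩ := h'
  let s : (Fin (k + l) → R) ≃ₗ[R] (Fin k → R) × (Fin l → R) :=
    (LinearEquiv.funCongrLeft R R finSumFinEquiv).trans (LinearEquiv.sumArrowLequivProdArrow _ _ R R)
  refine ⟨(μ.prodMap μ') ∘ₗ s.toLinearMap, ?_, ?_, ?_⟩
  · exact
    { toFun := fun x i => Sum.elim (e x.1) (e' x.2) (finSumFinEquiv.symm i)
      map_zero' := by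
        ext i
        rcases finSumFinEquiv.symm i with j | j <;> simp
      map_add' := by
        intro x y
        ext i
        rcases h : finSumFinEquiv.symm i with j | j <;> simp [h] }
  · exact (Prod.map_surjective.2 ⟨hμ, hμ'⟩).comp s.surjective
  · intro x i
    obtain ⟨j, rfl⟩ := finSumFinEquiv.surjective i
    rcases j with j | j <;>
    simp [s, he, he', LinearEquiv.sumArrowLequivProdArrow]

theorem MinGen.of_equiv {ε : R →+* ℤ} {k : ℕ} (h : MinGen ε M k) (f : M ≃ₗ[R] N) :
    MinGen ε N k := by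
  obtain ⟨μ, e, hμ, he⟩ := h
  exact ⟨f.toLinearMap ∘ₗ μ, e.comp f.symm.toLinearMap.toAddMonoidHom, f.surjective.comp hμ,
    fun x i => by simp [he]⟩

end Basic

end Vale.Agent.P246
end
end

section

section

set_option linter.unusedSectionVars false

namespace Vale.Agent.P246

open Function

/-- A commutative ring `A` which is a retract of the commutative ring `R`. -/
structure RetractData (A R : Type*) [CommRing A] [CommRing R] where
  i : A →+* R
  ev : R →+* A
  ev_i : ∀ a, ev (i a) = a

namespace RetractData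

variable {A R : Type*} [CommRing A] [CommRing R] (D : RetractData A R)
variable {ι κ ν : Type*} [Fintype ι] [DecidableEq ι] [Fintype κ] [DecidableEq κ] [Fintype ν]
  [DecidableEq ν]

/-- base change of a linear map between free modules -/
noncomputable def bc (φ : (ι → A) →ₗ[A] (κ → A)) : (ι → R) →ₗ[R] (κ → R) :=
  Matrix.toLin' ((LinearMap.toMatrix' φ).map D.i)

/-- reduction of a linear map between free modules -/
noncomputable def red (φ : (ι → R) →ₗ[R] (κ → R)) : (ι → A) →ₗ[A] (κ → A) :=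
  Matrix.toLin' ((LinearMap.toMatrix' φ).map D.ev)

theorem bc_const (φ : (ι → A) →ₗ[A] (κ → A)) (a : ι → A) : D.bc φ (D.i ∘ a) = D.i ∘ (φ a) := by
  have h : φ a = (LinearMap.toMatrix' φ).mulVec a := by
    rw [LinearMap.toMatrix'_mulVec]
  rw [bc, Matrix.toLin'_apply, h]
  ext j
  rw [Function.comp_apply, RingHom.map_mulVec]

theorem ev_bc (φ : (ι → A) →ₗ[A] (κ → A)) (x : ι → R) : D.ev ∘ (D.bc φ x) = φ (D.ev ∘ x) := by
  have h : φ (D.ev ∘ x) = (LinearMap.toMatrix' φ).mulVec (D.ev ∘ x) := by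
    rw [LinearMap.toMatrix'_mulVec]
  rw [bc, Matrix.toLin'_apply, h]
  ext j
  rw [Function.comp_apply, RingHom.map_mulVec]
  congr 1
  ext a b
  simp [D.ev_i]

theorem ev_red (φ : (ι → R) →ₗ[R] (κ → R)) (x : ι → R) : D.ev ∘ (φ x) = D.red φ (D.ev ∘ x) := by
  have h : φ x = (LinearMap.toMatrix' φ).mulVec x := by
    rw [LinearMap.toMatrix'_mulVec]
  rw [red, Matrix.toLin'_apply, h]
  ext j
  rw [Function.comp_apply, RingHom.map_mulVec]

theorem bc_comp (φ : (κ → A) →ₗ[A] (ν → A)) (ψ : (ι → A) →ₗ[A] (κ → A)) :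
    D.bc (φ ∘ₗ ψ) = D.bc φ ∘ₗ D.bc ψ := by
  rw [bc, bc, bc, LinearMap.toMatrix'_comp, Matrix.map_mul, Matrix.toLin'_mul]

theorem bc_id : D.bc (LinearMap.id : (ι → A) →ₗ[A] (ι → A)) = LinearMap.id := by
  rw [bc, LinearMap.toMatrix'_id, Matrix.map_one _ (map_zero _) (map_one _), Matrix.toLin'_one]

theorem red_comp (φ : (κ → R) →ₗ[R] (ν → R)) (ψ : (ι → R) →ₗ[R] (κ → R)) :
    D.red (φ ∘ₗ ψ) = D.red φ ∘ₗ D.red ψ := by
  rw [red, red, red, LinearMap.toMatrix'_comp, Matrix.map_mul, Matrix.toLin'_mul]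

theorem red_id : D.red (LinearMap.id : (ι → R) →ₗ[R] (ι → R)) = LinearMap.id := by
  rw [red, LinearMap.toMatrix'_id, Matrix.map_one _ (map_zero _) (map_one _), Matrix.toLin'_one]

theorem red_bc (φ : (ι → A) →ₗ[A] (κ → A)) : D.red (D.bc φ) = φ := by
  have h0 : ∀ a : ι → A, D.ev ∘ (D.i ∘ a) = a := fun a => by ext; simp [D.ev_i]
  have h0' : ∀ a : κ → A, D.ev ∘ (D.i ∘ a) = a := fun a => by ext; simp [D.ev_i]
  apply LinearMap.ext
  intro a
  have h1 := D.ev_red (D.bc φ) (D.i ∘ a)
  rw [h0, D.bc_const, h0'] at h1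
  exact h1.symm

/-- base change of a linear equivalence -/
noncomputable def bcEquiv (φ : (ι → A) ≃ₗ[A] (κ → A)) : (ι → R) ≃ₗ[R] (κ → R) :=
  LinearEquiv.ofLinearMap (D.bc φ.toLinearMap) (D.bc φ.symm.toLinearMap)
    (by rw [← bc_comp, φ.comp_symm, bc_id]) (by rw [← bc_comp, φ.symm_comp, bc_id])

@[simp] theorem bcEquiv_apply (φ : (ι → A) ≃ₗ[A] (κ → A)) (x : ι → R) :
    D.bcEquiv φ x = D.bc φ.toLinearMap x := rfl

/-- reduction of a linear equivalence -/
noncomputable def redEquiv (φ : (ι → R) ≃ₗ[R] (κ → R)) : (ι → A) ≃ₗ[A] (κ → A) :=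
  LinearEquiv.ofLinearMap (D.red φ.toLinearMap) (D.red φ.symm.toLinearMap)
    (by rw [← red_comp, φ.comp_symm, red_id]) (by rw [← red_comp, φ.symm_comp, red_id])

theorem ev_redEquiv (φ : (ι → R) ≃ₗ[R] (κ → R)) (x : ι → R) :
    D.ev ∘ (φ x) = D.redEquiv φ (D.ev ∘ x) := D.ev_red φ.toLinearMap x

theorem bc_surjective (φ : (ι → A) →ₗ[A] (κ → A)) (h : Surjective φ) : Surjective (D.bc φ) := by
  rw [← LinearMap.range_eq_top, eq_top_iff]
  intro x _
  rw [pi_eq_sum_univ' x]
  refine Submodule.sum_mem _ (fun j _ => Submodule.smul_mem _ _ ?_)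
  obtain ⟨a, ha⟩ := h (Pi.single j 1)
  refine ⟨D.i ∘ a, ?_⟩
  rw [D.bc_const, ha]
  ext k
  by_cases hk : k = j
  · subst hk; simp
  · simp [hk]

end RetractData

/-- surjections of a free module onto `R` are all equivalent when kernels are free. -/
theorem isTrans_of_ker {R : Type*} [Ring R]
    (h : ∀ (m : ℕ) (θ : (Fin m → R) →ₗ[R] R), Surjective θ →
      Nonempty (LinearMap.ker θ ≃ₗ[R] (Fin (m - 1) → R))) : IsTrans R R := by
  intro m θ θ' hθ hθ'
  have key : ∀ θ : (Fin m → R) →ₗ[R] R, Surjective θ →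
      ∃ g : ((Fin (m-1) → R) × R) ≃ₗ[R] (Fin m → R), ∀ z, θ (g z) = z.2 := by
    intro θ hθ
    obtain ⟨e⟩ := h m θ hθ
    obtain ⟨s, hs⟩ := Module.projective_lifting_property θ (LinearMap.id : R →ₗ[R] R) hθ
    have hs' : ∀ r, θ (s r) = r := fun r => LinearMap.congr_fun hs r
    let f : ((Fin (m-1) → R) × R) →ₗ[R] (Fin m → R) :=
      LinearMap.coprod ((LinearMap.ker θ).subtype ∘ₗ e.symm.toLinearMap) s
    have hf : ∀ z, θ (f z) = z.2 := by
      rintro ⟨a, b⟩
      have : θ (e.symm a) = 0 := (e.symm a).2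
      simp [f, hs', this]
    refine ⟨LinearEquiv.ofBijective f ⟨?_, ?_⟩, fun z => hf z⟩
    · rw [injective_iff_map_eq_zero]
      rintro ⟨a, b⟩ hz
      have h1 : b = 0 := by
        have := hf (a, b)
        rw [hz, map_zero] at this
        exact this.symm
      subst h1
      have h2 : (e.symm a : Fin m → R) = 0 := by simpa [f] using hz
      have h3 : e.symm a = 0 := Subtype.ext h2
      simpa using h3
    · intro x
      refine ⟨(e ⟨x - s (θ x), by simp [hs']⟩, θ x), ?_⟩
      simp [f]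
  obtain ⟨g, hg⟩ := key θ hθ
  obtain ⟨g', hg'⟩ := key θ' hθ'
  refine ⟨g'.symm.trans g, fun x => ?_⟩
  obtain ⟨z, rfl⟩ := g'.surjective x
  simp [hg, hg']

theorem isTrans_int : IsTrans ℤ ℤ := by
  apply isTrans_of_ker
  intro m θ hθ
  have h1 : Module.finrank ℤ (LinearMap.ker θ) = m - 1 := by
    have h2 := Submodule.finrank_quotient_add_finrank (LinearMap.ker θ)
    rw [(θ.quotKerEquivOfSurjective hθ).finrank_eq] at h2
    simp only [Module.finrank_self, Module.finrank_fintype_fun_eq_card, Fintype.card_fin] at h2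
    omega
  exact ⟨(Module.finBasisOfFinrankEq ℤ _ h1).equivFun⟩

end Vale.Agent.P246
end
end

section

section

namespace Vale.Agent.P246

open Polynomial LaurentPolynomial Matrix Function

theorem qs_of_ne (n m : ℕ) (v : Fin (m + 3) → L n) (hv : Ideal.span (Set.range v) = ⊤)
    (h0 : v 0 ≠ 0) : ∃ i, RowEquiv v (Pi.single i 1) := by
  have hdom := isDomain_L n
  have hufd := ufd_L n
  let e : Fin 2 ⊕ Fin (m + 1) ≃ Fin (m + 3) := finSumFinEquiv.trans (finCongr (by ring))
  have he0 : e (Sum.inl 0) = 0 := by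
    simp [e]; rfl
  obtain ⟨c, hc⟩ := avoid_many (v 0) (v (e (Sum.inl 1))) h0 (fun j => v (e (Sum.inr j)))
    Finset.univ
  set a' := v (e (Sum.inl 1)) + ∑ j ∈ Finset.univ, c j * v (e (Sum.inr j)) with ha'
  set I : Ideal (L n) := Ideal.span (Set.range ![v 0, a']) with hI
  have hbig : Big I := by
    constructor
    · intro hb
      have : v 0 ∈ I := Ideal.subset_span ⟨0, rfl⟩
      rw [hb, Ideal.mem_bot] at this
      exact h0 this
    · intro p hp hle
      have h1 : p ∣ v 0 := Ideal.mem_span_singleton.1 (hle (Ideal.subset_span ⟨0, rfl⟩))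
      have h2 : p ∣ a' := Ideal.mem_span_singleton.1 (hle (Ideal.subset_span ⟨1, rfl⟩))
      obtain ⟨h3, h4⟩ := (hc p hp h1).1 h2
      have h5 : Ideal.span (Set.range v) ≤ Ideal.span {p} := by
        rw [Ideal.span_le]
        rintro _ ⟨j, rfl⟩
        obtain ⟨j, rfl⟩ := e.surjective j
        rw [SetLike.mem_coe, Ideal.mem_span_singleton]
        rcases j with j | j
        · fin_cases j
          · change p ∣ v (e (Sum.inl 0))
            rw [he0]; exact h1
          · exact h3
        · exact h4 j (Finset.mem_univ _)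
      rw [hv, top_le_iff, Ideal.span_singleton_eq_top] at h5
      exact hp.not_isUnit h5
  -- first move
  have hrow1 : RowEquiv (fun j => v (e j)) (Sum.elim ![v 0, a'] (fun j => v (e (Sum.inr j)))) := by
    have h1 : (fun j => v (e j))
        = Sum.elim (fun i => v (e (Sum.inl i))) (fun j => v (e (Sum.inr j))) := by
      funext j; rcases j with j | j <;> rfl
    rw [h1]
    apply RowEquiv.add_left'
    intro j
    fin_cases j
    · change v 0 - v (e (Sum.inl 0)) ∈ _
      rw [he0, sub_self]; exact Ideal.zero_mem _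
    · change a' - v (e (Sum.inl 1)) ∈ _
      rw [ha', add_sub_cancel_left]
      exact (Ideal.mem_span_range_iff_exists_fun).2 ⟨c, rfl⟩
  -- second move
  have hrow2 : ∀ h ∈ I, RowEquiv v (fun j => (Sum.elim ![v 0, a']
      (Function.update (fun j => v (e (Sum.inr j))) 0 (v (e (Sum.inr 0)) + h)) :
        Fin 2 ⊕ Fin (m + 1) → L n) (e.symm j)) := by
    intro h hh
    have h1 : RowEquiv (Sum.elim ![v 0, a'] (fun j => v (e (Sum.inr j))))
        (Sum.elim ![v 0, a']
          (Function.update (fun j => v (e (Sum.inr j))) 0 (v (e (Sum.inr 0)) + h))) := by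
      apply RowEquiv.add_right'
      intro j
      by_cases hj : j = 0
      · subst hj
        rw [Function.update_self, add_sub_cancel_left]; exact hh
      · rw [Function.update_of_ne hj, sub_self]; exact Ideal.zero_mem _
    have h2 := (hrow1.trans h1).reindex e.symm
    have h3 : (fun i => (fun j => v (e j)) (e.symm i)) = v := by
      funext i
      exact congrArg v (e.apply_symm_apply i)
    rw [h3] at h2
    exact h2
  rcases n with _ | n
  · -- no variables
    obtain ⟨h, hh, α, hα, _⟩ := exists_lexBot_zero I hbig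
    have hh1 : h = 1 := by
      refine AddMonoidAlgebra.ext (Finsupp.ext fun γ => ?_)
      rw [Subsingleton.elim γ α, hα, AddMonoidAlgebra.one_def, AddMonoidAlgebra.coeff_single,
        Subsingleton.elim α 0, Finsupp.single_eq_same]
    rw [hh1] at hh
    have hh2 : 1 - v (e (Sum.inr 0)) ∈ I := by
      have := I.mul_mem_left (1 - v (e (Sum.inr 0))) hh
      rwa [mul_one] at this
    refine ⟨e (Sum.inr 0), (hrow2 _ hh2).trans (RowEquiv.of_unit_entry _ _ ?_)⟩
    simp
  · obtain ⟨h, hh, α, β, h1, h2, h3, h4⟩ := exists_extreme n I hbig (v (e (Sum.inr 0)))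
    have hr := hrow2 h hh
    refine ⟨e (Sum.inr 0), hr.trans ?_⟩
    have hv' := hr.span_eq
    rw [hv] at hv'
    have hent : (Sum.elim ![v 0, a']
      (Function.update (fun j => v (e (Sum.inr j))) 0 (v (e (Sum.inr 0)) + h)) :
        Fin 2 ⊕ Fin (m + 1) → L (n + 1)) (e.symm (e (Sum.inr 0))) = v (e (Sum.inr 0)) + h := by
      rw [Equiv.symm_apply_apply, Sum.elim_inr, Function.update_self]
    refine row_of_extreme n _ hv'.symm (e (Sum.inr 0)) α β ?_ ?_ ?_ ?_
    · rw [hent]; exact h1
    · rw [hent]; exact h2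
    · rw [hent]; exact h3
    · rw [hent]; exact h4

theorem quillen_suslin_L (n k : ℕ) (v : Fin (k + 1) → L n) (hv : Ideal.span (Set.range v) = ⊤) :
    RowEquiv v (Pi.single 0 1) := by
  have hdom := isDomain_L n
  rcases k with _ | _ | k
  · apply RowEquiv.of_unit_entry
    rw [← Ideal.span_singleton_eq_top, ← hv]
    congr 1
    ext x
    constructor
    · rintro rfl; exact ⟨0, rfl⟩
    · rintro ⟨j, rfl⟩
      obtain rfl : j = 0 := Fin.ext (by omega)
      rfl
  · have h1 : (1 : L n) ∈ Ideal.span {v 0, v 1} := by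
      have : Set.range v = {v 0, v 1} := by
        ext x
        constructor
        · rintro ⟨j, rfl⟩
          fin_cases j
          · left; rfl
          · right; rfl
        · rintro (rfl | rfl)
          · exact ⟨0, rfl⟩
          · exact ⟨1, rfl⟩
      rw [← this, hv]; trivial
    obtain ⟨s, t, hst⟩ := Ideal.mem_span_pair.1 h1
    refine ⟨!![s, -v 1; t, v 0], ?_, ?_⟩
    · rw [Matrix.det_fin_two_of]
      have : s * v 0 - -v 1 * t = 1 := by rw [← hst]; ring
      rw [this]; exact isUnit_one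
    · funext j
      fin_cases j
      · simp only [vecMul, dotProduct, Nat.reduceAdd, Fin.isValue, Fin.zero_eta, of_apply, cons_val', cons_val_zero, cons_val_fin_one, Fin.sum_univ_two, cons_val_one, Pi.single_eq_same]
        rw [← hst]; ring
      · simp only [vecMul, dotProduct, Nat.reduceAdd, Fin.isValue, Fin.mk_one, of_apply, cons_val', cons_val_one, cons_val_fin_one, Fin.sum_univ_two, cons_val_zero, mul_neg, ne_eq, one_ne_zero, not_false_eq_true, Pi.single_eq_of_ne]
        ring
  · -- at least three entries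
    by_cases h0 : v 0 = 0
    · -- move a nonzero entry to the front
      obtain ⟨i, hi⟩ : ∃ i, v i ≠ 0 := by
        by_contra hcon
        push Not at hcon
        have : Ideal.span (Set.range v) = ⊥ := by
          rw [Ideal.span_eq_bot]
          rintro _ ⟨i, rfl⟩
          exact hcon i
        rw [hv] at this
        exact top_ne_bot this
      have hi0 : i ≠ 0 := by rintro rfl; exact hi h0
      -- add entry i to entry 0
      have hrow : RowEquiv v (Function.update v 0 (v i)) := by
        refine ⟨Matrix.transvection i 0 1, ?_, ?_⟩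
        · rw [Matrix.det_transvection_of_ne _ _ hi0]
          exact isUnit_one
        · rw [Matrix.transvection, Matrix.vecMul_add, Matrix.vecMul_one]
          funext j
          by_cases hj : j = 0
          · subst hj
            rw [Pi.add_apply, h0, zero_add, Function.update_self]
            simp only [Matrix.vecMul, dotProduct, Matrix.single_apply]
            simp
          · rw [Pi.add_apply, Function.update_of_ne hj]
            simp only [Matrix.vecMul, dotProduct, Matrix.single_apply]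
            simp [Ne.symm hj]
      have hv' : Ideal.span (Set.range (Function.update v 0 (v i))) = ⊤ := by
        rw [← hrow.span_eq, hv]
      obtain ⟨j, hj⟩ := qs_of_ne n k _ hv' (by simpa using hi)
      exact (hrow.trans hj).trans (RowEquiv.single_single _ _)
    · obtain ⟨j, hj⟩ := qs_of_ne n k v hv h0
      exact hj.trans (RowEquiv.single_single _ _)

end Vale.Agent.P246
end
end

section

section

set_option linter.unusedSectionVars false

namespace Vale.Agent.P246

open Function

section TransQ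

variable {A : Type*} [CommRing A] (ε : A →+* ℤ)

/-- The integers as a retract of an augmented ring. -/
def augRetract : RetractData ℤ A where
  i := Int.castRingHom A
  ev := ε
  ev_i := fun a => by simp

theorem aug_surjective : Surjective ε := fun n => ⟨(n : A), by simp⟩

theorem kill_aux {m c : ℕ} (θ : (Fin m → A) →ₗ[A] (Fin c → A ⧸ RingHom.ker ε)) (y : Fin m → A)
    (hy : ∀ i, ε (y i) = 0) : θ y = 0 := by
  have h1 : θ y = ∑ i, y i • θ (Pi.single i 1) := by
    conv_lhs => rw [pi_eq_sum_univ' y]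
    simp only [map_sum, map_smul]
  rw [h1]
  apply Finset.sum_eq_zero
  intro i _
  ext j
  rw [Pi.smul_apply, Pi.zero_apply]
  obtain ⟨a, ha⟩ := Ideal.Quotient.mk_surjective (θ (Pi.single i 1) j)
  rw [← ha, Algebra.smul_def, Ideal.Quotient.algebraMap_eq, ← map_mul,
    Ideal.Quotient.eq_zero_iff_mem, RingHom.mem_ker, map_mul, hy, zero_mul]

theorem kill_aux' {m c : ℕ} (θ : (Fin m → A) →ₗ[A] (Fin c → A ⧸ RingHom.ker ε)) (x : Fin m → A) :
    θ x = θ (fun i => ((ε (x i) : ℤ) : A)) := by
  rw [← sub_eq_zero, ← map_sub]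
  exact kill_aux ε θ _ (fun i => by simp)

theorem isTrans_Q (c : ℕ) : IsTrans A (Fin c → A ⧸ RingHom.ker ε) := by
  have hZ : IsTrans ℤ (Fin c → A ⧸ RingHom.ker ε) := by
    refine (isTrans_int.pi c).of_equiv ?_
    exact LinearEquiv.piCongrRight (fun _ =>
      (RingHom.quotientKerEquivOfSurjective (aug_surjective ε)).symm.toAddEquiv.toIntLinearEquiv)
  intro m θ θ' hθ hθ'
  let T : ((Fin m → A) →ₗ[A] (Fin c → A ⧸ RingHom.ker ε)) →
      ((Fin m → ℤ) →ₗ[ℤ] (Fin c → A ⧸ RingHom.ker ε)) := fun θ =>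
    (θ.toAddMonoidHom.comp
      { toFun := fun z i => ((z i : ℤ) : A)
        map_zero' := by ext; simp
        map_add' := by intros; ext; simp }).toIntLinearMap
  have hT : ∀ (θ : (Fin m → A) →ₗ[A] (Fin c → A ⧸ RingHom.ker ε)) z,
    T θ z = θ (fun i => ((z i : ℤ) : A)) := fun θ z => rfl
  have hTs : ∀ θ : (Fin m → A) →ₗ[A] (Fin c → A ⧸ RingHom.ker ε),
      Surjective θ → Surjective (T θ) := by
    intro θ hθ q
    obtain ⟨x, rfl⟩ := hθ q
    exact ⟨fun i => ε (x i), by rw [hT, ← kill_aux' ε θ x]⟩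
  obtain ⟨g, hg⟩ := hZ m (T θ) (T θ') (hTs θ hθ) (hTs θ' hθ')
  refine ⟨(augRetract ε).bcEquiv g, fun x => ?_⟩
  have h1 := hg (fun i => ε (x i))
  rw [hT, hT, ← kill_aux' ε θ' x] at h1
  rw [h1, kill_aux' ε θ ((augRetract ε).bcEquiv g x)]
  have h2 := (augRetract ε).ev_bc g.toLinearMap x
  congr 1
  ext i
  have h3 := congrFun h2 i
  change _ = ((ε (((augRetract ε).bcEquiv g x) i) : ℤ) : A)
  congr 1
  exact h3.symm

theorem IsTrans.prod_Q {M : Type*} [AddCommGroup M] [Module A M] (hM : IsTrans A M) {k : ℕ}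
    (hk : MinGen ε M k) (c : ℕ) : IsTrans A (M × (Fin c → A ⧸ RingHom.ker ε)) := by
  intro m θ θ' hθ hθ'
  have hkm : k ≤ m := by
    refine hk.le (LinearMap.fst _ _ _ ∘ₗ θ) ?_
    intro x
    obtain ⟨w, hw⟩ := hθ (x, 0)
    exact ⟨w, by simp [hw]⟩
  obtain ⟨μ, e, hμ, he⟩ := hk
  obtain ⟨l, rfl⟩ := Nat.exists_eq_add_of_le hkm
  let s : ((Fin k → A) × (Fin l → A)) ≃ₗ[A] (Fin (k + l) → A) :=
    ((LinearEquiv.funCongrLeft A A finSumFinEquiv).trans
      (LinearEquiv.sumArrowLequivProdArrow _ _ A A)).symm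
  have key : ∀ θ : (Fin (k + l) → A) →ₗ[A] (M × (Fin c → A ⧸ RingHom.ker ε)), Surjective θ →
      ∃ g : ((Fin k → A) × (Fin l → A)) ≃ₗ[A] (Fin (k + l) → A),
        (∀ z, (θ (g z)).1 = μ z.1) ∧ ∀ q, ∃ y, (θ (g (0, y))).2 = q := by
    intro θ hθ
    obtain ⟨g, hg⟩ := hM.apply (LinearEquiv.refl A _) s (LinearMap.fst _ _ _ ∘ₗ θ)
      (μ ∘ₗ LinearMap.fst _ _ _) (by
        intro x
        obtain ⟨w, hw⟩ := hθ (x, 0)
        exact ⟨w, by simp [hw]⟩) (by
        intro x
        obtain ⟨w, hw⟩ := hμ x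
        exact ⟨(w, 0), by simp [hw]⟩)
    refine ⟨g, fun z => by simpa using (hg z).symm, fun q => ?_⟩
    obtain ⟨w, hw⟩ := hθ (0, q)
    obtain ⟨⟨x, y⟩, rfl⟩ := g.surjective w
    refine ⟨y, ?_⟩
    have h1 : μ x = 0 := by
      have := hg (x, y)
      simpa only [LinearMap.coe_comp, LinearMap.coe_fst, comp_apply, hw] using this
    have h2 : ∀ i, ε (x i) = 0 := by
      intro i
      rw [← he x i, h1]; simp
    have h3 : (θ (g (x, 0))).2 = 0 := by
      have := kill_aux ε ((LinearMap.snd _ _ _ ∘ₗ θ) ∘ₗ g.toLinearMap ∘ₗ LinearMap.inl A _ _) x h2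
      simpa using this
    have h4 : g (x, y) = g (x, 0) + g (0, y) := by rw [← map_add]; simp
    rw [h4, map_add] at hw
    have h5 := congrArg Prod.snd hw
    simpa [h3] using h5
  obtain ⟨g, hg1, hg2⟩ := key θ hθ
  obtain ⟨g', hg1', hg2'⟩ := key θ' hθ'
  let ζ : ((Fin k → A) × (Fin l → A)) →ₗ[A] (Fin c → A ⧸ RingHom.ker ε) :=
    (LinearMap.snd _ _ _ ∘ₗ θ) ∘ₗ g.toLinearMap
  let ζ' : ((Fin k → A) × (Fin l → A)) →ₗ[A] (Fin c → A ⧸ RingHom.ker ε) :=
    (LinearMap.snd _ _ _ ∘ₗ θ') ∘ₗ g'.toLinearMap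
  obtain ⟨h, hh⟩ := isTrans_Q ε c l (ζ ∘ₗ LinearMap.inr A _ _) (ζ' ∘ₗ LinearMap.inr A _ _)
    (by intro q; obtain ⟨y, hy⟩ := hg2 q; exact ⟨y, by simpa [ζ] using hy⟩)
    (by intro q; obtain ⟨y, hy⟩ := hg2' q; exact ⟨y, by simpa [ζ'] using hy⟩)
  obtain ⟨G, hG1, hG2⟩ := fib ζ ζ'
    (by intro q; obtain ⟨y, hy⟩ := hg2 q; exact ⟨y, by simpa [ζ] using hy⟩) h
    (fun y => by simpa using hh y)
  refine ⟨g'.symm.trans (G.trans g), fun x => ?_⟩
  obtain ⟨z, rfl⟩ := g'.surjective x
  have h1 := hG1 z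
  have h2 := hG2 z
  apply Prod.ext
  · simp [hg1, hg1', h2]
  · simpa [ζ, ζ'] using h1

end TransQ

end Vale.Agent.P246
end
end

section

section

set_option linter.unusedSectionVars false

namespace Vale.Agent.P246

open Function

/-- A retract `A` of `R` whose kernel is generated by a nonzerodivisor. -/
structure HeckeData (A R : Type*) [CommRing A] [CommRing R] extends RetractData A R where
  τ : R
  ev_τ : ev τ = 0
  ker_ev : ∀ r, ev r = 0 → ∃ s, r = τ * s
  τ_reg : ∀ r, τ * r = 0 → r = 0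

namespace HeckeData

variable {A R : Type*} [CommRing A] [CommRing R] (D : HeckeData A R)

theorem exists_quot (r : R) : ∃ s, r - D.i (D.ev r) = D.τ * s :=
  D.ker_ev _ (by rw [map_sub, D.ev_i, sub_self])

/-- the quotient of `r - r(1)` by `τ` -/
noncomputable def quot (r : R) : R := (D.exists_quot r).choose

theorem quot_spec (r : R) : r = D.i (D.ev r) + D.τ * D.quot r := by
  have := (D.exists_quot r).choose_spec
  rw [quot, ← this]; ring

theorem quot_unique {r s : R} {a : A} (h : r = D.i a + D.τ * s) : D.quot r = s := by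
  have h1 : D.ev r = a := by rw [h, map_add, map_mul, D.ev_i, D.ev_τ, zero_mul, add_zero]
  have h2 := D.quot_spec r
  rw [h1] at h2
  have h3 : D.τ * (D.quot r - s) = 0 := by
    have : D.τ * (D.quot r - s) = (D.i a + D.τ * D.quot r) - (D.i a + D.τ * s) := by ring
    rw [this, ← h2, ← h, sub_self]
  exact sub_eq_zero.1 (D.τ_reg _ h3)

/-- the derivative at the point -/
noncomputable def der (r : R) : A := D.ev (D.quot r)

theorem der_eq {r s : R} {a : A} (h : r = D.i a + D.τ * s) : D.der r = D.ev s := by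
  rw [der, D.quot_unique h]

theorem der_zero : D.der 0 = 0 := by
  rw [D.der_eq (s := 0) (a := 0) (by simp), map_zero]

theorem der_add (r s : R) : D.der (r + s) = D.der r + D.der s := by
  rw [D.der_eq (s := D.quot r + D.quot s) (a := D.ev r + D.ev s)]
  · rw [map_add]; rfl
  · conv_lhs => rw [D.quot_spec r, D.quot_spec s]
    rw [map_add]; ring

theorem der_mul (r s : R) : D.der (r * s) = D.ev r * D.der s + D.der r * D.ev s := by
  rw [D.der_eq (s := D.i (D.ev r) * D.quot s + D.quot r * D.i (D.ev s) +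
    D.τ * D.quot r * D.quot s) (a := D.ev r * D.ev s)]
  · simp only [map_add, map_mul, D.ev_i, D.ev_τ, der]; ring
  · conv_lhs => rw [D.quot_spec r, D.quot_spec s]
    rw [map_mul]; ring

theorem der_i (a : A) : D.der (D.i a) = 0 := by
  rw [D.der_eq (s := 0) (a := a) (by simp), map_zero]

theorem der_τ_mul (s : R) : D.der (D.τ * s) = D.ev s :=
  D.der_eq (a := 0) (by simp)

variable {κ : Type*} {N : Type*} [AddCommGroup N] [Module A N]

theorem ev_smul (r : R) (u : κ → R) : D.ev ∘ (r • u) = D.ev r • (D.ev ∘ u) := by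
  ext j; simp

theorem ev_add (u v : κ → R) : D.ev ∘ (u + v) = D.ev ∘ u + D.ev ∘ v := by
  ext j; simp

theorem ev_const (a : κ → A) : D.ev ∘ (D.i ∘ a) = a := by
  ext j; simp [D.ev_i]

theorem der_smul (r : R) (u : κ → R) :
    D.der ∘ (r • u) = D.ev r • (D.der ∘ u) + D.der r • (D.ev ∘ u) := by
  ext j; simp [D.der_mul]

theorem der_add' (u v : κ → R) : D.der ∘ (u + v) = D.der ∘ u + D.der ∘ v := by
  ext j; simp [D.der_add]

/-- The elementary modification of `R^κ` at the point along `q : A^κ → N`. -/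
def heckeMod (q : (κ → A) →ₗ[A] N) : Submodule R (κ → R) where
  carrier := {u | q (D.ev ∘ u) = 0}
  add_mem' := by
    intro u v hu hv
    change q (D.ev ∘ u) = 0 at hu
    change q (D.ev ∘ v) = 0 at hv
    change q (D.ev ∘ (u + v)) = 0
    rw [D.ev_add, map_add, hu, hv, add_zero]
  zero_mem' := by
    have : D.ev ∘ (0 : κ → R) = 0 := by ext; simp
    simp [this]
  smul_mem' := by
    intro r u hu
    change q (D.ev ∘ u) = 0 at hu
    change q (D.ev ∘ (r • u)) = 0
    rw [D.ev_smul, map_smul, hu, smul_zero]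

theorem mem_heckeMod (q : (κ → A) →ₗ[A] N) (u : κ → R) :
    u ∈ D.heckeMod q ↔ q (D.ev ∘ u) = 0 := Iff.rfl

/-- reduction of the modification -/
noncomputable def rho (q : (κ → A) →ₗ[A] N) (u : D.heckeMod q) : LinearMap.ker q × N :=
  (⟨D.ev ∘ (u : κ → R), u.2⟩, q (D.der ∘ (u : κ → R)))

theorem rho_add (q : (κ → A) →ₗ[A] N) (u v : D.heckeMod q) :
    D.rho q (u + v) = D.rho q u + D.rho q v := by
  apply Prod.ext
  · apply Subtype.ext
    simp only [rho, Submodule.coe_add, D.ev_add, Prod.mk_add_mk]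
  · simp only [rho, Submodule.coe_add, map_comp_add, D.der_add', map_add, Prod.mk_add_mk]

theorem rho_smul (q : (κ → A) →ₗ[A] N) (r : R) (u : D.heckeMod q) :
    D.rho q (r • u) = D.ev r • D.rho q u := by
  have h0 : q (D.ev ∘ (u : κ → R)) = 0 := u.2
  apply Prod.ext
  · apply Subtype.ext
    simp only [rho, SetLike.val_smul, D.ev_smul, Prod.smul_mk]
  · simp only [rho, SetLike.val_smul, D.der_smul, map_add, map_smul, h0, smul_zero, add_zero, Prod.smul_mk]

theorem rho_surjective (q : (κ → A) →ₗ[A] N) (hq : Surjective q) : Surjective (D.rho q) := by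
  rintro ⟨⟨l, hl⟩, n⟩
  obtain ⟨f, rfl⟩ := hq n
  have h1 : D.ev ∘ (D.i ∘ l + D.τ • (D.i ∘ f)) = l := by
    rw [D.ev_add, D.ev_smul, D.ev_τ, zero_smul, add_zero, D.ev_const]
  have h2 : D.der ∘ (D.i ∘ l + D.τ • (D.i ∘ f)) = f := by
    ext j
    simp [D.der_add, D.der_i, D.der_τ_mul, D.ev_i]
  refine ⟨⟨D.i ∘ l + D.τ • (D.i ∘ f), ?_⟩, ?_⟩
  · rw [mem_heckeMod, h1]; exact hl
  · apply Prod.ext
    · apply Subtype.ext; simpa only [rho, map_comp_add] using h1
    · simp [rho, h2]

variable {ι : Type*} [Fintype ι] [DecidableEq ι]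

/-- reduction of a linear map into the modification -/
noncomputable def thetaBar (q : (κ → A) →ₗ[A] N) (θ : (ι → R) →ₗ[R] D.heckeMod q) :
    (ι → A) →ₗ[A] (LinearMap.ker q × N) where
  toFun a := D.rho q (θ (D.i ∘ a))
  map_add' a b := by
    have : D.i ∘ (a + b) = D.i ∘ a + D.i ∘ b := by ext; simp
    rw [this, map_add, rho_add]
  map_smul' a b := by
    have : D.i ∘ (a • b) = D.i a • (D.i ∘ b) := by ext; simp
    rw [this, map_smul, rho_smul, D.ev_i, RingHom.id_apply]

theorem rho_theta (q : (κ → A) →ₗ[A] N) (θ : (ι → R) →ₗ[R] D.heckeMod q) (x : ι → R) :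
    D.rho q (θ x) = D.thetaBar q θ (D.ev ∘ x) := by
  have h : x = D.i ∘ (D.ev ∘ x) + D.τ • (D.quot ∘ x) := by
    ext j
    simpa using D.quot_spec (x j)
  conv_lhs => rw [h]
  rw [map_add, map_smul, rho_add, rho_smul, D.ev_τ, zero_smul, add_zero]
  rfl

theorem thetaBar_surjective (q : (κ → A) →ₗ[A] N) (hq : Surjective q)
    (θ : (ι → R) →ₗ[R] D.heckeMod q) (hθ : Surjective θ) : Surjective (D.thetaBar q θ) := by
  intro z
  obtain ⟨u, rfl⟩ := D.rho_surjective q hq z
  obtain ⟨x, rfl⟩ := hθ u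
  exact ⟨D.ev ∘ x, (D.rho_theta q θ x).symm⟩

end HeckeData

end Vale.Agent.P246
end
end

section

section

set_option linter.unusedSectionVars false

namespace Vale.Agent.P246

open Function

namespace HeckeData

variable {A R : Type*} [CommRing A] [CommRing R] (D : HeckeData A R)
variable {N : Type*} [AddCommGroup N] [Module A N] {k l : ℕ}
variable {κ : Type*} [Fintype κ] [DecidableEq κ]

/-- the constant block surjection -/
def w0 (lam : (Fin k → A) →ₗ[A] (κ → A)) (psi : (Fin l → A) →ₗ[A] (κ → A)) :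
    (Fin k ⊕ Fin l → A) →ₗ[A] (κ → A) :=
  lam ∘ₗ LinearMap.funLeft A A Sum.inl + psi ∘ₗ LinearMap.funLeft A A Sum.inr

/-- multiplication of the second block by `τ` -/
def delta : (Fin k ⊕ Fin l → R) →ₗ[R] (Fin k ⊕ Fin l → R) where
  toFun x := Sum.elim (fun j => x (Sum.inl j)) (fun j => D.τ * x (Sum.inr j))
  map_add' x y := by ext j; rcases j with j | j <;> simp [mul_add]
  map_smul' r x := by ext j; rcases j with j | j <;> simp [mul_left_comm]

theorem delta_inl (x : Fin k ⊕ Fin l → R) (j : Fin k) : D.delta x (Sum.inl j) = x (Sum.inl j) := rfl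
theorem delta_inr (x : Fin k ⊕ Fin l → R) (j : Fin l) :
    D.delta x (Sum.inr j) = D.τ * x (Sum.inr j) := rfl

theorem delta_injective : Injective (D.delta : (Fin k ⊕ Fin l → R) →ₗ[R] _) := by
  rw [injective_iff_map_eq_zero]
  intro x hx
  ext j
  rcases j with j | j
  · have := congrFun hx (Sum.inl j); simpa [delta_inl] using this
  · have := congrFun hx (Sum.inr j)
    rw [delta_inr] at this
    exact D.τ_reg _ this

theorem mem_range_delta (y : Fin k ⊕ Fin l → R) :
    y ∈ LinearMap.range (D.delta : (Fin k ⊕ Fin l → R) →ₗ[R] _) ↔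
      ∀ j : Fin l, D.ev (y (Sum.inr j)) = 0 := by
  constructor
  · rintro ⟨x, rfl⟩ j
    rw [delta_inr, map_mul, D.ev_τ, zero_mul]
  · intro h
    choose s hs using fun j => D.ker_ev _ (h j)
    refine ⟨Sum.elim (fun j => y (Sum.inl j)) s, ?_⟩
    ext j
    rcases j with j | j
    · simp [delta_inl]
    · simp [delta_inr, hs]

theorem hecke_norm (hQS : IsTrans R (κ → R)) (q : (κ → A) →ₗ[A] N)
    (lam : (Fin k → A) →ₗ[A] (κ → A)) (hlam : ∀ x, q x = 0 ↔ ∃ a, lam a = x)
    (psi : (Fin l → A) →ₗ[A] (κ → A)) (hpsi : Surjective (q ∘ₗ psi))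
    (θ : (Fin k ⊕ Fin l → R) →ₗ[R] D.heckeMod q) (hθ : Surjective θ)
    (hbar1 : ∀ a : Fin k ⊕ Fin l → A, ((D.thetaBar q θ a).1 : κ → A) = lam (a ∘ Sum.inl))
    (hbar2 : ∀ a : Fin k ⊕ Fin l → A, (D.thetaBar q θ a).2 = q (psi (a ∘ Sum.inr))) :
    ∃ H : (Fin k ⊕ Fin l → R) ≃ₗ[R] (Fin k ⊕ Fin l → R),
      ∀ x, (θ (H x) : κ → R) = D.bc (w0 lam psi) (D.delta x) := by
  classical
  -- values on the basis vectors
  have hev : ∀ j : Fin k ⊕ Fin l, D.ev ∘ (θ (Pi.single j 1) : κ → R) =
      lam ((Pi.single j (1 : A) : Fin k ⊕ Fin l → A) ∘ Sum.inl) := by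
    intro j
    have h1 := D.rho_theta q θ (Pi.single j 1)
    have h2 : D.ev ∘ (Pi.single j (1 : R) : Fin k ⊕ Fin l → R) = Pi.single j 1 := by
      ext t
      by_cases h : t = j
      · subst h; simp
      · simp [h]
    rw [h2] at h1
    rw [← hbar1, ← h1]
    rfl
  have hder : ∀ j : Fin k ⊕ Fin l, q (D.der ∘ (θ (Pi.single j 1) : κ → R)) =
      q (psi ((Pi.single j (1 : A) : Fin k ⊕ Fin l → A) ∘ Sum.inr)) := by
    intro j
    have h1 := D.rho_theta q θ (Pi.single j 1)
    have h2 : D.ev ∘ (Pi.single j (1 : R) : Fin k ⊕ Fin l → R) = Pi.single j 1 := by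
      ext t
      by_cases h : t = j
      · subst h; simp
      · simp [h]
    rw [h2] at h1
    rw [← hbar2, ← h1]
    rfl
  -- the map `w`
  let w : (Fin k ⊕ Fin l → R) →ₗ[R] (κ → R) :=
    (Pi.basisFun R (Fin k ⊕ Fin l)).constr R
      (Sum.elim (fun j => (θ (Pi.single (Sum.inl j) 1) : κ → R))
        (fun j => D.quot ∘ (θ (Pi.single (Sum.inr j) 1) : κ → R)))
  have hw1 : ∀ j, w (Pi.single (Sum.inl j) 1) = (θ (Pi.single (Sum.inl j) 1) : κ → R) := by
    intro j
    have := (Pi.basisFun R (Fin k ⊕ Fin l)).constr_basis R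
      (Sum.elim (fun j => (θ (Pi.single (Sum.inl j) 1) : κ → R))
        (fun j => D.quot ∘ (θ (Pi.single (Sum.inr j) 1) : κ → R))) (Sum.inl j)
    rw [Pi.basisFun_apply] at this
    exact this
  have hw2 : ∀ j, w (Pi.single (Sum.inr j) 1) =
      D.quot ∘ (θ (Pi.single (Sum.inr j) 1) : κ → R) := by
    intro j
    have := (Pi.basisFun R (Fin k ⊕ Fin l)).constr_basis R
      (Sum.elim (fun j => (θ (Pi.single (Sum.inl j) 1) : κ → R))
        (fun j => D.quot ∘ (θ (Pi.single (Sum.inr j) 1) : κ → R))) (Sum.inr j)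
    rw [Pi.basisFun_apply] at this
    exact this
  -- `w ∘ δ = θ`
  have hwδ : ∀ x, w (D.delta x) = (θ x : κ → R) := by
    have : w ∘ₗ D.delta = (D.heckeMod q).subtype ∘ₗ θ := by
      refine (Pi.basisFun R (Fin k ⊕ Fin l)).ext ?_
      intro j
      rw [Pi.basisFun_apply, LinearMap.comp_apply, LinearMap.comp_apply, Submodule.subtype_apply]
      rcases j with j | j
      · have : D.delta (Pi.single (Sum.inl j) (1:R) : Fin k ⊕ Fin l → R) =
            Pi.single (Sum.inl j) 1 := by
          ext t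
          rcases t with t | t
          · rw [delta_inl]
          · rw [delta_inr]; simp
        rw [this, hw1]
      · have : D.delta (Pi.single (Sum.inr j) (1:R) : Fin k ⊕ Fin l → R) =
            D.τ • Pi.single (Sum.inr j) 1 := by
          ext t
          rcases t with t | t
          · rw [delta_inl]; simp
          · rw [delta_inr]; simp
        rw [this, map_smul, hw2]
        have h0 : D.ev ∘ (θ (Pi.single (Sum.inr j) 1) : κ → R) = 0 := by
          rw [hev]
          have : (Pi.single (Sum.inr j) (1 : A) : Fin k ⊕ Fin l → A) ∘ Sum.inl = 0 := by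
            ext t; simp
          rw [this, map_zero]
        ext t
        have h1 := D.quot_spec ((θ (Pi.single (Sum.inr j) 1) : κ → R) t)
        have h2 : D.ev ((θ (Pi.single (Sum.inr j) 1) : κ → R) t) = 0 := congrFun h0 t
        rw [h2, map_zero, zero_add] at h1
        simp only [Pi.smul_apply, smul_eq_mul, comp_apply]
        exact h1.symm
    intro x
    exact LinearMap.congr_fun this x
  -- reduction of `w`
  let wbar := D.red w
  have hwbar : ∀ x, D.ev ∘ (w x) = wbar (D.ev ∘ x) := fun x => D.ev_red w x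
  have hwbar_single : ∀ j, wbar (Pi.single j 1) = D.ev ∘ (w (Pi.single j 1)) := by
    intro j
    rw [hwbar]
    congr 1
    ext t
    by_cases h : t = j
    · subst h; simp
    · simp [h]
  let inl' : (Fin k → A) →ₗ[A] (Fin k ⊕ Fin l → A) :=
    { toFun := fun a => Sum.elim a 0
      map_add' := by intro x y; ext j; rcases j with j | j <;> simp
      map_smul' := by intro r x; ext j; rcases j with j | j <;> simp }
  let inr' : (Fin l → A) →ₗ[A] (Fin k ⊕ Fin l → A) :=
    { toFun := fun a => Sum.elim 0 a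
      map_add' := by intro x y; ext j; rcases j with j | j <;> simp
      map_smul' := by intro r x; ext j; rcases j with j | j <;> simp }
  have hinl_single : ∀ j, inl' (Pi.single j 1) = Pi.single (Sum.inl j) 1 := by
    intro j
    ext t
    rcases t with t | t
    · by_cases h : t = j
      · subst h; simp [inl']
      · simp [inl', h]
    · simp [inl']
  have hinr_single : ∀ j, inr' (Pi.single j 1) = Pi.single (Sum.inr j) 1 := by
    intro j
    ext t
    rcases t with t | t
    · simp [inr']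
    · by_cases h : t = j
      · subst h; simp [inr']
      · simp [inr', h]
  have hlam' : wbar ∘ₗ inl' = lam := by
    refine (Pi.basisFun A (Fin k)).ext ?_
    intro j
    rw [Pi.basisFun_apply, LinearMap.comp_apply, hinl_single, hwbar_single, hw1, hev]
    congr 1
    ext t
    by_cases h : t = j
    · subst h; simp
    · simp [h]
  let psibar : (Fin l → A) →ₗ[A] (κ → A) := wbar ∘ₗ inr'
  have hpsibar : q ∘ₗ psibar = q ∘ₗ psi := by
    refine (Pi.basisFun A (Fin l)).ext ?_
    intro j
    have h1 := hder (Sum.inr j)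
    have h2 : (Pi.single (Sum.inr j) (1 : A) : Fin k ⊕ Fin l → A) ∘ Sum.inr = Pi.single j 1 := by
      ext t
      by_cases h : t = j
      · subst h; simp
      · simp [h]
    rw [h2] at h1
    rw [Pi.basisFun_apply]
    change q (wbar (inr' (Pi.single j 1))) = q (psi (Pi.single j 1))
    rw [← h1, hinr_single, hwbar_single, hw2]
    rfl
  have hsplit : ∀ a : Fin k ⊕ Fin l → A, a = inl' (a ∘ Sum.inl) + inr' (a ∘ Sum.inr) := by
    intro a
    ext t
    rcases t with t | t <;> simp [inl', inr']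
  have hwbar' : ∀ a, wbar a = lam (a ∘ Sum.inl) + psibar (a ∘ Sum.inr) := by
    intro a
    conv_lhs => rw [hsplit a]
    rw [map_add, ← hlam']
    rfl
  have hqlam : ∀ a, q (lam a) = 0 := fun a => (hlam _).2 ⟨a, rfl⟩
  -- surjectivity of `w`
  have hw_surj : Surjective w := by
    intro u
    obtain ⟨b, hb⟩ := hpsi (q (D.ev ∘ u))
    have h1 : q (D.ev ∘ u - psibar b) = 0 := by
      rw [map_sub, ← hb]
      have := LinearMap.congr_fun hpsibar b
      simp only [LinearMap.comp_apply] at this ⊢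
      rw [this, sub_self]
    obtain ⟨a, ha⟩ := (hlam _).1 h1
    have h2 : wbar (Sum.elim a b) = D.ev ∘ u := by
      rw [hwbar']
      have e1 : (Sum.elim a b) ∘ Sum.inl = a := by ext; simp
      have e2 : (Sum.elim a b) ∘ Sum.inr = b := by ext; simp
      rw [e1, e2, ha, sub_add_cancel]
    have h3 : D.ev ∘ (u - w (D.i ∘ (Sum.elim a b))) = 0 := by
      have : D.ev ∘ (u - w (D.i ∘ (Sum.elim a b))) =
          D.ev ∘ u - D.ev ∘ (w (D.i ∘ (Sum.elim a b))) := by ext; simp only [comp_apply, Pi.sub_apply, map_sub]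
      rw [this, hwbar, D.ev_const, h2, sub_self]
    have h4 : u - w (D.i ∘ (Sum.elim a b)) ∈ D.heckeMod q := by
      rw [mem_heckeMod, h3, map_zero]
    obtain ⟨z, hz⟩ := hθ ⟨_, h4⟩
    refine ⟨D.i ∘ (Sum.elim a b) + D.delta z, ?_⟩
    rw [map_add, hwδ, hz]
    simp
  -- the constant surjection
  have hw0 : Surjective (w0 lam psi) := by
    intro u
    obtain ⟨b, hb⟩ := hpsi (q u)
    have h1 : q (u - psi b) = 0 := by
      rw [map_sub, ← hb, LinearMap.comp_apply, sub_self]
    obtain ⟨a, ha⟩ := (hlam _).1 h1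
    refine ⟨Sum.elim a b, ?_⟩
    have e1 : (Sum.elim a b) ∘ Sum.inl = a := by ext; simp
    have e2 : (Sum.elim a b) ∘ Sum.inr = b := by ext; simp
    change lam ((Sum.elim a b) ∘ Sum.inl) + psi ((Sum.elim a b) ∘ Sum.inr) = u
    rw [e1, e2, ha, sub_add_cancel]
  obtain ⟨h0, hh0⟩ := hQS.apply
    (LinearEquiv.funCongrLeft R R finSumFinEquiv.symm) (LinearEquiv.funCongrLeft R R finSumFinEquiv.symm)
    w (D.bc (w0 lam psi)) hw_surj (D.bc_surjective _ hw0)
  let hbar0 := D.redEquiv h0
  have hhbar0 : ∀ x, D.ev ∘ (h0 x) = hbar0 (D.ev ∘ x) := fun x => D.ev_redEquiv h0 x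
  have hwh : ∀ a, wbar (hbar0 a) = w0 lam psi a := by
    intro a
    have h1 := hh0 (D.i ∘ a)
    have h2 : D.ev ∘ (D.bc (w0 lam psi) (D.i ∘ a)) = D.ev ∘ (w (h0 (D.i ∘ a))) := by rw [h1]
    rw [D.ev_bc, hwbar, hhbar0, D.ev_const] at h2
    exact h2.symm
  -- the correction `p`
  obtain ⟨p12, hp12⟩ : ∃ p12 : (Fin l → A) →ₗ[A] (Fin k → A), ∀ b, lam (p12 b) = psi b - psibar b := by
    let lam' : (Fin k → A) →ₗ[A] LinearMap.ker q := lam.codRestrict _ hqlam
    have hs : Surjective lam' := by
      rintro ⟨x, hx⟩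
      obtain ⟨a, rfl⟩ := (hlam x).1 hx
      exact ⟨a, rfl⟩
    let dd : (Fin l → A) →ₗ[A] LinearMap.ker q := (psi - psibar).codRestrict _ (by
      intro b
      have := LinearMap.congr_fun hpsibar b
      simp only [LinearMap.comp_apply] at this
      rw [LinearMap.mem_ker, LinearMap.sub_apply, map_sub, this, sub_self])
    obtain ⟨p, hp⟩ := Module.projective_lifting_property lam' dd hs
    refine ⟨p, fun b => ?_⟩
    have := congrArg Subtype.val (LinearMap.congr_fun hp b)
    exact this
  let pfun : (Fin k ⊕ Fin l → A) →ₗ[A] (Fin k ⊕ Fin l → A) :=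
    LinearMap.id + inl' ∘ₗ p12 ∘ₗ LinearMap.funLeft A A Sum.inr
  let pinv : (Fin k ⊕ Fin l → A) →ₗ[A] (Fin k ⊕ Fin l → A) :=
    LinearMap.id - inl' ∘ₗ p12 ∘ₗ LinearMap.funLeft A A Sum.inr
  have hzero : ∀ a : Fin k → A, LinearMap.funLeft A A (Sum.inr : Fin l → Fin k ⊕ Fin l) (inl' a) = 0 := by
    intro a; ext t; simp [inl', LinearMap.funLeft_apply]
  let p : (Fin k ⊕ Fin l → A) ≃ₗ[A] (Fin k ⊕ Fin l → A) :=
    LinearEquiv.ofLinearMap pfun pinv
      (by
        apply LinearMap.ext; intro a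
        simp only [pfun, pinv, LinearMap.comp_apply, LinearMap.add_apply, LinearMap.sub_apply,
          LinearMap.id_apply, map_sub, hzero, map_zero]
        abel)
      (by
        apply LinearMap.ext; intro a
        simp only [pfun, pinv, LinearMap.comp_apply, LinearMap.add_apply, LinearMap.sub_apply,
          LinearMap.id_apply, map_add, hzero, map_zero]
        abel)
  have hp : ∀ a, p a = a + inl' (p12 (a ∘ Sum.inr)) := fun a => rfl
  have hpr : ∀ a (j : Fin l), p a (Sum.inr j) = a (Sum.inr j) := by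
    intro a j
    rw [hp]; simp [inl']
  have hwp : ∀ a, wbar (p a) = w0 lam psi a := by
    intro a
    rw [hp, map_add]
    have h1 : wbar (inl' (p12 (a ∘ Sum.inr))) = lam (p12 (a ∘ Sum.inr)) :=
      LinearMap.congr_fun hlam' _
    rw [h1, hp12, hwbar']
    change _ = lam (a ∘ Sum.inl) + psi (a ∘ Sum.inr)
    abel
  -- the corrected transformation
  let h : (Fin k ⊕ Fin l → R) ≃ₗ[R] (Fin k ⊕ Fin l → R) :=
    (D.bcEquiv (p.trans hbar0.symm)).trans h0
  have hevh : ∀ x, D.ev ∘ (h x) = p (D.ev ∘ x) := by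
    intro x
    change D.ev ∘ (h0 (D.bc (p.trans hbar0.symm).toLinearMap x)) = _
    rw [hhbar0, D.ev_bc]
    simp
  have hwh' : ∀ x, w (h x) = D.bc (w0 lam psi) x := by
    intro x
    change w (h0 (D.bc (p.trans hbar0.symm).toLinearMap x)) = _
    rw [← hh0, ← LinearMap.comp_apply, ← D.bc_comp]
    congr 2
    apply LinearMap.ext
    intro a
    rw [LinearMap.comp_apply, ← hwh]
    simp [hwp]
  -- restrict to the image of `δ`
  have hmap : Submodule.map (h : (Fin k ⊕ Fin l → R) →ₗ[R] (Fin k ⊕ Fin l → R))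
      (LinearMap.range (D.delta : (Fin k ⊕ Fin l → R) →ₗ[R] _)) = LinearMap.range D.delta := by
    apply le_antisymm
    · rintro _ ⟨y, hy, rfl⟩
      rw [mem_range_delta]
      intro j
      have h1 := congrFun (hevh y) (Sum.inr j)
      have h2 := (D.mem_range_delta y).1 hy j
      rw [hpr] at h1
      exact h1.trans h2
    · intro y hy
      refine ⟨h.symm y, ?_, by simp⟩
      change h.symm y ∈ LinearMap.range D.delta
      rw [mem_range_delta]
      intro j
      have h1 := congrFun (hevh (h.symm y)) (Sum.inr j)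
      rw [hpr, h.apply_symm_apply] at h1
      have h2 := (D.mem_range_delta y).1 hy j
      exact h1.symm.trans h2
  let eδ := LinearEquiv.ofInjective (D.delta : (Fin k ⊕ Fin l → R) →ₗ[R] _) D.delta_injective
  let H : (Fin k ⊕ Fin l → R) ≃ₗ[R] (Fin k ⊕ Fin l → R) :=
    eδ.trans ((h.submoduleMap _).trans ((LinearEquiv.ofEq _ _ hmap).trans eδ.symm))
  refine ⟨H, fun x => ?_⟩
  have hδH : D.delta (H x) = h (D.delta x) := by
    have : eδ (H x) = (LinearEquiv.ofEq _ _ hmap) ((h.submoduleMap _) (eδ x)) := by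
      simp [H]
    have := congrArg Subtype.val this
    simpa [eδ] using this
  rw [← hwδ, hδH, hwh']

end HeckeData

end Vale.Agent.P246
end
end

section

section

set_option linter.unusedSectionVars false

namespace Vale.Agent.P246

open Function

namespace HeckeData

variable {A R : Type*} [CommRing A] [CommRing R] (D : HeckeData A R)
variable {N : Type*} [AddCommGroup N] [Module A N]
variable {κ : Type*} [Fintype κ] [DecidableEq κ]

theorem w0_elim {k l : ℕ} (lam : (Fin k → A) →ₗ[A] (κ → A))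
    (psi : (Fin l → A) →ₗ[A] (κ → A)) (a : Fin k → A) (b : Fin l → A) :
    w0 lam psi (Sum.elim a b) = lam a + psi b := rfl

theorem w0_surjective {k l : ℕ} (q : (κ → A) →ₗ[A] N)
    (lam : (Fin k → A) →ₗ[A] (κ → A)) (hlam : ∀ x, q x = 0 ↔ ∃ a, lam a = x)
    (psi : (Fin l → A) →ₗ[A] (κ → A)) (hpsi : Surjective (q ∘ₗ psi)) :
    Surjective (w0 lam psi) := by
  intro u
  obtain ⟨b, hb⟩ := hpsi (q u)
  have h1 : q (u - psi b) = 0 := by
    rw [map_sub, ← hb, LinearMap.comp_apply, sub_self]
  obtain ⟨a, ha⟩ := (hlam _).1 h1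
  refine ⟨Sum.elim a b, ?_⟩
  have e1 : (Sum.elim a b) ∘ Sum.inl = a := by ext; simp
  have e2 : (Sum.elim a b) ∘ Sum.inr = b := by ext; simp
  change lam ((Sum.elim a b) ∘ Sum.inl) + psi ((Sum.elim a b) ∘ Sum.inr) = u
  rw [e1, e2, ha, sub_add_cancel]

theorem bc_w0_const {k l : ℕ} (lam : (Fin k → A) →ₗ[A] (κ → A))
    (psi : (Fin l → A) →ₗ[A] (κ → A)) (a : Fin k ⊕ Fin l → A) :
    D.bc (w0 lam psi) (D.delta (D.i ∘ a)) =
      D.i ∘ (lam (a ∘ Sum.inl)) + D.τ • (D.i ∘ (psi (a ∘ Sum.inr))) := by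
  have h1 : D.delta (D.i ∘ a) = D.i ∘ (Sum.elim (a ∘ Sum.inl) 0) +
      D.τ • (D.i ∘ (Sum.elim 0 (a ∘ Sum.inr))) := by
    ext j
    rcases j with j | j
    · rw [delta_inl]; simp
    · rw [delta_inr]; simp
  rw [h1, map_add, map_smul, D.bc_const, D.bc_const]
  rw [w0_elim, w0_elim, map_zero, map_zero, add_zero, zero_add]

theorem hecke_minGen {k l : ℕ} (ε : A →+* ℤ) (q : (κ → A) →ₗ[A] N) (hq : Surjective q)
    (hk : MinGen ε (LinearMap.ker q) k) (hl : MinGen ε N l) :
    MinGen (ε.comp D.ev) (D.heckeMod q) (k + l) := by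
  obtain ⟨μ, e, hμ, he⟩ := hk
  obtain ⟨ν, e', hν, he'⟩ := hl
  obtain ⟨psi, hpsi⟩ := Module.projective_lifting_property q ν hq
  let lam : (Fin k → A) →ₗ[A] (κ → A) := (LinearMap.ker q).subtype ∘ₗ μ
  have hlam : ∀ x, q x = 0 ↔ ∃ a, lam a = x := by
    intro x
    constructor
    · intro hx
      obtain ⟨a, ha⟩ := hμ ⟨x, hx⟩
      exact ⟨a, by simp [lam, ha]⟩
    · rintro ⟨a, rfl⟩
      exact (μ a).2
  have hpsis : Surjective (q ∘ₗ psi) := by rw [hpsi]; exact hν
  have hmem : ∀ x, D.bc (w0 lam psi) (D.delta x) ∈ D.heckeMod q := by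
    intro x
    rw [mem_heckeMod, D.ev_bc]
    change q (lam ((D.ev ∘ D.delta x) ∘ Sum.inl) + psi ((D.ev ∘ D.delta x) ∘ Sum.inr)) = 0
    have : (D.ev ∘ D.delta x) ∘ Sum.inr = (0 : Fin l → A) := by
      ext j
      simp only [comp_apply, delta_inr, map_mul, D.ev_τ, zero_mul, Pi.zero_apply]
    rw [this, map_zero, add_zero]
    exact (hlam _).2 ⟨_, rfl⟩
  let M0 : (Fin k ⊕ Fin l → R) →ₗ[R] D.heckeMod q :=
    (D.bc (w0 lam psi) ∘ₗ D.delta).codRestrict _ hmem
  have hM0 : Surjective M0 := by
    rintro ⟨u, hu⟩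
    obtain ⟨a, ha⟩ := (hlam _).1 hu
    obtain ⟨z, hz⟩ := D.bc_surjective _ (w0_surjective q lam hlam psi hpsis) (D.quot ∘ u)
    have hr : (D.i ∘ (Sum.elim a 0) + D.τ • z : Fin k ⊕ Fin l → R) ∈
        LinearMap.range (D.delta : (Fin k ⊕ Fin l → R) →ₗ[R] _) := by
      rw [mem_range_delta]
      intro j
      simp [D.ev_τ]
    obtain ⟨y, hy⟩ := hr
    refine ⟨y, Subtype.ext ?_⟩
    change D.bc (w0 lam psi) (D.delta y) = u
    rw [hy, map_add, map_smul, hz, D.bc_const]
    rw [w0_elim, map_zero, add_zero, ha]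
    ext j
    simpa using (D.quot_spec (u j)).symm
  have hbar : ∀ x, D.rho q (M0 x) = (μ ((D.ev ∘ x) ∘ Sum.inl), ν ((D.ev ∘ x) ∘ Sum.inr)) := by
    intro x
    rw [D.rho_theta]
    change D.rho q (M0 (D.i ∘ (D.ev ∘ x))) = _
    have h1 : (M0 (D.i ∘ (D.ev ∘ x)) : κ → R) = D.i ∘ (lam ((D.ev ∘ x) ∘ Sum.inl)) +
      D.τ • (D.i ∘ (psi ((D.ev ∘ x) ∘ Sum.inr))) := D.bc_w0_const lam psi (D.ev ∘ x)
    apply Prod.ext
    · apply Subtype.ext
      change D.ev ∘ (M0 (D.i ∘ (D.ev ∘ x)) : κ → R) = _
      rw [h1, D.ev_add, D.ev_smul, D.ev_τ, zero_smul, add_zero, D.ev_const]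
      rfl
    · change q (D.der ∘ (M0 (D.i ∘ (D.ev ∘ x)) : κ → R)) = _
      have h2 : D.der ∘ (D.i ∘ (lam ((D.ev ∘ x) ∘ Sum.inl)) +
          D.τ • (D.i ∘ (psi ((D.ev ∘ x) ∘ Sum.inr)))) = psi ((D.ev ∘ x) ∘ Sum.inr) := by
        ext j
        simp [D.der_add, D.der_i, D.der_τ_mul, D.ev_i]
      rw [h1, h2, ← hpsi]
      rfl
  refine ⟨M0 ∘ₗ (LinearEquiv.funCongrLeft R R finSumFinEquiv).toLinearMap,
    { toFun := fun u i => Sum.elim (e (D.rho q u).1) (e' (D.rho q u).2) (finSumFinEquiv.symm i)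
      map_zero' := ?_
      map_add' := ?_ }, ?_, ?_⟩
  · have : D.rho q 0 = 0 := by
      have := D.rho_smul q 0 0
      simpa using this
    ext i
    rcases finSumFinEquiv.symm i with j | j <;> simp [this]
  · intro x y
    ext i
    obtain ⟨j, rfl⟩ := finSumFinEquiv.surjective i
    rcases j with j | j <;> simp [D.rho_add]
  · exact hM0.comp (LinearEquiv.surjective _)
  · intro x i
    obtain ⟨j, rfl⟩ := finSumFinEquiv.surjective i
    simp only [LinearMap.comp_apply, LinearEquiv.coe_coe, AddMonoidHom.coe_mk, ZeroHom.coe_mk,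
      hbar, Equiv.symm_apply_apply]
    rcases j with j | j
    · rw [Sum.elim_inl, he]; rfl
    · rw [Sum.elim_inr, he']; rfl

theorem hecke_isTrans (hQS : IsTrans R (κ → R)) {k l : ℕ} (ε : A →+* ℤ)
    (q : (κ → A) →ₗ[A] N) (hq : Surjective q)
    (hA : IsTrans A (LinearMap.ker q × N))
    (hk : MinGen ε (LinearMap.ker q) k) (hl : MinGen ε N l) : IsTrans R (D.heckeMod q) := by
  intro m θ θ' hθ hθ'
  have hkl : k + l ≤ m := (hk.prod hl).le (D.thetaBar q θ) (D.thetaBar_surjective q hq θ hθ)
  obtain ⟨μ, e, hμ, he⟩ := hk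
  obtain ⟨ν, e', hν, he'⟩ := hl
  obtain ⟨l', rfl⟩ := Nat.exists_eq_add_of_le (le_trans (Nat.le_add_right k l) hkl)
  have hll : l ≤ l' := by omega
  let nu : (Fin l' → A) →ₗ[A] N := ν ∘ₗ LinearMap.funLeft A A (Fin.castLE hll)
  have hnu : Surjective nu := by
    refine hν.comp ?_
    exact LinearMap.funLeft_surjective_of_injective _ _ _ (Fin.castLE_injective hll)
  obtain ⟨psi, hpsi⟩ := Module.projective_lifting_property q nu hq
  let lam : (Fin k → A) →ₗ[A] (κ → A) := (LinearMap.ker q).subtype ∘ₗ μ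
  have hlam : ∀ x, q x = 0 ↔ ∃ a, lam a = x := by
    intro x
    constructor
    · intro hx
      obtain ⟨a, ha⟩ := hμ ⟨x, hx⟩
      exact ⟨a, by simp [lam, ha]⟩
    · rintro ⟨a, rfl⟩
      exact (μ a).2
  have hpsis : Surjective (q ∘ₗ psi) := by rw [hpsi]; exact hnu
  let β : (Fin k ⊕ Fin l' → A) →ₗ[A] (LinearMap.ker q × N) :=
    (μ ∘ₗ LinearMap.funLeft A A Sum.inl).prod (q ∘ₗ psi ∘ₗ LinearMap.funLeft A A Sum.inr)
  have hβ : Surjective β := by
    rintro ⟨u, n⟩
    obtain ⟨a, rfl⟩ := hμ u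
    obtain ⟨b, rfl⟩ := hpsis n
    refine ⟨Sum.elim a b, ?_⟩
    apply Prod.ext
    · change μ ((Sum.elim a b) ∘ Sum.inl) = μ a
      congr 1
    · change q (psi ((Sum.elim a b) ∘ Sum.inr)) = q (psi b)
      congr 1
  have key : ∀ θ : (Fin (k + l') → R) →ₗ[R] D.heckeMod q, Surjective θ →
      ∃ G : (Fin k ⊕ Fin l' → R) ≃ₗ[R] (Fin (k + l') → R),
        ∀ x, (θ (G x) : κ → R) = D.bc (w0 lam psi) (D.delta x) := by
    intro θ hθ
    obtain ⟨g, hg⟩ := hA.apply (LinearEquiv.refl A _)
      (LinearEquiv.funCongrLeft A A finSumFinEquiv.symm) (D.thetaBar q θ) β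
      (D.thetaBar_surjective q hq θ hθ) hβ
    have h1 : ∀ a, D.thetaBar q (θ ∘ₗ (D.bcEquiv g).toLinearMap) a = β a := by
      intro a
      rw [hg]
      change D.rho q (θ (D.bc g.toLinearMap (D.i ∘ a))) = D.rho q (θ (D.i ∘ (g a)))
      rw [D.bc_const]
      rfl
    obtain ⟨H, hH⟩ := D.hecke_norm hQS q lam hlam psi hpsis (θ ∘ₗ (D.bcEquiv g).toLinearMap)
      (hθ.comp (D.bcEquiv g).surjective)
      (by intro a; rw [h1]; rfl) (by intro a; rw [h1]; rfl)
    exact ⟨H.trans (D.bcEquiv g), fun x => hH x⟩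
  obtain ⟨G, hG⟩ := key θ hθ
  obtain ⟨G', hG'⟩ := key θ' hθ'
  refine ⟨G'.symm.trans G, fun x => Subtype.ext ?_⟩
  obtain ⟨z, rfl⟩ := G'.surjective x
  rw [hG', LinearEquiv.trans_apply, G'.symm_apply_apply, hG]

end HeckeData

end Vale.Agent.P246
end
end

section

section

set_option linter.unusedSectionVars false

namespace Vale.Agent.P246

open Function

section Defs

variable {R : Type*} [CommRing R] {n : ℕ}

/-- the linear form with coefficients `a` -/
def lin (a : Fin n → R) : (Fin n → R) →ₗ[R] R where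
  toFun u := ∑ i, u i * a i
  map_add' u v := by simp [add_mul, Finset.sum_add_distrib]
  map_smul' r u := by simp [Finset.mul_sum, mul_assoc]

theorem lin_apply (a : Fin n → R) (u : Fin n → R) : lin a u = ∑ i, u i * a i := rfl

/-- the syzygy module of the linear form -/
def Om (a : Fin n → R) : Submodule R (Fin n → R) := LinearMap.ker (lin a)

/-- the induction hypothesis -/
structure Good (ε : R →+* ℤ) (a : Fin n → R) : Prop where
  gen : ∀ x, ε x = 0 ↔ ∃ u, lin a u = x
  trans : ∀ b c : ℕ, IsTrans R ((Fin b → Om a) × (Fin c → RingHom.ker ε))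
  minGen : ∀ b c : ℕ, MinGen ε ((Fin b → Om a) × (Fin c → RingHom.ker ε))
    (b * n.choose 2 + c * n)

end Defs

section Step

variable {A R : Type*} [CommRing A] [CommRing R] (D : HeckeData A R) {n : ℕ}
variable (ε : A →+* ℤ) (a : Fin n → A)

/-- the coordinates upstairs -/
def up : Fin (n + 1) → R := Fin.cons D.τ (D.i ∘ a)

theorem lin_up (u : Fin (n + 1) → R) :
    lin (up D a) u = u 0 * D.τ + lin (D.i ∘ a) (fun j => u j.succ) := by
  rw [lin_apply, lin_apply, Fin.sum_univ_succ]
  simp only [up, Fin.cons_zero, Fin.cons_succ, comp_apply]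

theorem ev_lin (u : Fin n → R) : D.ev (lin (D.i ∘ a) u) = lin a (D.ev ∘ u) := by
  simp only [lin_apply, comp_apply, map_sum, map_mul, D.ev_i]

theorem lin_mem (hgen : ∀ x, ε x = 0 ↔ ∃ u, lin a u = x) (u : Fin n → A) :
    lin a u ∈ RingHom.ker ε := by
  rw [RingHom.mem_ker]; exact (hgen _).2 ⟨u, rfl⟩

/-- the quotient map defining the modification -/
def qmap (hgen : ∀ x, ε x = 0 ↔ ∃ u, lin a u = x) (b c : ℕ) :
    (((Fin b × Fin n) ⊕ Fin c) → A) →ₗ[A]
      ((Fin b → RingHom.ker ε) × (Fin c → A ⧸ RingHom.ker ε)) where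
  toFun u := (fun j => ⟨lin a (fun i => u (Sum.inl (j, i))), lin_mem ε a hgen _⟩,
    fun j => Ideal.Quotient.mk _ (u (Sum.inr j)))
  map_add' u v := by
    apply Prod.ext
    · ext j
      change lin a ((fun i => u (Sum.inl (j, i))) + (fun i => v (Sum.inl (j, i)))) = _
      rw [map_add]; rfl
    · ext j; simp
  map_smul' r u := by
    apply Prod.ext
    · ext j
      change lin a (r • (fun i => u (Sum.inl (j, i)))) = _
      rw [map_smul]; rfl
    · ext j
      simp only [Pi.smul_apply, smul_eq_mul, map_mul, RingHom.id_apply, Prod.smul_snd]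
      rw [Algebra.smul_def, Ideal.Quotient.algebraMap_eq]

theorem qmap_surjective (hgen : ∀ x, ε x = 0 ↔ ∃ u, lin a u = x) (b c : ℕ) :
    Surjective (qmap ε a hgen b c) := by
  rintro ⟨x, y⟩
  choose u hu using fun j => (hgen (x j : A)).1 (x j).2
  choose v hv using fun j => Ideal.Quotient.mk_surjective (y j)
  refine ⟨Sum.elim (fun p => u p.1 p.2) v, ?_⟩
  apply Prod.ext
  · ext j
    exact hu j
  · ext j
    exact hv j

theorem qmap_eq_zero (hgen : ∀ x, ε x = 0 ↔ ∃ u, lin a u = x) (b c : ℕ)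
    (u : ((Fin b × Fin n) ⊕ Fin c) → A) : qmap ε a hgen b c u = 0 ↔
      (∀ j, lin a (fun i => u (Sum.inl (j, i))) = 0) ∧ ∀ j, ε (u (Sum.inr j)) = 0 := by
  constructor
  · intro h
    refine ⟨fun j => ?_, fun j => ?_⟩
    · have := congrArg Subtype.val (congrFun (congrArg Prod.fst h) j)
      exact this
    · have := congrFun (congrArg Prod.snd h) j
      exact (Ideal.Quotient.eq_zero_iff_mem.1 this)
  · rintro ⟨h1, h2⟩
    apply Prod.ext
    · ext j
      exact h1 j
    · ext j
      exact Ideal.Quotient.eq_zero_iff_mem.2 (h2 j)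

/-- the `j`-th row of a vector -/
def row {X : Type*} {b c : ℕ} (u : ((Fin b × Fin n) ⊕ Fin c) → X) (j : Fin b) : Fin n → X :=
  fun i => u (Sum.inl (j, i))

theorem row_add {X : Type*} [AddCommGroup X] {b c : ℕ} (u v : ((Fin b × Fin n) ⊕ Fin c) → X)
    (j : Fin b) : row (u + v) j = row u j + row v j := rfl

theorem row_smul {b c : ℕ} (r : R) (u : ((Fin b × Fin n) ⊕ Fin c) → R)
    (j : Fin b) : row (r • u) j = r • row u j := rfl

theorem om_mem {R : Type*} [CommRing R] {n : ℕ} (a : Fin n → R) (u : Fin n → R) :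
    u ∈ Om a ↔ lin a u = 0 := Iff.rfl

/-- the kernel of `qmap` -/
def kerEquiv (hgen : ∀ x, ε x = 0 ↔ ∃ u, lin a u = x) (b c : ℕ) :
    LinearMap.ker (qmap ε a hgen b c) ≃ₗ[A] ((Fin b → Om a) × (Fin c → RingHom.ker ε)) where
  toFun u := (fun j => ⟨row u.1 j, ((qmap_eq_zero ε a hgen b c u.1).1 u.2).1 j⟩,
    fun j => ⟨u.1 (Sum.inr j), ((qmap_eq_zero ε a hgen b c u.1).1 u.2).2 j⟩)
  map_add' u v := rfl
  map_smul' r u := rfl
  invFun z := ⟨Sum.elim (fun p => (z.1 p.1).1 p.2) (fun j => (z.2 j).1), by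
    rw [LinearMap.mem_ker, qmap_eq_zero]
    exact ⟨fun j => (z.1 j).2, fun j => (z.2 j).2⟩⟩
  left_inv u := by
    apply Subtype.ext
    ext j
    rcases j with j | j <;> rfl
  right_inv z := rfl

theorem quot_add (r s : R) : D.quot (r + s) = D.quot r + D.quot s := by
  apply D.quot_unique (a := D.ev r + D.ev s)
  conv_lhs => rw [D.quot_spec r, D.quot_spec s]
  rw [map_add]; ring

theorem quot_mul_of_ev {r s : R} (h : D.ev s = 0) : D.quot (r * s) = r * D.quot s := by
  apply D.quot_unique (a := 0)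
  have h1 := D.quot_spec s
  rw [h, map_zero, zero_add] at h1
  conv_lhs => rw [h1]
  rw [map_zero]; ring

/-- lifting a vector to a syzygy -/
noncomputable def liftRow (v : Fin n → R) : Fin (n + 1) → R :=
  Fin.cons (- D.quot (lin (D.i ∘ a) v)) v

theorem liftRow_mem (v : Fin n → R) (h : D.ev (lin (D.i ∘ a) v) = 0) :
    liftRow D a v ∈ Om (up D a) := by
  rw [om_mem, lin_up]
  have h1 := D.quot_spec (lin (D.i ∘ a) v)
  rw [h, map_zero, zero_add] at h1
  simp only [liftRow, Fin.cons_zero, Fin.cons_succ]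
  rw [neg_mul, mul_comm _ D.τ, ← h1, neg_add_cancel]

theorem liftRow_add (u v : Fin n → R) : liftRow D a (u + v) = liftRow D a u + liftRow D a v := by
  ext i
  refine Fin.cases ?_ (fun i => ?_) i
  · simp only [liftRow, Fin.cons_zero, Pi.add_apply, map_add, quot_add]; ring
  · simp [liftRow]

theorem liftRow_smul (r : R) (v : Fin n → R) (h : D.ev (lin (D.i ∘ a) v) = 0) :
    liftRow D a (r • v) = r • liftRow D a v := by
  ext i
  refine Fin.cases ?_ (fun i => ?_) i
  · simp only [liftRow, Fin.cons_zero, Pi.smul_apply, map_smul, smul_eq_mul]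
    rw [quot_mul_of_ev D h]; ring
  · simp [liftRow]

theorem liftRow_tail (z : Fin (n + 1) → R) (h : z ∈ Om (up D a)) :
    liftRow D a (fun i => z i.succ) = z := by
  rw [om_mem, lin_up] at h
  ext i
  refine Fin.cases ?_ (fun i => ?_) i
  · simp only [liftRow, Fin.cons_zero]
    rw [D.quot_unique (a := 0) (s := - z 0), neg_neg]
    rw [map_zero, zero_add, mul_neg, ← mul_comm]
    exact eq_neg_of_add_eq_zero_right h
  · simp [liftRow]

theorem row_ev (hgen : ∀ x, ε x = 0 ↔ ∃ u, lin a u = x) {b c : ℕ}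
    (u : D.heckeMod (qmap ε a hgen b c)) (j : Fin b) : D.ev (lin (D.i ∘ a) (row u.1 j)) = 0 := by
  rw [ev_lin]
  exact ((qmap_eq_zero ε a hgen b c _).1 u.2).1 j

/-- the modified module is the module of syzygies upstairs -/
noncomputable def modEquiv (hgen : ∀ x, ε x = 0 ↔ ∃ u, lin a u = x) (b c : ℕ) :
    D.heckeMod (qmap ε a hgen b c) ≃ₗ[R]
      ((Fin b → Om (up D a)) × (Fin c → RingHom.ker (ε.comp D.ev))) where
  toFun u := (fun j => ⟨liftRow D a (row u.1 j), liftRow_mem D a _ (row_ev D ε a hgen u j)⟩,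
    fun j => ⟨u.1 (Sum.inr j), ((qmap_eq_zero ε a hgen b c _).1 u.2).2 j⟩)
  map_add' u v := by
    apply Prod.ext
    · funext j
      apply Subtype.ext
      exact liftRow_add D a (row u.1 j) (row v.1 j)
    · rfl
  map_smul' r u := by
    apply Prod.ext
    · funext j
      apply Subtype.ext
      exact liftRow_smul D a r (row u.1 j) (row_ev D ε a hgen u j)
    · rfl
  invFun z := ⟨Sum.elim (fun p => (z.1 p.1).1 p.2.succ) (fun j => (z.2 j).1), by
    rw [D.mem_heckeMod, qmap_eq_zero]
    refine ⟨fun j => ?_, fun j => (z.2 j).2⟩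
    have h : lin (up D a) (z.1 j).1 = 0 := (z.1 j).2
    rw [lin_up] at h
    have h2 := congrArg D.ev h
    rw [map_add, map_mul, D.ev_τ, mul_zero, zero_add, ev_lin, map_zero] at h2
    exact h2⟩
  left_inv u := by
    apply Subtype.ext
    funext j
    rcases j with j | j
    · rfl
    · rfl
  right_inv z := by
    apply Prod.ext
    · funext j
      apply Subtype.ext
      exact liftRow_tail D a (z.1 j).1 (z.1 j).2
    · rfl

theorem gen_up (hgen : ∀ x, ε x = 0 ↔ ∃ u, lin a u = x) (x : R) :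
    (ε.comp D.ev) x = 0 ↔ ∃ u, lin (up D a) u = x := by
  constructor
  · intro h
    obtain ⟨u, hu⟩ := (hgen _).1 h
    refine ⟨Fin.cons (D.quot x) (D.i ∘ u), ?_⟩
    rw [lin_up]
    simp only [Fin.cons_zero, Fin.cons_succ]
    have h1 : lin (D.i ∘ a) (fun j => (D.i ∘ u) j) = D.i (D.ev x) := by
      rw [← hu]
      simp only [comp_apply, lin_apply, map_sum, map_mul]
    rw [h1]
    conv_rhs => rw [D.quot_spec x]
    ring
  · rintro ⟨u, rfl⟩
    rw [lin_up, RingHom.comp_apply, map_add, map_mul, D.ev_τ, mul_zero, zero_add, ev_lin]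
    exact (hgen _).2 ⟨_, rfl⟩

theorem minGen_Q (c : ℕ) : MinGen ε (Fin c → A ⧸ RingHom.ker ε) c := by
  let μ : (Fin c → A) →ₗ[A] (Fin c → A ⧸ RingHom.ker ε) :=
    { toFun := fun x j => Ideal.Quotient.mk _ (x j)
      map_add' := by intro x y; ext j; simp only [Pi.add_apply, map_add]
      map_smul' := by
        intro r x; ext j
        simp only [Pi.smul_apply, smul_eq_mul, map_mul, RingHom.id_apply]
        rw [Algebra.smul_def, Ideal.Quotient.algebraMap_eq] }
  let e : (Fin c → A ⧸ RingHom.ker ε) →+ (Fin c → ℤ) :=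
    { toFun := fun x j => RingHom.kerLift ε (x j)
      map_zero' := by ext j; simp
      map_add' := by intro x y; ext j; simp only [Pi.add_apply, map_add] }
  refine ⟨μ, e, ?_, ?_⟩
  · intro y
    choose v hv using fun j => Ideal.Quotient.mk_surjective (y j)
    exact ⟨v, by ext j; exact hv j⟩
  · intro x i
    exact RingHom.kerLift_mk ε (x i)

/-- rearranging factors -/
def shuffle (S : Type*) [CommRing S] (X Y Z : Type*) [AddCommGroup X] [Module S X]
    [AddCommGroup Y] [Module S Y] [AddCommGroup Z] [Module S Z] (b c : ℕ) :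
    ((X × (Fin (c + b) → Y)) × Z) ≃ₗ[S] ((X × (Fin c → Y)) × ((Fin b → Y) × Z)) where
  toFun w := ((w.1.1, fun j => w.1.2 (Fin.castAdd b j)), (fun j => w.1.2 (Fin.natAdd c j), w.2))
  map_add' u v := rfl
  map_smul' r u := rfl
  invFun w := ((w.1.1, Fin.append w.1.2 w.2.1), w.2.2)
  left_inv w := by
    apply Prod.ext
    · apply Prod.ext
      · rfl
      · funext j
        refine Fin.addCases (fun i => ?_) (fun i => ?_) j <;> simp
    · rfl
  right_inv w := by
    apply Prod.ext
    · apply Prod.ext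
      · rfl
      · funext j; simp
    · apply Prod.ext
      · funext j; simp
      · rfl

theorem good_step (hQS : IsTrans R R) (h : Good ε a) : Good (ε.comp D.ev) (up D a) := by
  have h4 : ∀ b c, MinGen ε (LinearMap.ker (qmap ε a h.gen b c)) (b * n.choose 2 + c * n) :=
    fun b c => (h.minGen b c).of_equiv (kerEquiv ε a h.gen b c).symm
  have h5 : ∀ b c, MinGen ε ((Fin b → RingHom.ker ε) × (Fin c → A ⧸ RingHom.ker ε))
      (b * n + c) := by
    intro b c
    have := h.minGen 0 b
    rw [Nat.zero_mul, Nat.zero_add] at this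
    exact (this.of_equiv (LinearEquiv.uniqueProd (M₂ := Fin 0 → Om a))).prod (minGen_Q ε c)
  constructor
  · exact gen_up D ε a h.gen
  · intro b c
    have h1 := h.trans b (c + b)
    have h2 := (h1.prod_Q ε (h.minGen b (c + b)) c)
    have h3 : IsTrans A (LinearMap.ker (qmap ε a h.gen b c) ×
        ((Fin b → RingHom.ker ε) × (Fin c → A ⧸ RingHom.ker ε))) := by
      refine h2.of_equiv ?_
      exact (shuffle A _ _ _ b c).trans
        ((kerEquiv ε a h.gen b c).symm.prodCongr (LinearEquiv.refl A _))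
    have h6 : IsTrans R (((Fin b × Fin n) ⊕ Fin c) → R) :=
      (hQS.pi _).of_equiv (LinearEquiv.funCongrLeft R R
        (Fintype.equivFin ((Fin b × Fin n) ⊕ Fin c)))
    exact (D.hecke_isTrans h6 ε _ (qmap_surjective ε a h.gen b c) h3 (h4 b c) (h5 b c)).of_equiv
      (modEquiv D ε a h.gen b c)
  · intro b c
    have h7 := (D.hecke_minGen ε _ (qmap_surjective ε a h.gen b c) (h4 b c) (h5 b c)).of_equiv
      (modEquiv D ε a h.gen b c)
    have h8 : b * n.choose 2 + c * n + (b * n + c) = b * (n + 1).choose 2 + c * (n + 1) := by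
      rw [Nat.choose_succ_succ' n 1, Nat.choose_one_right]; ring
    rw [h8] at h7
    exact h7

end Step

section Base

variable {R : Type*} [CommRing R] (ε : R →+* ℤ) (hε : Injective ε) (a : Fin 0 → R)
include hε

theorem good_zero : Good ε a := by
  have h0 : Subsingleton (RingHom.ker ε) := by
    rw [(RingHom.injective_iff_ker_eq_bot ε).1 hε]
    infer_instance
  have h1 : Subsingleton (Om a) := inferInstance
  have h2 : ∀ b c : ℕ, Subsingleton ((Fin b → Om a) × (Fin c → RingHom.ker ε)) :=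
    fun b c => inferInstance
  constructor
  · intro x
    constructor
    · intro h
      exact ⟨0, by rw [map_zero]; exact (hε (by rw [h, map_zero])).symm⟩
    · rintro ⟨u, rfl⟩
      simp [lin_apply]
  · intro b c
    have := h2 b c
    exact isTrans_of_subsingleton
  · intro b c
    have := h2 b c
    have h3 : b * Nat.choose 0 2 + c * 0 = 0 := by simp
    rw [h3]
    exact ⟨0, 0, fun x => ⟨0, Subsingleton.elim _ _⟩, fun x i => i.elim0⟩

end Base

end Vale.Agent.P246
end
end

section

section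

set_option linter.unusedSectionVars false

namespace Vale.Agent.P246

open Function Matrix

section

variable {R : Type*} [CommRing R]

theorem exists_equiv_of_row {k : ℕ} (θ : (Fin (k + 1) → R) →ₗ[R] R)
    (h : RowEquiv (fun j => θ (Pi.single j 1)) (Pi.single 0 1)) :
    ∃ G : (Fin (k + 1) → R) ≃ₗ[R] (Fin (k + 1) → R), ∀ x, θ (G x) = x 0 := by
  obtain ⟨g, hg, hv⟩ := h
  refine ⟨Matrix.toLin'OfInv (Matrix.nonsing_inv_mul g hg) (Matrix.mul_nonsing_inv g hg),
    fun x => ?_⟩
  have hθ : ∀ y, θ y = (fun j => θ (Pi.single j 1)) ⬝ᵥ y := by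
    intro y
    conv_lhs => rw [← Finset.univ_sum_single y, map_sum]
    rw [dotProduct]
    refine Finset.sum_congr rfl fun j _ => ?_
    have : (Pi.single j (y j) : Fin (k + 1) → R) = y j • Pi.single j 1 := by
      rw [← Pi.single_smul, smul_eq_mul, mul_one]
    rw [this, map_smul, smul_eq_mul, mul_comm]
  rw [hθ]
  change (fun j => θ (Pi.single j 1)) ⬝ᵥ (Matrix.toLin' g x) = x 0
  rw [Matrix.toLin'_apply]
  rw [Matrix.dotProduct_mulVec, hv, single_one_dotProduct]

theorem isTrans_of_rows [Nontrivial R]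
    (h : ∀ (k : ℕ) (v : Fin (k + 1) → R), Ideal.span (Set.range v) = ⊤ →
      RowEquiv v (Pi.single 0 1)) : IsTrans R R := by
  intro m θ θ' hθ hθ'
  rcases m with _ | k
  · exfalso
    obtain ⟨x, hx⟩ := hθ 1
    rw [Subsingleton.elim x 0, map_zero] at hx
    exact zero_ne_one hx
  · have hspan : ∀ θ : (Fin (k + 1) → R) →ₗ[R] R, Surjective θ →
        Ideal.span (Set.range fun j => θ (Pi.single j 1)) = ⊤ := by
      intro θ hθ
      rw [Ideal.eq_top_iff_one]
      obtain ⟨x, hx⟩ := hθ 1
      rw [Ideal.mem_span_range_iff_exists_fun]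
      refine ⟨x, ?_⟩
      refine Eq.trans ?_ hx
      conv_rhs => rw [← Finset.univ_sum_single x, map_sum]
      refine Finset.sum_congr rfl fun j _ => ?_
      have : (Pi.single j (x j) : Fin (k + 1) → R) = x j • Pi.single j 1 := by
        rw [← Pi.single_smul, smul_eq_mul, mul_one]
      rw [this, map_smul, smul_eq_mul]
    obtain ⟨G, hG⟩ := exists_equiv_of_row θ (h k _ (hspan θ hθ))
    obtain ⟨G', hG'⟩ := exists_equiv_of_row θ' (h k _ (hspan θ' hθ'))
    refine ⟨G'.symm.trans G, fun x => ?_⟩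
    have := hG' (G'.symm x)
    rw [LinearEquiv.apply_symm_apply] at this
    rw [LinearEquiv.trans_apply, hG, this]

end

theorem isTrans_L (n : ℕ) : IsTrans (L n) (L n) := by
  have := isDomain_L n
  exact isTrans_of_rows (quillen_suslin_L n)

/-- the inclusion of exponents -/
def consZero (n : ℕ) : (Fin n → ℤ) →+ (Fin (n + 1) → ℤ) where
  toFun γ := Fin.cons 0 γ
  map_zero' := by
    funext i
    refine Fin.cases ?_ (fun j => ?_) i <;> simp
  map_add' a b := by
    funext i
    refine Fin.cases ?_ (fun j => ?_) i <;> simp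

/-- forgetting the zeroth exponent -/
def tailHom (n : ℕ) : (Fin (n + 1) → ℤ) →+ (Fin n → ℤ) where
  toFun γ := Fin.tail γ
  map_zero' := rfl
  map_add' _ _ := rfl

/-- monomials -/
noncomputable def mon {n : ℕ} (γ : Fin n → ℤ) : L n := AddMonoidAlgebra.single γ 1

theorem mon_zero {n : ℕ} : (mon 0 : L n) = 1 := rfl

theorem mon_add {n : ℕ} (a b : Fin n → ℤ) : mon (a + b) = mon a * mon b := by
  rw [mon, mon, mon, AddMonoidAlgebra.single_mul_single, mul_one]

theorem mon_injective {n : ℕ} : Injective (mon : (Fin n → ℤ) → L n) := by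
  intro a b h
  exact AddMonoidAlgebra.single_left_injective one_ne_zero h

theorem L_hom_ext {n : ℕ} {S : Type*} [CommRing S] {f g : L n →+* S}
    (h : ∀ γ, f (mon γ) = g (mon γ)) : f = g := by
  apply AddMonoidAlgebra.ringHom_ext
  · intro r
    have h1 : (AddMonoidAlgebra.single (0 : Fin n → ℤ) r : L n) = ((r : ℤ) : L n) := by
      rw [AddMonoidAlgebra.intCast_def, Int.cast_id]
    rw [h1, map_intCast, map_intCast]
  · exact h

theorem L_induction {n : ℕ} {P : L n → Prop} (h1 : ∀ γ, P (mon γ))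
    (hadd : ∀ x y, P x → P y → P (x + y)) (hz : ∀ (k : ℤ) x, P x → P (k • x)) (x : L n) :
    P x := by
  induction x using AddMonoidAlgebra.induction_linear with
  | zero =>
    have := hz 0 _ (h1 0)
    rwa [zero_smul] at this
  | add f g hf hg => exact hadd _ _ hf hg
  | single a b =>
    have := hz b _ (h1 a)
    rwa [mon, AddMonoidAlgebra.smul_single, smul_eq_mul, mul_one] at this

/-- the retraction data splitting off the zeroth variable -/
noncomputable def rdL (n : ℕ) : RetractData (L n) (L (n + 1)) where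
  i := AddMonoidAlgebra.mapDomainRingHom ℤ (consZero n)
  ev := AddMonoidAlgebra.mapDomainRingHom ℤ (tailHom n)
  ev_i a := by
    have : (AddMonoidAlgebra.mapDomainRingHom ℤ (tailHom n)).comp
        (AddMonoidAlgebra.mapDomainRingHom ℤ (consZero n)) = RingHom.id (L n) := by
      apply L_hom_ext
      intro γ
      rw [RingHom.comp_apply, mon, AddMonoidAlgebra.mapDomainRingHom_apply ℤ (consZero n),
        AddMonoidAlgebra.mapDomain_single, AddMonoidAlgebra.mapDomainRingHom_apply,
        AddMonoidAlgebra.mapDomain_single]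
      rfl
    exact congrArg (fun f : L n →+* L n => f a) this

theorem rdL_i_mon (n : ℕ) (γ : Fin n → ℤ) : (rdL n).i (mon γ) = mon (Fin.cons 0 γ) := by
  rw [rdL, mon, AddMonoidAlgebra.mapDomainRingHom_apply, AddMonoidAlgebra.mapDomain_single]
  rfl

theorem rdL_ev_mon (n : ℕ) (γ : Fin (n + 1) → ℤ) : (rdL n).ev (mon γ) = mon (Fin.tail γ) := by
  rw [rdL, mon, AddMonoidAlgebra.mapDomainRingHom_apply, AddMonoidAlgebra.mapDomain_single]
  rfl

theorem sub_one_dvd_mon {n : ℕ} (u : Fin n → ℤ) (k : ℤ) : mon u - 1 ∣ mon (k • u) - 1 := by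
  have h1 : ∀ m : ℕ, mon ((m : ℤ) • u) = mon u ^ m := by
    intro m
    induction m with
    | zero => simp [mon_zero]
    | succ m ih =>
      rw [pow_succ, ← ih, ← mon_add]
      congr 1
      push_cast
      rw [add_smul, one_smul]
  have h2 : ∀ m : ℕ, mon u - 1 ∣ mon ((m : ℤ) • u) - 1 := by
    intro m
    rw [h1]
    have := sub_dvd_pow_sub_pow (mon u) 1 m
    rwa [one_pow] at this
  rcases Int.eq_nat_or_neg k with ⟨m, rfl | rfl⟩
  · exact h2 m
  · have h3 : mon (-(m : ℤ) • u) - 1 = -(mon (-(m : ℤ) • u) * (mon ((m : ℤ) • u) - 1)) := by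
      have : mon (-(m : ℤ) • u) * mon ((m : ℤ) • u) = 1 := by
        rw [← mon_add, ← add_smul, neg_add_cancel, zero_smul, mon_zero]
      rw [mul_sub, this]; ring
    rw [h3, dvd_neg]
    exact (h2 m).mul_left _

/-- the Hecke data splitting off the zeroth variable -/
noncomputable def hdL (n : ℕ) : HeckeData (L n) (L (n + 1)) where
  toRetractData := rdL n
  τ := mon (Pi.single 0 1) - 1
  ev_τ := by
    rw [map_sub, rdL_ev_mon, map_one]
    have : Fin.tail (Pi.single 0 1 : Fin (n + 1) → ℤ) = 0 := by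
      funext j
      simp [Fin.tail]
    rw [this, mon_zero, sub_self]
  ker_ev := by
    have key : ∀ r : L (n + 1), (mon (Pi.single 0 1) - 1 : L (n + 1)) ∣
        r - (rdL n).i ((rdL n).ev r) := by
      intro r
      induction r using L_induction with
      | h1 γ =>
        rw [rdL_ev_mon, rdL_i_mon]
        have h1 : γ = Fin.cons 0 (Fin.tail γ) + (γ 0) • (Pi.single 0 1 : Fin (n + 1) → ℤ) := by
          funext i
          refine Fin.cases ?_ (fun j => ?_) i
          · simp
          · simp [Fin.tail]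
        have h2 : mon γ - mon (Fin.cons 0 (Fin.tail γ))
            = mon (Fin.cons 0 (Fin.tail γ)) * (mon ((γ 0) • (Pi.single 0 1)) - 1) := by
          rw [mul_sub, mul_one, ← mon_add, ← h1]
        rw [h2]
        exact (sub_one_dvd_mon _ _).mul_left _
      | hadd x y hx hy =>
        have : x + y - (rdL n).i ((rdL n).ev (x + y))
            = (x - (rdL n).i ((rdL n).ev x)) + (y - (rdL n).i ((rdL n).ev y)) := by
          rw [map_add, map_add]; ring
        rw [this]
        exact dvd_add hx hy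
      | hz k x hx =>
        have : k • x - (rdL n).i ((rdL n).ev (k • x)) = k • (x - (rdL n).i ((rdL n).ev x)) := by
          rw [map_zsmul, map_zsmul, smul_sub]
        rw [this, zsmul_eq_mul]
        exact hx.mul_left _
    intro r hr
    obtain ⟨s, hs⟩ := key r
    rw [hr, map_zero, sub_zero] at hs
    exact ⟨s, hs⟩
  τ_reg := by
    have := isDomain_L (n + 1)
    intro r hr
    rcases mul_eq_zero.1 hr with h | h
    · exfalso
      rw [sub_eq_zero, ← mon_zero] at h
      have := congrFun (mon_injective h) 0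
      simp at this
    · exact h

/-- the augmentation -/
noncomputable def augL (n : ℕ) : L n →+* ℤ :=
  (AddMonoidAlgebra.lift ℤ ℤ (Fin n → ℤ) 1 : L n →ₐ[ℤ] ℤ).toRingHom

theorem augL_mon (n : ℕ) (γ : Fin n → ℤ) : augL n (mon γ) = 1 := by
  simp only [augL, AlgHom.toRingHom_eq_coe, mon, RingHom.coe_coe, AddMonoidAlgebra.lift_single, MonoidHom.one_apply, Int.zsmul_eq_mul, mul_one]

theorem augL_comp (n : ℕ) : (augL n).comp (hdL n).ev = augL (n + 1) := by
  apply L_hom_ext
  intro γ
  rw [RingHom.comp_apply]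
  change augL n ((rdL n).ev (mon γ)) = _
  rw [rdL_ev_mon, augL_mon, augL_mon]

/-- the linear form defining the augmentation ideal -/
noncomputable def gensL (n : ℕ) (i : Fin n) : L n := mon (Pi.single i 1) - 1

theorem gensL_succ (n : ℕ) : up (hdL n) (gensL n) = gensL (n + 1) := by
  funext i
  refine Fin.cases ?_ (fun j => ?_) i
  · rfl
  · change (rdL n).i (gensL n j) = _
    rw [gensL, map_sub, map_one, rdL_i_mon, gensL]
    congr 2
    funext l
    refine Fin.cases ?_ (fun q => ?_) l
    · simp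
    · simp [Pi.single_apply]

theorem good_L : ∀ n, Good (augL n) (gensL n)
  | 0 => by
    apply good_zero
    intro x y hxy
    have h : ∀ x : L 0, x = ((augL 0 x : ℤ) : L 0) := by
      intro x
      induction x using L_induction with
      | h1 γ => rw [augL_mon, Int.cast_one, Subsingleton.elim γ 0, mon_zero]
      | hadd x y hx hy => rw [map_add, Int.cast_add, ← hx, ← hy]
      | hz k x hx => rw [map_zsmul, smul_eq_mul, Int.cast_mul, ← hx, zsmul_eq_mul]
    rw [h x, h y, hxy]
  | n + 1 => by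
    have := good_step (hdL n) (augL n) (gensL n) (isTrans_L (n + 1)) (good_L n)
    rw [augL_comp, gensL_succ] at this
    exact this

end Vale.Agent.P246
end
end

section

section

set_option linter.unusedSectionVars false

namespace Vale.Agent.P246

open Function

section

variable {R S : Type*} [CommRing R] [CommRing S] (e : R ≃+* S)
variable {M M' : Type*} [AddCommGroup M] [Module R M] [AddCommGroup M'] [Module S M']
variable (f : M ≃+ M') (hf : ∀ (r : R) (x : M), f (r • x) = e r • f x)

include hf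

theorem semi_symm (s : S) (y : M') : f.symm (s • y) = e.symm s • f.symm y := by
  apply f.injective
  rw [hf, f.apply_symm_apply, f.apply_symm_apply, e.apply_symm_apply]

theorem IsTrans.of_semi (h : IsTrans R M) : IsTrans S M' := by
  intro m θ θ' hθ hθ'
  have conv : ∀ θ : (Fin m → S) →ₗ[S] M', ∃ θR : (Fin m → R) →ₗ[R] M,
      ∀ x, θR x = f.symm (θ (e ∘ x)) := by
    intro θ
    refine ⟨⟨⟨fun x => f.symm (θ (e ∘ x)), ?_⟩, ?_⟩, fun x => rfl⟩
    · intro x y
      have : (e ∘ (x + y)) = e ∘ x + e ∘ y := by ext i; simp only [comp_apply, Pi.add_apply, map_add]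
      rw [this, map_add, map_add]
    · intro r x
      have : (e ∘ (r • x)) = e r • (e ∘ x) := by ext i; simp only [comp_apply, Pi.smul_apply, smul_eq_mul, map_mul]
      simp only [RingHom.id_apply]
      rw [this, map_smul, semi_symm e f hf, e.symm_apply_apply]
  have hsurj : ∀ (θ : (Fin m → S) →ₗ[S] M') (θR : (Fin m → R) →ₗ[R] M),
      (∀ x, θR x = f.symm (θ (e ∘ x))) → Surjective θ → Surjective θR := by
    intro θ θR h1 h2 y
    obtain ⟨z, hz⟩ := h2 (f y)
    refine ⟨e.symm ∘ z, ?_⟩
    rw [h1]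
    have : e ∘ e.symm ∘ z = z := by ext i; simp
    rw [this, hz, f.symm_apply_apply]
  obtain ⟨θR, h1⟩ := conv θ
  obtain ⟨θR', h1'⟩ := conv θ'
  obtain ⟨g, hg⟩ := h m θR θR' (hsurj θ θR h1 hθ) (hsurj θ' θR' h1' hθ')
  let gS : (Fin m → S) ≃ₗ[S] (Fin m → S) :=
    { toFun := fun y => e ∘ g (e.symm ∘ y)
      map_add' := by
        intro x y
        have : (e.symm ∘ (x + y)) = e.symm ∘ x + e.symm ∘ y := by ext i; simp only [comp_apply, Pi.add_apply, map_add]
        rw [this, map_add]
        ext i; simp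
      map_smul' := by
        intro r x
        have : (e.symm ∘ (r • x)) = e.symm r • (e.symm ∘ x) := by ext i; simp only [comp_apply, Pi.smul_apply, smul_eq_mul, map_mul]
        simp only [RingHom.id_apply]
        rw [this, map_smul]
        ext i; simp
      invFun := fun y => e ∘ g.symm (e.symm ∘ y)
      left_inv := by
        intro x
        have h2 : e.symm ∘ (e ∘ g (e.symm ∘ x)) = g (e.symm ∘ x) := by ext i; simp
        simp only
        rw [h2, g.symm_apply_apply]
        ext i; simp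
      right_inv := by
        intro x
        have h2 : e.symm ∘ (e ∘ g.symm (e.symm ∘ x)) = g.symm (e.symm ∘ x) := by ext i; simp
        simp only
        rw [h2, g.apply_symm_apply]
        ext i; simp }
  refine ⟨gS, fun y => ?_⟩
  apply f.symm.injective
  have h2 := hg (e.symm ∘ y)
  rw [h1, h1'] at h2
  have h3 : e ∘ e.symm ∘ y = y := by ext i; simp
  rw [h3] at h2
  exact h2

theorem MinGen.of_semi {ε : R →+* ℤ} {k : ℕ} (h : MinGen ε M k) :
    MinGen (ε.comp (e.symm : S →+* R)) M' k := by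
  obtain ⟨μ, q, hμ, hq⟩ := h
  refine ⟨⟨⟨fun x => f (μ (e.symm ∘ x)), ?_⟩, ?_⟩, q.comp f.symm.toAddMonoidHom, ?_, ?_⟩
  · intro x y
    have : (e.symm ∘ (x + y)) = e.symm ∘ x + e.symm ∘ y := by ext i; simp only [comp_apply, Pi.add_apply, map_add]
    rw [this, map_add, map_add]
  · intro r x
    have : (e.symm ∘ (r • x)) = e.symm r • (e.symm ∘ x) := by ext i; simp only [comp_apply, Pi.smul_apply, smul_eq_mul, map_mul]
    simp only [RingHom.id_apply]
    rw [this, map_smul, hf, e.apply_symm_apply]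
  · intro y
    obtain ⟨x, hx⟩ := hμ (f.symm y)
    refine ⟨e ∘ x, ?_⟩
    have : e.symm ∘ (e ∘ x) = x := by ext i; simp
    change f (μ (e.symm ∘ (e ∘ x))) = y
    rw [this, hx, f.apply_symm_apply]
  · intro x i
    change q (f.symm (f (μ (e.symm ∘ x)))) i = ε (e.symm (x i))
    rw [f.symm_apply_apply, hq]
    rfl

end

section

variable {R S : Type*} [CommRing R] [CommRing S] (e : R ≃+* S) {n : ℕ}

theorem lin_transport (a : Fin n → R) (u : Fin n → R) : lin (e ∘ a) (e ∘ u) = e (lin a u) := by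
  simp only [lin_apply, comp_apply, map_sum, map_mul]

/-- transport of the module of syzygies -/
def omEquiv (a : Fin n → R) : Om a ≃+ Om (e ∘ a) where
  toFun u := ⟨e ∘ u.1, by
    have := u.2
    rw [om_mem] at this ⊢
    rw [lin_transport, this, map_zero]⟩
  invFun u := ⟨e.symm ∘ u.1, by
    have := u.2
    rw [om_mem] at this ⊢
    apply e.injective
    rw [← lin_transport]
    have h3 : e ∘ e.symm ∘ u.1 = u.1 := by ext i; simp
    rw [h3, this, map_zero]⟩
  left_inv u := by
    apply Subtype.ext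
    ext i; simp
  right_inv u := by
    apply Subtype.ext
    ext i; simp
  map_add' u v := by
    apply Subtype.ext
    ext i; simp

/-- transport of the augmentation ideal -/
def kerAugEquiv (ε : R →+* ℤ) : RingHom.ker ε ≃+ RingHom.ker (ε.comp (e.symm : S →+* R)) where
  toFun u := ⟨e u.1, by
    have := u.2
    rw [RingHom.mem_ker] at this ⊢
    simpa using this⟩
  invFun u := ⟨e.symm u.1, by
    have := u.2
    rw [RingHom.mem_ker] at this ⊢
    simpa using this⟩
  left_inv u := by
    apply Subtype.ext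
    simp
  right_inv u := by
    apply Subtype.ext
    simp
  map_add' u v := by
    apply Subtype.ext
    simp

theorem Good.transport {ε : R →+* ℤ} {a : Fin n → R} (h : Good ε a) :
    Good (ε.comp (e.symm : S →+* R)) (e ∘ a) := by
  let f : ∀ b c : ℕ, ((Fin b → Om a) × (Fin c → RingHom.ker ε)) ≃+
      ((Fin b → Om (e ∘ a)) × (Fin c → RingHom.ker (ε.comp (e.symm : S →+* R)))) := fun b c =>
    AddEquiv.prodCongr (AddEquiv.piCongrRight fun _ => omEquiv e a)
      (AddEquiv.piCongrRight fun _ => kerAugEquiv e ε)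
  have hf : ∀ (b c : ℕ) (r : R) (x : (Fin b → Om a) × (Fin c → RingHom.ker ε)),
      f b c (r • x) = e r • f b c x := by
    intro b c r x
    apply Prod.ext
    · funext j
      apply Subtype.ext
      funext i
      exact map_mul e r _
    · funext j
      apply Subtype.ext
      exact map_mul e r _
  constructor
  · intro x
    constructor
    · intro hx
      obtain ⟨u, hu⟩ := (h.gen (e.symm x)).1 hx
      refine ⟨e ∘ u, ?_⟩
      rw [lin_transport, hu, e.apply_symm_apply]
    · rintro ⟨u, rfl⟩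
      have h3 : e ∘ e.symm ∘ u = u := by ext i; simp
      rw [← h3, lin_transport]
      change ε (e.symm (e (lin a (e.symm ∘ u)))) = 0
      rw [e.symm_apply_apply]
      exact (h.gen _).2 ⟨_, rfl⟩
  · intro b c
    exact (h.trans b c).of_semi e (f b c) (hf b c)
  · intro b c
    exact (h.minGen b c).of_semi e (f b c) (hf b c)

include e in
theorem isTrans_transport (h : IsTrans R R) : IsTrans S S :=
  h.of_semi e e.toAddEquiv (fun r x => map_mul e r x)

end

/-! ### exactness of the Koszul relations -/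

section Koszul

variable {R : Type*} [CommRing R] {n : ℕ}

/-- the Koszul syzygy `a_j e_i - a_i e_j` -/
def kz (a : Fin n → R) (i j : Fin n) : Fin n → R := a j • Pi.single i 1 - a i • Pi.single j 1

theorem lin_single (a : Fin n → R) (i : Fin n) (r : R) : lin a (r • Pi.single i 1) = r * a i := by
  rw [map_smul, smul_eq_mul, lin_apply]
  congr 1
  rw [Finset.sum_eq_single i]
  · simp
  · intro j _ hj
    simp [hj]
  · intro h
    exact absurd (Finset.mem_univ i) h

theorem lin_kz (a : Fin n → R) (i j : Fin n) : lin a (kz a i j) = 0 := by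
  rw [kz, map_sub, lin_single, lin_single]; ring

/-- exactness of the Koszul complex at the first spot -/
def KosExact (a : Fin n → R) : Prop :=
  ∀ u, lin a u = 0 → u ∈ Submodule.span R (Set.range fun p : Fin n × Fin n => kz a p.1 p.2)

theorem kosExact_zero (a : Fin 0 → R) : KosExact a := by
  intro u _
  rw [Subsingleton.elim u 0]
  exact zero_mem _

theorem kosExact_transport {S : Type*} [CommRing S] (e : R ≃+* S) {a : Fin n → R}
    (h : KosExact a) : KosExact (e ∘ a) := by
  intro u hu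
  have h3 : e ∘ e.symm ∘ u = u := by ext i; simp
  rw [← h3, lin_transport, EmbeddingLike.map_eq_zero_iff] at hu
  have h1 := h _ hu
  rw [← h3]
  refine Submodule.span_induction (p := fun x _ => (e ∘ x) ∈ Submodule.span S
    (Set.range fun p : Fin n × Fin n => kz (e ∘ a) p.1 p.2)) ?_ ?_ ?_ ?_ h1
  · rintro _ ⟨p, rfl⟩
    apply Submodule.subset_span
    refine ⟨p, ?_⟩
    ext i
    simp [kz, Pi.single_apply, apply_ite e]
  · have : (e ∘ (0 : Fin n → R)) = 0 := by ext i; simp
    rw [this]; exact zero_mem _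
  · intro x y _ _ hx hy
    have : (e ∘ (x + y)) = e ∘ x + e ∘ y := by ext i; simp only [comp_apply, Pi.add_apply, map_add]
    rw [this]; exact add_mem hx hy
  · intro r x _ hx
    have : (e ∘ (r • x)) = e r • (e ∘ x) := by ext i; simp only [comp_apply, Pi.smul_apply, smul_eq_mul, map_mul]
    rw [this]; exact Submodule.smul_mem _ _ hx

theorem kosExact_step {A : Type*} [CommRing A] (D : HeckeData A R) {a : Fin n → A}
    (h : KosExact a) : KosExact (up D a) := by
  intro u hu
  set K := Submodule.span R (Set.range fun p : Fin (n + 1) × Fin (n + 1) =>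
    kz (up D a) p.1 p.2) with hK
  have hlin : ∀ w ∈ K, lin (up D a) w = 0 := by
    intro w hw
    have : K ≤ LinearMap.ker (lin (up D a)) := by
      rw [hK, Submodule.span_le]
      rintro _ ⟨p, rfl⟩
      exact lin_kz _ _ _
    exact this hw
  -- a vector with zero tail that is a syzygy vanishes
  have htail : ∀ w : Fin (n + 1) → R, lin (up D a) w = 0 → (∀ j : Fin n, w j.succ = 0) → w = 0 := by
    intro w hw hw'
    rw [lin_up] at hw
    have h0 : lin (D.i ∘ a) (fun j => w j.succ) = 0 := by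
      have : (fun j : Fin n => w j.succ) = 0 := by funext j; exact hw' j
      rw [this, map_zero]
    rw [h0, add_zero, mul_comm] at hw
    have h1 := D.τ_reg _ hw
    funext i
    refine Fin.cases ?_ (fun j => ?_) i
    · exact h1
    · exact hw' j
  -- the constant part of the tail lifts
  have hconst : ∀ v : Fin n → A, lin a v = 0 → ∃ w ∈ K, ∀ j : Fin n, w j.succ = D.i (v j) := by
    intro v hv
    refine Submodule.span_induction (p := fun v _ => ∃ w ∈ K, ∀ j : Fin n, w j.succ = D.i (v j))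
      ?_ ?_ ?_ ?_ (h v hv)
    · rintro _ ⟨p, rfl⟩
      refine ⟨kz (up D a) p.1.succ p.2.succ, Submodule.subset_span ⟨(p.1.succ, p.2.succ), rfl⟩,
        fun j => ?_⟩
      simp [kz, up, Pi.single_apply, apply_ite D.i]
    · exact ⟨0, zero_mem _, fun j => by simp⟩
    · rintro x y _ _ ⟨w, hw, hw'⟩ ⟨z, hz, hz'⟩
      exact ⟨w + z, add_mem hw hz, fun j => by simp only [Pi.add_apply, hw', hz', map_add]⟩
    · rintro r x _ ⟨w, hw, hw'⟩
      exact ⟨D.i r • w, Submodule.smul_mem _ _ hw, fun j => by simp [hw']⟩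
  have hev : lin a (fun j => D.ev (u j.succ)) = 0 := by
    have h1 := hu
    rw [lin_up] at h1
    have h2 := congrArg D.ev h1
    rw [map_add, map_mul, D.ev_τ, mul_zero, zero_add, ev_lin, map_zero] at h2
    exact h2
  obtain ⟨w, hw, hw'⟩ := hconst _ hev
  let z : Fin (n + 1) → R := ∑ j : Fin n, D.quot (u j.succ) • kz (up D a) j.succ 0
  have hz : z ∈ K := Submodule.sum_mem _ fun j _ => Submodule.smul_mem _ _
    (Submodule.subset_span ⟨(j.succ, 0), rfl⟩)
  have hz' : ∀ j : Fin n, z j.succ = D.τ * D.quot (u j.succ) := by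
    intro j
    simp only [z, Finset.sum_apply, Pi.smul_apply, smul_eq_mul, kz, Pi.sub_apply]
    rw [Finset.sum_eq_single j]
    · simp [up, mul_comm]
    · intro l _ hl
      have : j.succ ≠ l.succ := fun h => hl (Fin.succ_injective _ h).symm
      simp [this]
    · intro h
      exact absurd (Finset.mem_univ j) h
  have key : u - w - z = 0 := by
    apply htail
    · rw [map_sub, map_sub, hu, hlin w hw, hlin z hz]; simp
    · intro j
      rw [Pi.sub_apply, Pi.sub_apply, hw', hz']
      rw [sub_sub, sub_eq_zero]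
      exact D.quot_spec _
  have : u = w + z := by
    rw [sub_sub, sub_eq_zero] at key; exact key
  rw [this]
  exact add_mem hw hz

end Koszul

end Vale.Agent.P246
end
end

section

section

set_option linter.unusedSectionVars false

namespace Vale.Agent.P246

open Function

universe u v w

section

variable (S : Type u) [CommRing S]

/-- free of rank `k` -/
def IsFree (M : Type v) [AddCommGroup M] [Module S M] (k : ℕ) : Prop :=
  Nonempty (M ≃ₗ[S] (Fin k → S))

variable {S}
variable {M : Type v} [AddCommGroup M] [Module S M] {N : Type w} [AddCommGroup N] [Module S N]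

theorem IsFree.of_equiv {k : ℕ} (h : IsFree S M k) (e : M ≃ₗ[S] N) : IsFree S N k :=
  ⟨e.symm.trans h.some⟩

theorem IsFree.of_free [Nontrivial S] [Module.Free S M] [Module.Finite S M] :
    IsFree S M (Module.finrank S M) :=
  ⟨(Module.finBasis S M).equivFun⟩

theorem IsFree.finrank_eq [Nontrivial S] {k : ℕ} (h : IsFree S M k) : Module.finrank S M = k := by
  obtain ⟨e⟩ := h
  rw [e.finrank_eq]
  simp only [Module.finrank_fintype_fun_eq_card, Fintype.card_fin]

theorem IsFree.of_subsingleton [Subsingleton M] : IsFree S M 0 :=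
  ⟨LinearEquiv.ofSubsingleton _ _⟩

theorem cancel_one (hS : IsTrans S S) [Nontrivial S] {j : ℕ} (h : IsFree S (M × S) j) :
    ∃ l, l + 1 = j ∧ IsFree S M l := by
  obtain ⟨e⟩ := h
  set θ : (Fin j → S) →ₗ[S] S := LinearMap.snd S M S ∘ₗ e.symm.toLinearMap with hθ
  have hθs : Surjective θ := by
    intro s
    exact ⟨e (0, s), by simp [hθ]⟩
  rcases j with _ | l
  · exfalso
    obtain ⟨x, hx⟩ := hθs 1
    rw [Subsingleton.elim x 0, map_zero] at hx
    exact zero_ne_one hx
  · refine ⟨l, rfl, ?_⟩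
    obtain ⟨g, hg⟩ := hS (l + 1) θ (LinearMap.proj 0) hθs (fun s => ⟨fun _ => s, rfl⟩)
    have hg' : ∀ x : Fin (l + 1) → S, (e.symm (g x)).2 = x 0 := by
      intro x
      have := hg x
      rw [LinearMap.proj_apply] at this
      exact this.symm
    let f : M →ₗ[S] (Fin l → S) :=
      { toFun := fun x i => g.symm (e (x, 0)) i.succ
        map_add' := by
          intro x y; funext i
          have : ((x + y, 0) : M × S) = (x, 0) + (y, 0) := by simp
          rw [this, map_add, map_add]; rfl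
        map_smul' := by
          intro r x; funext i
          have : ((r • x, 0) : M × S) = r • (x, 0) := by simp
          rw [this, map_smul, map_smul]; rfl }
    have hz : ∀ x : M, g.symm (e (x, 0)) 0 = 0 := by
      intro x
      rw [← hg' (g.symm (e (x, 0)))]
      simp
    have hcons : ∀ x : M, (Fin.cons 0 (f x) : Fin (l + 1) → S) = g.symm (e (x, 0)) := by
      intro x
      funext i
      refine Fin.cases ?_ (fun j => ?_) i
      · rw [Fin.cons_zero, hz]
      · rfl
    refine ⟨LinearEquiv.ofBijective f ⟨?_, ?_⟩⟩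
    · intro x y hxy
      have h1 := hcons x
      rw [hxy, hcons y] at h1
      have h2 := e.injective (g.symm.injective h1)
      exact (congrArg Prod.fst h2).symm
    · intro y
      refine ⟨(e.symm (g (Fin.cons 0 y))).1, ?_⟩
      have h1 : ((e.symm (g (Fin.cons 0 y))).1, (0 : S)) = e.symm (g (Fin.cons 0 y)) := by
        apply Prod.ext
        · rfl
        · rw [hg']; rfl
      funext i
      change g.symm (e ((e.symm (g (Fin.cons 0 y))).1, 0)) i.succ = y i
      rw [h1]
      simp

theorem cancel_free (hS : IsTrans S S) [Nontrivial S] : ∀ (k j : ℕ),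
    IsFree S (M × (Fin k → S)) j → ∃ l, l + k = j ∧ IsFree S M l
  | 0, j, h => ⟨j, rfl, h.of_equiv (LinearEquiv.prodUnique (M₂ := Fin 0 → S))⟩
  | k + 1, j, h => by
    have e : (M × (Fin (k + 1) → S)) ≃ₗ[S] ((M × (Fin k → S)) × S) :=
      { toFun := fun x => ((x.1, fun i => x.2 i.succ), x.2 0)
        map_add' := fun _ _ => rfl
        map_smul' := fun _ _ => rfl
        invFun := fun y => (y.1.1, Fin.cons y.2 y.1.2)
        left_inv := fun x => by
          apply Prod.ext
          · rfl
          · exact Fin.cons_self_tail x.2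
        right_inv := fun y => by
          simp }
    obtain ⟨l', hl', h'⟩ := cancel_one hS (h.of_equiv e)
    obtain ⟨l, hl, h''⟩ := cancel_free hS k l' h'
    exact ⟨l, by omega, h''⟩

theorem IsFree.cancel (hS : IsTrans S S) [Nontrivial S] {k j : ℕ}
    (h : IsFree S (M × N) j) (h' : IsFree S N k) : ∃ l, l + k = j ∧ IsFree S M l :=
  cancel_free hS k j (h.of_equiv ((LinearEquiv.refl S M).prodCongr h'.some))

/-- the splitting of a surjection with a section -/
def splitEquiv (f : M →ₗ[S] N) (s : N →ₗ[S] M) (hs : ∀ y, f (s y) = y) :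
    M ≃ₗ[S] (LinearMap.ker f × N) where
  toFun x := (⟨x - s (f x), by rw [LinearMap.mem_ker, map_sub, hs, sub_self]⟩, f x)
  map_add' x y := by
    apply Prod.ext
    · apply Subtype.ext
      simp only [map_add, Prod.fst_add, Submodule.coe_add]
      abel
    · simp
  map_smul' r x := by
    apply Prod.ext
    · apply Subtype.ext
      simp [smul_sub]
    · simp
  invFun z := z.1.1 + s z.2
  left_inv x := by simp
  right_inv z := by
    obtain ⟨⟨k, hk⟩, y⟩ := z
    rw [LinearMap.mem_ker] at hk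
    apply Prod.ext
    · apply Subtype.ext
      simp [hk, hs]
    · simp [hk, hs]

end

theorem range_isFree {S : Type u} [CommRing S] (hS : IsTrans S S) [Nontrivial S] :
    ∀ (N : ℕ) (X : ℕ → Type v) [∀ i, AddCommGroup (X i)] [∀ i, Module S (X i)]
      (d : ∀ i, X (i + 1) →ₗ[S] X i) (c : ℕ → ℕ),
      (∀ i, IsFree S (X i) (c i)) → (∀ i, N < i → Subsingleton (X i)) →
      (∀ i, LinearMap.ker (d i) = LinearMap.range (d (i + 1))) →
      Module.Projective S (LinearMap.range (d 0)) →
      ∃ k : ℕ, IsFree S (LinearMap.range (d 0)) k ∧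
        (k : ℤ) = ∑ i ∈ Finset.range N, (-1) ^ i * (c (i + 1) : ℤ)
  | 0, X, _, _, d, c, hc, hb, hex, hproj => by
    have := hb 1 one_pos
    have h1 : Subsingleton (LinearMap.range (d 0)) := by
      constructor
      rintro ⟨_, ⟨x, rfl⟩⟩ ⟨_, ⟨y, rfl⟩⟩
      rw [Subsingleton.elim x y]
    exact ⟨0, IsFree.of_subsingleton, by simp only [CharP.cast_eq_zero, Finset.range_zero, Int.reduceNeg, Finset.sum_empty]⟩
  | N + 1, X, _, _, d, c, hc, hb, hex, hproj => by
    -- the surjection `X 1 → range (d 0)` splits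
    have hsurj : Surjective (d 0).rangeRestrict := LinearMap.surjective_rangeRestrict _
    obtain ⟨s, hs⟩ := Module.projective_lifting_property (d 0).rangeRestrict LinearMap.id hsurj
    have hs' : ∀ y, (d 0).rangeRestrict (s y) = y := fun y => LinearMap.congr_fun hs y
    let e := splitEquiv (d 0).rangeRestrict s hs'
    have hker : LinearMap.ker (d 0).rangeRestrict = LinearMap.range (d 1) := by
      rw [LinearMap.ker_rangeRestrict, hex 0]
    let e' : X 1 ≃ₗ[S] (LinearMap.range (d 1) × LinearMap.range (d 0)) :=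
      e.trans ((LinearEquiv.ofEq _ _ hker).prodCongr (LinearEquiv.refl S _))
    have hX1 : Module.Projective S (X 1) := Module.Projective.of_equiv (hc 1).some.symm
    have hproj1 : Module.Projective S (LinearMap.range (d 1)) := by
      refine Module.Projective.of_split (e'.symm.toLinearMap ∘ₗ LinearMap.inl S _ _)
        (LinearMap.fst S _ _ ∘ₗ e'.toLinearMap) ?_
      ext x
      simp only [Nat.reduceAdd, LinearMap.coe_comp, LinearMap.coe_fst, LinearEquiv.coe_coe, LinearMap.coe_inl, comp_apply, LinearEquiv.apply_symm_apply, LinearMap.id_coe, id_eq]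
    obtain ⟨k', hk', hsum⟩ := range_isFree hS N (fun i => X (i + 1)) (fun i => d (i + 1))
      (fun i => c (i + 1)) (fun i => hc (i + 1)) (fun i hi => hb (i + 1) (by omega))
      (fun i => hex (i + 1)) hproj1
    have h1 : IsFree S (LinearMap.range (d 0) × LinearMap.range (d 1)) (c 1) :=
      ((hc 1).of_equiv e').of_equiv (LinearEquiv.prodComm S _ _)
    obtain ⟨k, hk, hfree⟩ := h1.cancel hS hk'
    refine ⟨k, hfree, ?_⟩
    rw [Finset.sum_range_succ']
    have h2 : (k : ℤ) = c 1 - k' := by rw [← hk]; push_cast; ring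
    rw [h2, hsum]
    simp only [pow_succ, pow_zero, one_mul, zero_add]
    rw [sub_eq_add_neg, ← Finset.sum_neg_distrib, add_comm]
    congr 1
    refine Finset.sum_congr rfl fun i _ => ?_
    ring

end Vale.Agent.P246
end
end

section

section

set_option linter.unusedSectionVars false

namespace Vale.Agent.P246

open Function

section

variable {S : Type*} [CommRing S] {ε : S →+* ℤ} {n : ℕ} {a : Fin n → S}

theorem minGen_pi (ε : S →+* ℤ) (k : ℕ) : MinGen ε (Fin k → S) k :=
  ⟨LinearMap.id, { toFun := fun x i => ε (x i), map_zero' := by ext; simp,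
                    map_add' := by intro x y; ext; simp only [Pi.add_apply, map_add] }, surjective_id, fun _ _ => rfl⟩

theorem minGen_self (ε : S →+* ℤ) : MinGen ε S 1 :=
  (minGen_pi ε 1).of_equiv (LinearEquiv.funUnique (Fin 1) S S)

/-- `S ⧸ ker ε` needs one generator -/
theorem minGen_Q1 (ε : S →+* ℤ) : MinGen ε (S ⧸ RingHom.ker ε) 1 :=
  (minGen_Q ε 1).of_equiv (LinearEquiv.funUnique (Fin 1) S _)

theorem isTrans_Q1 (ε : S →+* ℤ) : IsTrans S (S ⧸ RingHom.ker ε) :=
  (isTrans_Q ε 1).of_equiv (LinearEquiv.funUnique (Fin 1) S _)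

theorem Good.isTrans_I (h : Good ε a) : IsTrans S (RingHom.ker ε) :=
  ((h.trans 0 1).of_equiv (LinearEquiv.uniqueProd (M₂ := Fin 0 → Om a))).of_equiv
    (LinearEquiv.funUnique (Fin 1) S _)

theorem Good.minGen_I (h : Good ε a) : MinGen ε (RingHom.ker ε) n := by
  have := ((h.minGen 0 1).of_equiv (LinearEquiv.uniqueProd (M₂ := Fin 0 → Om a))).of_equiv
    (LinearEquiv.funUnique (Fin 1) S _)
  rwa [Nat.zero_mul, Nat.zero_add, Nat.one_mul] at this

theorem Good.isTrans_Om (h : Good ε a) : IsTrans S (Om a) :=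
  ((h.trans 1 0).of_equiv (LinearEquiv.prodUnique (M₂ := Fin 0 → RingHom.ker ε))).of_equiv
    (LinearEquiv.funUnique (Fin 1) S _)

theorem Good.minGen_Om (h : Good ε a) : MinGen ε (Om a) (n.choose 2) := by
  have := ((h.minGen 1 0).of_equiv (LinearEquiv.prodUnique (M₂ := Fin 0 → RingHom.ker ε))).of_equiv
    (LinearEquiv.funUnique (Fin 1) S _)
  rwa [Nat.zero_mul, Nat.add_zero, Nat.one_mul] at this

theorem isFree_self : IsFree S S 1 := ⟨(LinearEquiv.funUnique (Fin 1) S S).symm⟩

theorem isFree_pi (k : ℕ) : IsFree S (Fin k → S) k := ⟨LinearEquiv.refl S _⟩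

theorem IsFree.prod {M N : Type*} [AddCommGroup M] [Module S M] [AddCommGroup N] [Module S N]
    {j k : ℕ} (h : IsFree S M j) (h' : IsFree S N k) : IsFree S (M × N) (j + k) := by
  obtain ⟨e⟩ := h
  obtain ⟨e'⟩ := h'
  exact ⟨(e.prodCongr e').trans ((LinearEquiv.sumArrowLequivProdArrow _ _ S S).symm.trans
    (LinearEquiv.funCongrLeft S S finSumFinEquiv.symm))⟩

theorem IsTrans.apply' {M X Y : Type*} [AddCommGroup M] [Module S M] [AddCommGroup X] [Module S X]
    [AddCommGroup Y] [Module S Y] (h : IsTrans S M) {m : ℕ} (hX : IsFree S X m)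
    (hY : IsFree S Y m) (θ : X →ₗ[S] M) (θ' : Y →ₗ[S] M) (hθ : Surjective θ)
    (hθ' : Surjective θ') : ∃ g : Y ≃ₗ[S] X, ∀ y, θ' y = θ (g y) :=
  h.apply hX.some hY.some θ θ' hθ hθ'

theorem MinGen.le' {M X : Type*} [AddCommGroup M] [Module S M] [AddCommGroup X] [Module S X]
    {k m : ℕ} (h : MinGen ε M k) (hX : IsFree S X m) (θ : X →ₗ[S] M) (hθ : Surjective θ) :
    k ≤ m :=
  h.le (θ ∘ₗ hX.some.symm.toLinearMap) (hθ.comp hX.some.symm.surjective)

theorem normal_form (hS : IsTrans S S) (h : Good ε a)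
    (kos : ∀ s : ℕ, (Fin (n.choose 2 + s) → S) →ₗ[S] (Fin n → S))
    (hkos : ∀ s u, lin a u = 0 ↔ ∃ t, kos s t = u)
    {C0 C1 P : Type*} [AddCommGroup C0] [Module S C0] [AddCommGroup C1] [Module S C1]
    [AddCommGroup P] [Module S P] {c0 c1 p : ℕ} (h0 : IsFree S C0 c0) (h1 : IsFree S C1 c1)
    (h2 : IsFree S P p) (e' : C0 →ₗ[S] S ⧸ RingHom.ker ε) (he' : Surjective e')
    (d1 : C1 →ₗ[S] C0) (d2 : P →ₗ[S] C1) (ex0 : ∀ x, e' x = 0 ↔ ∃ y, d1 y = x)
    (ex1 : ∀ y, d1 y = 0 ↔ ∃ z, d2 z = y) :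
    ∃ (r b s : ℕ) (E0 : C0 ≃ₗ[S] S × (Fin r → S))
      (E1 : C1 ≃ₗ[S] ((Fin n → S) × (Fin b → S)) × (Fin r → S))
      (E2 : P ≃ₗ[S] (Fin (n.choose 2 + s) → S) × (Fin b → S)),
      (∀ y, E0 (d1 y) = (lin a (E1 y).1.1, (E1 y).2)) ∧
      (∀ z, E1 (d2 z) = ((kos s (E2 z).1, (E2 z).2), 0)) ∧
      c0 = 1 + r ∧ c1 = n + b + r ∧ p = n.choose 2 + s + b := by
  -- degree zero
  obtain ⟨r, hr⟩ : ∃ r, c0 = 1 + r := by
    obtain ⟨r, hr⟩ := Nat.exists_eq_add_of_le ((minGen_Q1 ε).le' h0 e' he')
    exact ⟨r, hr⟩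
  subst hr
  let θ0 : S × (Fin r → S) →ₗ[S] S ⧸ RingHom.ker ε :=
    (Submodule.mkQ (RingHom.ker ε)) ∘ₗ LinearMap.fst S S _
  have hθ0 : Surjective θ0 := by
    intro y
    obtain ⟨x, rfl⟩ := Submodule.mkQ_surjective _ y
    exact ⟨(x, 0), rfl⟩
  obtain ⟨E0, hE0⟩ := (isTrans_Q1 ε).apply' ((isFree_self).prod (isFree_pi r)) h0 θ0 e' hθ0 he'
  have hmem : ∀ x, e' x = 0 ↔ ε (E0 x).1 = 0 := by
    intro x
    rw [hE0]
    change (Submodule.mkQ (RingHom.ker ε)) (E0 x).1 = 0 ↔ _
    rw [Submodule.mkQ_apply, Submodule.Quotient.mk_eq_zero, RingHom.mem_ker]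
  -- degree one
  let δ1 : C1 →ₗ[S] RingHom.ker ε × (Fin r → S) :=
    LinearMap.prod
      (LinearMap.codRestrict (RingHom.ker ε) (LinearMap.fst S S _ ∘ₗ E0.toLinearMap ∘ₗ d1)
        (fun y => (RingHom.mem_ker).2 ((hmem _).1 ((ex0 _).2 ⟨y, rfl⟩))))
      (LinearMap.snd S S _ ∘ₗ E0.toLinearMap ∘ₗ d1)
  have hδ1 : Surjective δ1 := by
    rintro ⟨⟨x, hx⟩, y⟩
    have h3 : e' (E0.symm (x, y)) = 0 := by
      rw [hmem, E0.apply_symm_apply]; exact hx
    obtain ⟨z, hz⟩ := (ex0 _).1 h3
    refine ⟨z, ?_⟩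
    apply Prod.ext
    · apply Subtype.ext
      change (E0 (d1 z)).1 = x
      rw [hz, E0.apply_symm_apply]
    · change (E0 (d1 z)).2 = y
      rw [hz, E0.apply_symm_apply]
  have hm1 : MinGen ε (RingHom.ker ε × (Fin r → S)) (n + r) := h.minGen_I.prod (minGen_pi ε r)
  obtain ⟨b, hb⟩ : ∃ b, c1 = n + b + r := by
    obtain ⟨b, hb⟩ := Nat.exists_eq_add_of_le (hm1.le' h1 δ1 hδ1)
    exact ⟨b, by omega⟩
  subst hb
  let θ1 : ((Fin n → S) × (Fin b → S)) × (Fin r → S) →ₗ[S] RingHom.ker ε × (Fin r → S) :=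
    LinearMap.prodMap
      ((LinearMap.codRestrict (RingHom.ker ε) (lin a)
        (fun u => (RingHom.mem_ker).2 ((h.gen _).2 ⟨u, rfl⟩))) ∘ₗ LinearMap.fst S _ _)
      LinearMap.id
  have hθ1 : Surjective θ1 := by
    rintro ⟨⟨x, hx⟩, y⟩
    obtain ⟨u, hu⟩ := (h.gen x).1 hx
    refine ⟨((u, 0), y), ?_⟩
    apply Prod.ext
    · apply Subtype.ext
      exact hu
    · rfl
  have ht1 : IsTrans S (RingHom.ker ε × (Fin r → S)) := hS.prod_pi h.isTrans_I r
  obtain ⟨E1, hE1⟩ := ht1.apply' (((isFree_pi n).prod (isFree_pi b)).prod (isFree_pi r)) h1 θ1 δ1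
    hθ1 hδ1
  have hd1 : ∀ y, E0 (d1 y) = (lin a (E1 y).1.1, (E1 y).2) := by
    intro y
    have h3 := hE1 y
    apply Prod.ext
    · exact congrArg (fun z : RingHom.ker ε × (Fin r → S) => (z.1 : S)) h3
    · exact congrArg (fun z : RingHom.ker ε × (Fin r → S) => z.2) h3
  -- degree two
  have hz : ∀ y, d1 y = 0 ↔ lin a (E1 y).1.1 = 0 ∧ (E1 y).2 = 0 := by
    intro y
    rw [← E0.map_eq_zero_iff, hd1, Prod.mk_eq_zero]
  have hd2 : ∀ z, lin a (E1 (d2 z)).1.1 = 0 ∧ (E1 (d2 z)).2 = 0 := fun z =>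
    (hz _).1 ((ex1 _).2 ⟨z, rfl⟩)
  let δ2 : P →ₗ[S] Om a × (Fin b → S) :=
    LinearMap.prod
      (LinearMap.codRestrict (Om a)
        (LinearMap.fst S _ _ ∘ₗ LinearMap.fst S _ _ ∘ₗ E1.toLinearMap ∘ₗ d2)
        (fun z => (hd2 z).1))
      (LinearMap.snd S _ _ ∘ₗ LinearMap.fst S _ _ ∘ₗ E1.toLinearMap ∘ₗ d2)
  have hδ2 : Surjective δ2 := by
    rintro ⟨⟨u, hu⟩, v⟩
    have h3 : d1 (E1.symm ((u, v), 0)) = 0 := by
      rw [hz, E1.apply_symm_apply]; exact ⟨hu, rfl⟩
    obtain ⟨z, hz'⟩ := (ex1 _).1 h3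
    refine ⟨z, ?_⟩
    apply Prod.ext
    · apply Subtype.ext
      change (E1 (d2 z)).1.1 = u
      rw [hz', E1.apply_symm_apply]
    · change (E1 (d2 z)).1.2 = v
      rw [hz', E1.apply_symm_apply]
  have hm2 : MinGen ε (Om a × (Fin b → S)) (n.choose 2 + b) := h.minGen_Om.prod (minGen_pi ε b)
  obtain ⟨s, hs⟩ : ∃ s, p = n.choose 2 + s + b := by
    obtain ⟨s, hs⟩ := Nat.exists_eq_add_of_le (hm2.le' h2 δ2 hδ2)
    exact ⟨s, by omega⟩
  subst hs
  let θ2 : (Fin (n.choose 2 + s) → S) × (Fin b → S) →ₗ[S] Om a × (Fin b → S) :=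
    LinearMap.prodMap
      (LinearMap.codRestrict (Om a) (kos s) (fun t => (hkos s _).2 ⟨t, rfl⟩))
      LinearMap.id
  have hθ2 : Surjective θ2 := by
    rintro ⟨⟨u, hu⟩, v⟩
    obtain ⟨t, ht⟩ := (hkos s u).1 hu
    refine ⟨(t, v), ?_⟩
    apply Prod.ext
    · apply Subtype.ext
      exact ht
    · rfl
  have ht2 : IsTrans S (Om a × (Fin b → S)) := hS.prod_pi h.isTrans_Om b
  obtain ⟨E2, hE2⟩ := ht2.apply' ((isFree_pi _).prod (isFree_pi b)) h2 θ2 δ2 hθ2 hδ2
  refine ⟨r, b, s, E0, E1, E2, hd1, fun z => ?_, rfl, rfl, rfl⟩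
  have h3 := hE2 z
  apply Prod.ext
  · apply Prod.ext
    · exact congrArg (fun w : Om a × (Fin b → S) => (w.1 : Fin n → S)) h3
    · exact congrArg (fun w : Om a × (Fin b → S) => w.2) h3
  · exact (hd2 z).2

end

end Vale.Agent.P246
end
end

section

section

namespace Vale.Agent.P246

open CategoryTheory

universe u v

theorem shortComplex_quasiIso {R : Type u} [Ring R] {S₁ S₂ : ShortComplex (ModuleCat.{v} R)}
    (φ : S₁ ⟶ S₂)
    (hinj : ∀ x : S₁.X₂, S₁.g x = 0 → (∃ y, S₂.f y = φ.τ₂ x) → ∃ z, S₁.f z = x)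
    (hsurj : ∀ y : S₂.X₂, S₂.g y = 0 → ∃ x, S₁.g x = 0 ∧ ∃ z, y = φ.τ₂ x + S₂.f z) :
    ShortComplex.QuasiIso φ := by
  have c23 : ∀ x : S₁.X₂, φ.τ₃ (S₁.g x) = S₂.g (φ.τ₂ x) := by
    intro x
    have := ConcreteCategory.congr_hom φ.comm₂₃ x
    simpa only [ModuleCat.hom_comp, LinearMap.coe_comp, Function.comp_apply] using this.symm
  have c12 : ∀ x : S₁.X₁, φ.τ₂ (S₁.f x) = S₂.f (φ.τ₁ x) := by
    intro x
    have := ConcreteCategory.congr_hom φ.comm₁₂ x
    simpa only [ModuleCat.hom_comp, LinearMap.coe_comp, Function.comp_apply] using this.symm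
  let K : LinearMap.ker S₁.g.hom →ₗ[R] LinearMap.ker S₂.g.hom :=
    (φ.τ₂.hom).restrict (by
      intro x hx
      rw [LinearMap.mem_ker] at hx ⊢
      have h1 := c23 x
      change φ.τ₃ (S₁.g.hom x) = S₂.g.hom (φ.τ₂.hom x) at h1
      rw [← h1, hx, map_zero])
  have hK : ∀ x, ((K x : LinearMap.ker S₂.g.hom) : S₂.X₂) = φ.τ₂.hom x := fun x => rfl
  let H : (LinearMap.ker S₁.g.hom ⧸ LinearMap.range S₁.moduleCatToCycles) →ₗ[R]
      (LinearMap.ker S₂.g.hom ⧸ LinearMap.range S₂.moduleCatToCycles) :=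
    Submodule.mapQ _ _ K (by
      rintro _ ⟨y, rfl⟩
      refine ⟨φ.τ₁ y, ?_⟩
      apply Subtype.ext
      exact (c12 y).symm)
  let γ : ShortComplex.LeftHomologyMapData φ S₁.moduleCatLeftHomologyData
      S₂.moduleCatLeftHomologyData :=
    { φK := ModuleCat.ofHom K
      φH := ModuleCat.ofHom H
      commi := by
        ext x
        rfl
      commf' := by
        ext x
        apply Subtype.ext
        exact c12 x
      commπ := by
        ext x
        rfl }
  rw [γ.quasiIso_iff]
  rw [ConcreteCategory.isIso_iff_bijective]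
  change Function.Bijective H
  constructor
  · rw [injective_iff_map_eq_zero]
    intro x hx
    obtain ⟨x, rfl⟩ := Submodule.Quotient.mk_surjective _ x
    rw [Submodule.mapQ_apply, Submodule.Quotient.mk_eq_zero] at hx
    rw [Submodule.Quotient.mk_eq_zero]
    obtain ⟨y, hy⟩ := hx
    obtain ⟨z, hz⟩ := hinj x.1 x.2 ⟨y, congrArg Subtype.val hy⟩
    exact ⟨z, Subtype.ext hz⟩
  · intro y
    obtain ⟨y, rfl⟩ := Submodule.Quotient.mk_surjective _ y
    obtain ⟨x, hx, z, hz⟩ := hsurj y.1 y.2
    refine ⟨Submodule.Quotient.mk ⟨x, hx⟩, ?_⟩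
    rw [Submodule.mapQ_apply]
    symm
    rw [Submodule.Quotient.eq]
    refine ⟨z, ?_⟩
    apply Subtype.ext
    change S₂.f z = y.1 - φ.τ₂.hom x
    rw [hz]
    change S₂.f z = φ.τ₂ x + S₂.f z - φ.τ₂ x
    rw [add_sub_cancel_left]

theorem chainComplex_quasiIso {R : Type u} [Ring R] {K L : ChainComplex (ModuleCat.{v} R) ℕ}
    (f : K ⟶ L)
    (h0i : ∀ x : K.X 0, (∃ y, L.d 1 0 y = f.f 0 x) → ∃ z, K.d 1 0 z = x)
    (h0s : ∀ y : L.X 0, ∃ x, ∃ z, y = f.f 0 x + L.d 1 0 z)
    (hi : ∀ (i : ℕ) (x : K.X (i + 1)), K.d (i + 1) i x = 0 →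
      (∃ y, L.d (i + 2) (i + 1) y = f.f (i + 1) x) → ∃ z, K.d (i + 2) (i + 1) z = x)
    (hs : ∀ (i : ℕ) (y : L.X (i + 1)), L.d (i + 1) i y = 0 →
      ∃ x, K.d (i + 1) i x = 0 ∧ ∃ z, y = f.f (i + 1) x + L.d (i + 2) (i + 1) z) :
    QuasiIso f := by
  constructor
  intro i
  rcases i with _ | i
  · rw [quasiIsoAt_iff' f 1 0 0 (by simp) (by simp)]
    apply shortComplex_quasiIso
    · intro x _ h
      exact h0i x h
    · intro y _
      obtain ⟨x, z, h⟩ := h0s y
      refine ⟨x, ?_, z, h⟩
      change K.d 0 0 x = 0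
      rw [K.shape 0 0 (by simp)]
      rfl
  · rw [quasiIsoAt_iff' f (i + 2) (i + 1) i (by simp) (by simp)]
    apply shortComplex_quasiIso
    · exact hi i
    · exact hs i

end Vale.Agent.P246
end
end

section

section

namespace Vale.Agent.P246

open CategoryTheory

/-! ### Fox derivatives do not see free reduction -/

section Fox

variable {G : Type} [Group G] {m : ℕ} (x : Fin m → G)

theorem elt_mul_elt (g h : G) : elt g * elt h = elt (g * h) := by
  rw [elt, elt, elt, MonoidAlgebra.single_mul_single, one_mul]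

theorem elt_one : elt (1 : G) = 1 := rfl

/-- The value in `G` of a word. -/
def wordVal : List (Fin m × Bool) → G
  | [] => 1
  | (i, true) :: w => x i * wordVal w
  | (i, false) :: w => (x i)⁻¹ * wordVal w

theorem foxWord_append (v w : List (Fin m × Bool)) :
    foxWord x (v ++ w) = foxWord x v + elt (wordVal x v) • foxWord x w := by
  induction v with
  | nil =>
    rw [List.nil_append, foxWord_nil, zero_add, wordVal, elt_one, one_smul]
  | cons a v ih =>
    obtain ⟨i, b⟩ := a
    cases b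
    · rw [List.cons_append, foxWord_false, ih, foxWord_false, wordVal, smul_sub, smul_add,
        smul_sub, ← smul_assoc, smul_eq_mul, elt_mul_elt]
      abel
    · rw [List.cons_append, foxWord_true, ih, foxWord_true, wordVal, smul_add, ← smul_assoc,
        smul_eq_mul, elt_mul_elt]
      abel

theorem foxWord_step {v w : List (Fin m × Bool)} (h : FreeGroup.Red.Step v w) :
    foxWord x v = foxWord x w := by
  cases h with
  | @not L₁ L₂ i b =>
    rw [foxWord_append, foxWord_append]
    congr 2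
    cases b
    · change foxWord x ((i, false) :: (i, true) :: L₂) = foxWord x L₂
      rw [foxWord_false, foxWord_true, add_sub_cancel_left, ← smul_assoc, smul_eq_mul,
        elt_mul_elt, inv_mul_cancel, elt_one, one_smul]
    · change foxWord x ((i, true) :: (i, false) :: L₂) = foxWord x L₂
      rw [foxWord_true, foxWord_false, ← smul_assoc, smul_eq_mul,
        elt_mul_elt, mul_inv_cancel, elt_one, one_smul, add_sub_cancel]

theorem foxWord_red {v w : List (Fin m × Bool)} (h : FreeGroup.Red v w) :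
    foxWord x v = foxWord x w := by
  induction h with
  | refl => rfl
  | tail _ h ih => rw [ih, foxWord_step x h]

theorem foxWord_toWord_mk (v : List (Fin m × Bool)) :
    foxWord x (FreeGroup.mk v).toWord = foxWord x v := by
  rw [FreeGroup.toWord_mk]
  exact (foxWord_red x FreeGroup.reduce.red).symm

end Fox

/-! ### the standard presentations of `ℤ^n` -/

/-- the free abelian group of rank `n`, written multiplicatively -/
abbrev Zn (n : ℕ) : Type := Multiplicative (Fin n → ℤ)

/-- the standard generators -/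
def genZn (n : ℕ) (i : Fin n) : Zn n := Multiplicative.ofAdd (Pi.single i 1)

theorem card_pairs (n : ℕ) : Fintype.card {p : Fin n × Fin n // p.1 < p.2} = n.choose 2 := by
  rw [Fintype.card_subtype]
  have h1 : (Finset.univ.filter fun p : Fin n × Fin n => p.1 < p.2).card
      = ∑ j : Fin n, (Finset.univ.filter fun i : Fin n => i < j).card := by
    rw [Finset.card_filter, ← Finset.univ_product_univ, Finset.sum_product_right]
    refine Finset.sum_congr rfl fun j _ => ?_
    rw [Finset.card_filter]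
  rw [h1]
  have h2 : ∀ j : Fin n, (Finset.univ.filter fun i : Fin n => i < j).card = (j : ℕ) := by
    intro j
    have h3 : (Finset.univ.filter fun i : Fin n => i < j) = Finset.Iio j := by
      ext i; simp only [Finset.mem_filter, Finset.mem_univ, true_and, Finset.mem_Iio]
    rw [h3, Fin.card_Iio]
  simp only [h2]
  rw [Fin.sum_univ_eq_sum_range (fun i => i) n, Finset.sum_range_id, Nat.choose_two_right]

/-- an enumeration of the pairs `i < j` -/
noncomputable def pairEnum (n : ℕ) : Fin (n.choose 2) ≃ {p : Fin n × Fin n // p.1 < p.2} :=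
  (Fintype.equivFinOfCardEq (card_pairs n)).symm

/-- the commutator word -/
def comWord {n : ℕ} (i j : Fin n) : List (Fin n × Bool) :=
  [(i, true), (j, true), (i, false), (j, false)]

/-- the relators: commutators, and `s` trivial ones -/
noncomputable def stdRel (n s : ℕ) : Fin (n.choose 2 + s) → FreeGroup (Fin n) :=
  Fin.append (fun q => FreeGroup.mk (comWord (pairEnum n q).1.1 (pairEnum n q).1.2)) (fun _ => 1)

theorem mk_comWord {n : ℕ} (i j : Fin n) : (FreeGroup.mk (comWord i j) : FreeGroup (Fin n))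
    = FreeGroup.of i * FreeGroup.of j * (FreeGroup.of i)⁻¹ * (FreeGroup.of j)⁻¹ := rfl

theorem lift_surj (n : ℕ) : Function.Surjective (FreeGroup.lift (genZn n)) := by
  intro z
  refine ⟨(List.ofFn fun i : Fin n => (FreeGroup.of i : FreeGroup (Fin n)) ^ (z.toAdd i)).prod, ?_⟩
  rw [map_list_prod, List.map_ofFn, List.prod_ofFn]
  have : ∀ i : Fin n, (⇑(FreeGroup.lift (genZn n)) ∘ fun i : Fin n =>
      (FreeGroup.of i : FreeGroup (Fin n)) ^ (z.toAdd i)) i
      = Multiplicative.ofAdd (Pi.single i (z.toAdd i)) := by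
    intro i
    rw [Function.comp_apply, map_zpow, FreeGroup.lift_apply_of, genZn, ← ofAdd_zsmul]
    congr 1
    rw [← Pi.single_smul, smul_eq_mul, mul_one]
  rw [Finset.prod_congr rfl fun i _ => this i]
  rw [← ofAdd_sum, Finset.univ_sum_single]
  rfl

theorem lift_ker (n s : ℕ) : (FreeGroup.lift (genZn n)).ker
    = Subgroup.normalClosure (Set.range (stdRel n s)) := by
  set N := Subgroup.normalClosure (Set.range (stdRel n s)) with hN
  apply le_antisymm
  · -- the quotient by `N` is commutative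
    have hlt : ∀ i j : Fin n, i < j →
        (QuotientGroup.mk (FreeGroup.of i) : FreeGroup (Fin n) ⧸ N) * QuotientGroup.mk (FreeGroup.of j)
          = QuotientGroup.mk (FreeGroup.of j) * QuotientGroup.mk (FreeGroup.of i) := by
      intro i j hij
      have h1 : (FreeGroup.of i * FreeGroup.of j * (FreeGroup.of i)⁻¹ * (FreeGroup.of j)⁻¹ :
          FreeGroup (Fin n)) ∈ N := by
        apply Subgroup.subset_normalClosure
        refine ⟨Fin.castAdd s ((pairEnum n).symm ⟨(i, j), hij⟩), ?_⟩
        rw [stdRel, Fin.append_left, Equiv.apply_symm_apply, mk_comWord]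
      have h2 := (QuotientGroup.eq_one_iff _).2 h1
      rw [QuotientGroup.mk_mul, QuotientGroup.mk_mul, QuotientGroup.mk_mul, QuotientGroup.mk_inv,
        QuotientGroup.mk_inv, mul_inv_eq_one, mul_inv_eq_iff_eq_mul] at h2
      exact h2
    have hgen : ∀ i j : Fin n,
        (QuotientGroup.mk (FreeGroup.of i) : FreeGroup (Fin n) ⧸ N) * QuotientGroup.mk (FreeGroup.of j)
          = QuotientGroup.mk (FreeGroup.of j) * QuotientGroup.mk (FreeGroup.of i) := by
      intro i j
      rcases lt_trichotomy i j with h | h | h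
      · exact hlt i j h
      · rw [h]
      · exact (hlt j i h).symm
    have hcomm1 : ∀ (i : Fin n) (w : FreeGroup (Fin n)),
        Commute (QuotientGroup.mk (FreeGroup.of i) : FreeGroup (Fin n) ⧸ N)
          (QuotientGroup.mk w) := by
      intro i w
      induction w using FreeGroup.induction_on with
      | C1 => exact Commute.one_right _
      | of j => exact hgen i j
      | inv_of j h => exact h.inv_right
      | mul a b ha hb => exact ha.mul_right hb
    have hcomm : ∀ (v w : FreeGroup (Fin n)),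
        Commute (QuotientGroup.mk v : FreeGroup (Fin n) ⧸ N) (QuotientGroup.mk w) := by
      intro v w
      induction v using FreeGroup.induction_on with
      | C1 => exact Commute.one_left _
      | of j => exact hcomm1 j w
      | inv_of j h => exact h.inv_left
      | mul a b ha hb => exact ha.mul_left hb
    let _ : CommGroup (FreeGroup (Fin n) ⧸ N) :=
      { (inferInstance : Group (FreeGroup (Fin n) ⧸ N)) with
        mul_comm := by
          intro a b
          obtain ⟨v, rfl⟩ := QuotientGroup.mk_surjective a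
          obtain ⟨w, rfl⟩ := QuotientGroup.mk_surjective b
          exact hcomm v w }
    let ψ : Zn n →* (FreeGroup (Fin n) ⧸ N) :=
      { toFun := fun z => ∏ i : Fin n,
          (QuotientGroup.mk (FreeGroup.of i) : FreeGroup (Fin n) ⧸ N) ^ (z.toAdd i)
        map_one' := by
          apply Finset.prod_eq_one
          intro i _
          exact zpow_zero _
        map_mul' := by
          intro a b
          rw [← Finset.prod_mul_distrib]
          refine Finset.prod_congr rfl fun i _ => ?_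
          exact zpow_add _ _ _ }
    have hψ : ψ.comp (FreeGroup.lift (genZn n)) = QuotientGroup.mk' N := by
      apply FreeGroup.ext_hom
      intro i
      rw [MonoidHom.comp_apply, FreeGroup.lift_apply_of]
      change ∏ j : Fin n, (QuotientGroup.mk (FreeGroup.of j) : FreeGroup (Fin n) ⧸ N) ^
        ((Pi.single i 1 : Fin n → ℤ) j) = _
      rw [Finset.prod_eq_single i]
      · rw [Pi.single_eq_same, zpow_one]; rfl
      · intro j _ hj
        rw [Pi.single_eq_of_ne hj, zpow_zero]
      · intro h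
        exact absurd (Finset.mem_univ i) h
    intro w hw
    rw [MonoidHom.mem_ker] at hw
    have h1 : QuotientGroup.mk' N w = 1 := by
      rw [← hψ, MonoidHom.comp_apply, hw, map_one]
    exact (QuotientGroup.eq_one_iff w).1 h1
  · apply Subgroup.normalClosure_le_normal
    rintro _ ⟨q, rfl⟩
    rw [SetLike.mem_coe, MonoidHom.mem_ker]
    refine Fin.addCases (fun q => ?_) (fun q => ?_) q
    · rw [stdRel, Fin.append_left, mk_comWord, map_mul, map_mul, map_mul, map_inv, map_inv,
        mul_comm (FreeGroup.lift (genZn n) (FreeGroup.of _)), mul_assoc, mul_assoc]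
      simp only [FreeGroup.lift_apply_of, mul_inv_cancel_left, mul_inv_cancel]
    · rw [stdRel, Fin.append_right, map_one]

/-- the presentation of `ℤ^n` with `s` trivial relators added -/
noncomputable def stdPres (n s : ℕ) : FinPresentation (Zn n) where
  gens := n
  rels := n.choose 2 + s
  x := genZn n
  r := stdRel n s
  surj := lift_surj n
  ker_eq := lift_ker n s

end Vale.Agent.P246
end
end

section

section

set_option linter.unusedSectionVars false

namespace Vale.Agent.P246

open Function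

/-- the group ring of `ℤ^n` in its two guises -/
noncomputable def toS (n : ℕ) : L n ≃+* ZG (Zn n) :=
  AddMonoidAlgebra.toMultiplicative ℤ (Fin n → ℤ)

theorem toS_mon (n : ℕ) (γ : Fin n → ℤ) : toS n (mon γ) = elt (Multiplicative.ofAdd γ) :=
  AddMonoidAlgebra.toMultiplicative_single _ _

/-- the augmentation of `ℤ[ℤ^n]` -/
noncomputable def augS (n : ℕ) : ZG (Zn n) →+* ℤ := (augL n).comp ((toS n).symm : ZG (Zn n) →+* L n)

theorem augS_elt (n : ℕ) (g : Zn n) : augS n (elt g) = 1 := by
  have : elt g = toS n (mon g.toAdd) := by rw [toS_mon]; rfl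
  rw [this, augS, RingHom.comp_apply]
  change augL n ((toS n).symm (toS n (mon g.toAdd))) = 1
  rw [RingEquiv.symm_apply_apply, augL_mon]

/-- the generators of the augmentation ideal -/
noncomputable def gensS (n : ℕ) (i : Fin n) : ZG (Zn n) := elt (genZn n i) - 1

theorem gensS_eq (n : ℕ) : (toS n) ∘ gensL n = gensS n := by
  funext i
  rw [Function.comp_apply, gensL, map_sub, toS_mon, map_one]
  rfl

theorem good_S (n : ℕ) : Good (augS n) (gensS n) := by
  have := (good_L n).transport (toS n)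
  rw [gensS_eq] at this
  exact this

theorem isTrans_S (n : ℕ) : IsTrans (ZG (Zn n)) (ZG (Zn n)) :=
  isTrans_transport (toS n) (isTrans_L n)

theorem isDomain_S (n : ℕ) : IsDomain (ZG (Zn n)) := by
  have := isDomain_L n
  exact (toS n).symm.toMulEquiv.isDomain _

theorem kosExact_L : ∀ n, KosExact (gensL n)
  | 0 => kosExact_zero _
  | n + 1 => by
    have := kosExact_step (hdL n) (kosExact_L n)
    rw [gensL_succ] at this
    exact this

theorem kosExact_S (n : ℕ) : KosExact (gensS n) := by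
  have := kosExact_transport (toS n) (kosExact_L n)
  rw [gensS_eq] at this
  exact this

theorem lin_eq (n : ℕ) (u : Fin n → ZG (Zn n)) :
    lin (gensS n) u = Fintype.linearCombination (ZG (Zn n)) (fun i => elt (genZn n i) - 1) u := by
  rw [lin_apply, Fintype.linearCombination_apply]
  rfl

/-- the second boundary map of the standard presentation -/
noncomputable def kosS (n s : ℕ) :
    (Fin (n.choose 2 + s) → ZG (Zn n)) →ₗ[ZG (Zn n)] (Fin n → ZG (Zn n)) :=
  Fintype.linearCombination (ZG (Zn n)) fun j => foxWord (genZn n) (stdRel n s j).toWord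

theorem foxWord_com (n : ℕ) (i j : Fin n) :
    foxWord (genZn n) (comWord i j) = - kz (gensS n) i j := by
  have h1 : elt (genZn n i) * (elt (genZn n j) * (elt (genZn n i)⁻¹ * elt (genZn n j)⁻¹))
      = (1 : ZG (Zn n)) := by
    rw [elt_mul_elt, elt_mul_elt, elt_mul_elt, ← elt_one]
    congr 1
    rw [← mul_inv_rev, ← mul_assoc, mul_comm (genZn n j), mul_inv_cancel]
  have h2 : elt (genZn n i) * (elt (genZn n j) * elt (genZn n i)⁻¹) = elt (genZn n j) := by
    rw [elt_mul_elt, elt_mul_elt]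
    congr 1
    rw [mul_comm (genZn n j), ← mul_assoc, mul_inv_cancel, one_mul]
  rw [comWord, foxWord_true, foxWord_true, foxWord_false, foxWord_false, foxWord_nil, kz, gensS,
    gensS]
  simp only [smul_sub, smul_add, smul_zero, ← smul_assoc, smul_eq_mul]
  have h3 : elt (genZn n i) * (elt (genZn n j) * elt (genZn n i)⁻¹) * elt (genZn n j)⁻¹
      = (1 : ZG (Zn n)) := by
    rw [← h1]; ring
  have h4 : elt (genZn n i) * elt (genZn n j) * elt (genZn n i)⁻¹ = elt (genZn n j) := by
    rw [mul_assoc]; exact h2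
  have h5 : elt (genZn n i) * (elt (genZn n j) * (elt (genZn n i)⁻¹ * elt (genZn n j)⁻¹))
      = (1 : ZG (Zn n)) := h1
  simp only [mul_assoc] at h3 h4 h5 ⊢
  rw [h5, h2]
  funext l
  simp only [Pi.add_apply, Pi.sub_apply, Pi.smul_apply, Pi.neg_apply, smul_eq_mul, Pi.zero_apply]
  ring

theorem kosS_range (n s : ℕ) (u : Fin n → ZG (Zn n)) :
    lin (gensS n) u = 0 ↔ ∃ t, kosS n s t = u := by
  constructor
  · intro hu
    have h1 := kosExact_S n u hu
    have h2 : Submodule.span (ZG (Zn n)) (Set.range fun p : Fin n × Fin n =>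
        kz (gensS n) p.1 p.2) ≤ LinearMap.range (kosS n s) := by
      rw [Submodule.span_le]
      have hlt : ∀ i j : Fin n, i < j → kz (gensS n) i j ∈ LinearMap.range (kosS n s) := by
        intro i j hij
        refine ⟨- Pi.single (Fin.castAdd s ((pairEnum n).symm ⟨(i, j), hij⟩)) 1, ?_⟩
        rw [map_neg, kosS, Fintype.linearCombination_apply_single, one_smul, stdRel,
          Fin.append_left, Equiv.apply_symm_apply, foxWord_toWord_mk, foxWord_com, neg_neg]
      rintro _ ⟨⟨i, j⟩, rfl⟩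
      rcases lt_trichotomy i j with h | h | h
      · exact hlt i j h
      · subst h
        have : kz (gensS n) i i = 0 := by rw [kz, sub_self]
        change kz (gensS n) i i ∈ LinearMap.range (kosS n s)
        rw [this]
        exact zero_mem _
      · have : kz (gensS n) i j = - kz (gensS n) j i := by rw [kz, kz, neg_sub]
        change kz (gensS n) i j ∈ LinearMap.range (kosS n s)
        rw [this]
        exact neg_mem (hlt j i h)
    exact h2 h1
  · rintro ⟨t, rfl⟩
    rw [kosS, Fintype.linearCombination_apply, map_sum]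
    apply Finset.sum_eq_zero
    intro j _
    rw [map_smul]
    have h : lin (gensS n) (foxWord (genZn n) (stdRel n s j).toWord) = 0 :=
      fox_rel_aux (stdPres n s) j
    rw [h, smul_zero]

theorem augS_linear {n : ℕ} {M : Type*} [AddCommGroup M] [Module (ZG (Zn n)) M] (ε : M →+ ℤ)
    (hε : ∀ (g : Zn n) (x : M), ε (elt g • x) = ε x) (s : ZG (Zn n)) (x : M) :
    ε (s • x) = augS n s * ε x := by
  obtain ⟨s, rfl⟩ := (toS n).surjective s
  induction s using L_induction with
  | h1 γ => rw [toS_mon, hε, augS_elt, one_mul]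
  | hadd s t hs ht => rw [map_add, add_smul, map_add, hs, ht, map_add, add_mul]
  | hz k s hs => rw [map_zsmul, smul_assoc, map_zsmul, hs, map_zsmul, smul_mul_assoc]

theorem augS_intCast (n : ℕ) (k : ℤ) : augS n ((k : ℤ) : ZG (Zn n)) = k := by
  rw [map_intCast]; rfl

end Vale.Agent.P246
end
end
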