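import Vale.Agent.P246.Bdl.B1

namespace Vale.Agent.P246

theorem threeD_comp {R : Type} [Ring R] {a b : ℕ} (v : Fin a → R) (w : Fin b → Fin a → R)
    (h : ∀ j, ∑ i, w j i * v i = 0) (i : ℕ) :
    CategoryTheory.CategoryStruct.comp (threeD v w (i + 1)) (threeD v w i) = 0 :=
  threeD_comp_aux v w h i

/-- The complex `⋯ 0 → R^b → R^a → R` with boundary maps `e_j ↦ w j` and `e_i ↦ v i`. -/
noncomputable def threeTerm {R : Type} [Ring R] {a b : ℕ} (v : Fin a → R) (w : Fin b → Fin a → R)
    (h : ∀ j, ∑ i, w j i * v i = 0) : Cx R :=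
  ChainComplex.of (threeX R a b) (threeD v w) (threeD_comp v w h)

variable {G : Type} [Group G]

theorem fox_rel (P : FinPresentation G) (j : Fin P.rels) :
    ∑ i, foxWord P.x (P.r j).toWord i * (elt (P.x i) - 1) = 0 := fox_rel_aux P j

/-- The Fox complex of a finite presentation of `G`: the cellular chain complex of the universal
cover of the presentation complex, with boundary maps `e_i ↦ x_i - 1` and
`e_j ↦ ∑_i (∂r_j/∂x_i) e_i`. -/
noncomputable def foxComplex (P : FinPresentation G) : Cx (ZG G) :=
  threeTerm (fun i => elt (P.x i) - 1) (fun j => foxWord P.x (P.r j).toWord) (fox_rel P)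

/-- `C` is a finite algebraic D(2) complex over `ℤ[G]`: a bounded complex of finitely generated
free left `ℤ[G]`-modules (indexed by `0, 1, 2, …`) with `H_0(C) = ℤ` (trivial action),
`H_1(C) = 0`, `H_i(C) = 0` for all `i > 2`, and `H^3(C; M) = 0` for every finitely generated
`ℤ[G]`-module `M`. -/
structure IsD2Complex (C : Cx (ZG G)) : Prop where
  free : ∀ i, FGFree (C.X i)
  bounded : ∃ N, ∀ i, N < i → Subsingleton (C.X i)
  homology_zero : CokerTrivial (C.d 0).hom
  homology_one : C.Acyclic 1
  homology_high : ∀ i, 2 < i → C.Acyclic i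
  cohomology_three : CohVanish (C.d 3) (C.d 2)

variable (G) in
/-- The D(2) property of `G` in its algebraic form: every finite algebraic D(2) complex over
`ℤ[G]` is chain homotopy equivalent to the Fox complex of a finite presentation of `G`. -/
def AlgebraicD2Property : Prop :=
  ∀ C : Cx (ZG G), IsD2Complex C → ∃ P : FinPresentation G, C.Equiv (foxComplex P)

variable (G) in
/-- The finite algebraic D(2) complexes over `ℤ[G]` are classified up to chain homotopy
equivalence by their Euler characteristic, whose values are all the integers `≥ k₀`. -/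
def ClassifiedByEuler (k₀ : ℤ) : Prop :=
  (∀ C C' : Cx (ZG G), IsD2Complex C → IsD2Complex C' → C.euler = C'.euler → C.Equiv C') ∧
    ∀ k : ℤ, (∃ C : Cx (ZG G), IsD2Complex C ∧ C.euler = k) ↔ k₀ ≤ k

end Vale.Agent.P246
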