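import Vale.Agent.P246.MathlibUsed
import Vale.Agent.P246.Bdl.K_Bdl_K_Defs
import Vale.Agent.P246.Bdl.B1

set_option linter.all false

section

section

set_option linter.unusedSectionVars false

namespace Vale.Agent.P246

open CategoryTheory Function

/-! ### concrete exactness -/

theorem exactAt_succ_iff {R : Type} [Ring R] (C : ChainComplex (ModuleCat.{0} R) ℕ) (i : ℕ) :
    C.ExactAt (i + 1) ↔ ∀ x, C.d (i + 1) i x = 0 → ∃ y, C.d (i + 2) (i + 1) y = x := by
  rw [HomologicalComplex.exactAt_iff' C (i + 2) (i + 1) i (by simp) (by simp),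
    ShortComplex.moduleCat_exact_iff]
  rfl

/-! ### the unfolded form of the definitions -/

/-- the unfolded form of `IsD2Complex` -/
structure D2Data (G : Type) [Group G] (C : ChainComplex (ModuleCat.{0} (ZG G)) ℕ) : Prop where
  free : ∀ i, Module.Free (ZG G) (C.X i)
  finite : ∀ i, Module.Finite (ZG G) (C.X i)
  bounded : ∃ N, ∀ i, N < i → Subsingleton (C.X i)
  homology_zero : ∃ ε : C.X 0 →+ ℤ, Function.Surjective ε ∧
    (∀ (g : G) (x : C.X 0), ε (elt g • x) = ε x) ∧ ∀ x, ε x = 0 ↔ ∃ y, C.d 1 0 y = x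
  homology_one : C.ExactAt 1
  homology_high : ∀ i, 2 < i → C.ExactAt i
  cohomology_three : ∀ (M : Type) [AddCommGroup M] [Module (ZG G) M] [Module.Finite (ZG G) M]
    (φ : C.X 3 →ₗ[ZG G] M), (∀ x, φ (C.d 4 3 x) = 0) →
      ∃ ψ : C.X 2 →ₗ[ZG G] M, ∀ x, φ x = ψ (C.d 3 2 x)

theorem IsD2Complex.data {G : Type} [Group G] (C : ChainComplex (ModuleCat.{0} (ZG G)) ℕ)
    (h : IsD2Complex (G := G) C) : D2Data G C where
  free i := (h.free i).1
  finite i := (h.free i).2
  bounded := h.bounded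
  homology_zero := by
    obtain ⟨ε, h1, h2, h3, h4⟩ := h.homology_zero
    exact ⟨AddMonoidHom.mk' ε h2, h1, h3, h4⟩
  homology_one := h.homology_one
  homology_high := h.homology_high
  cohomology_three := by
    intro M _ _ hM φ hφ
    have h0 : C.d 4 3 ≫ ModuleCat.ofHom φ = 0 := by
      apply ModuleCat.hom_ext
      apply LinearMap.ext
      exact hφ
    obtain ⟨ψ, hψ⟩ := h.cohomology_three (ModuleCat.of (ZG G) M) hM (ModuleCat.ofHom φ) h0
    exact ⟨ψ.hom, fun x => LinearMap.congr_fun (congrArg ModuleCat.Hom.hom hψ) x⟩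

theorem D2Data.isD2 {G : Type} [Group G] (C : ChainComplex (ModuleCat.{0} (ZG G)) ℕ)
    (h : D2Data G C) : IsD2Complex (G := G) C where
  free i := ⟨h.free i, h.finite i⟩
  bounded := h.bounded
  homology_zero := by
    obtain ⟨ε, h1, h2, h3⟩ := h.homology_zero
    exact ⟨ε, h1, map_add ε, h2, h3⟩
  homology_one := h.homology_one
  homology_high := h.homology_high
  cohomology_three := by
    intro M hM φ hφ
    obtain ⟨ψ, hψ⟩ := h.cohomology_three M φ.hom (fun x =>
      LinearMap.congr_fun (congrArg ModuleCat.Hom.hom hφ) x)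
    refine ⟨ModuleCat.ofHom ψ, ?_⟩
    apply ModuleCat.hom_ext
    apply LinearMap.ext
    exact hψ

/-! ### the algebraic part: reduction to the normal form -/

theorem dd_zero {R : Type} [Ring R] (C : ChainComplex (ModuleCat.{0} R) ℕ) (i j k : ℕ)
    (x : C.X i) : C.d j k (C.d i j x) = 0 := by
  exact ConcreteCategory.congr_hom (C.d_comp_d i j k) x

/-- the normal form of a finite algebraic D(2) complex over `ℤ[ℤ^n]` -/
theorem d2_normal (n : ℕ) (C : ChainComplex (ModuleCat.{0} (ZG (Zn n))) ℕ)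
    (hC : D2Data (Zn n) C) :
    ∃ (ψ : C.X 2 →ₗ[ZG (Zn n)] LinearMap.range (C.d 3 2).hom)
      (r b s : ℕ) (E0 : C.X 0 ≃ₗ[ZG (Zn n)] ZG (Zn n) × (Fin r → ZG (Zn n)))
      (E1 : C.X 1 ≃ₗ[ZG (Zn n)]
        ((Fin n → ZG (Zn n)) × (Fin b → ZG (Zn n))) × (Fin r → ZG (Zn n)))
      (E2 : LinearMap.ker ψ ≃ₗ[ZG (Zn n)]
        (Fin (n.choose 2 + s) → ZG (Zn n)) × (Fin b → ZG (Zn n))),
      (∀ x, ψ x.1 = x) ∧
      (∀ y, E0 (C.d 1 0 y) = (lin (gensS n) (E1 y).1.1, (E1 y).2)) ∧
      (∀ z : LinearMap.ker ψ, E1 (C.d 2 1 z.1) = ((kosS n s (E2 z).1, (E2 z).2), 0)) ∧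
      Cx.euler (R := ZG (Zn n)) C = 1 - n + n.choose 2 + s := by
  have hdom := isDomain_S n
  have hfree := hC.free
  have hfin := hC.finite
  -- the boundaries `B₂` and the retraction
  obtain ⟨ψ, hψ⟩ := hC.cohomology_three (LinearMap.range (C.d 3 2).hom)
    (C.d 3 2).hom.rangeRestrict (by
      intro x
      apply Subtype.ext
      exact dd_zero C 4 3 2 x)
  have hψ' : ∀ x : LinearMap.range (C.d 3 2).hom, ψ x.1 = x := by
    rintro ⟨_, ⟨x, rfl⟩⟩
    exact (hψ x).symm
  let e2 := splitEquiv ψ (LinearMap.range (C.d 3 2).hom).subtype hψ'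
  have hprojX2 : Module.Projective (ZG (Zn n)) (C.X 2) := inferInstance
  have hproj : Module.Projective (ZG (Zn n)) (LinearMap.range (C.d 3 2).hom) := by
    refine Module.Projective.of_split (LinearMap.range (C.d 3 2).hom).subtype ψ ?_
    ext x
    exact congrArg Subtype.val (hψ' x)
  obtain ⟨N, hN⟩ := hC.bounded
  obtain ⟨k2, hk2, hsum⟩ := range_isFree (isTrans_S n) N (fun i => C.X (i + 2))
    (fun i => (C.d (i + 3) (i + 2)).hom) (fun i => Module.finrank (ZG (Zn n)) (C.X (i + 2)))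
    (fun i => IsFree.of_free) (fun i hi => hN (i + 2) (by omega))
    (fun i => by
      ext x
      rw [LinearMap.mem_ker, LinearMap.mem_range]
      constructor
      · intro hx
        exact (exactAt_succ_iff C (i + 2)).1 (hC.homology_high (i + 3) (by omega)) x hx
      · rintro ⟨y, rfl⟩
        exact dd_zero C _ _ _ y) hproj
  obtain ⟨p, hp, hpfree⟩ := ((IsFree.of_free (M := C.X 2)).of_equiv e2).cancel (isTrans_S n) hk2
  -- the augmentation
  obtain ⟨ε, hεs, hεg, hεk⟩ := hC.homology_zero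
  have hlin := augS_linear ε hεg
  let e' : C.X 0 →ₗ[ZG (Zn n)] (ZG (Zn n) ⧸ RingHom.ker (augS n)) :=
    { toFun := fun x => Submodule.Quotient.mk ((ε x : ℤ) : ZG (Zn n))
      map_add' := by
        intro x y
        rw [map_add, Int.cast_add, Submodule.Quotient.mk_add]
      map_smul' := by
        intro s x
        rw [hlin, RingHom.id_apply, ← Submodule.Quotient.mk_smul, Submodule.Quotient.eq,
          RingHom.mem_ker, map_sub, smul_eq_mul, map_mul, augS_intCast, augS_intCast, sub_self] }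
  have he' : ∀ x, e' x = 0 ↔ ∃ y, (C.d 1 0).hom y = x := by
    intro x
    change Submodule.Quotient.mk ((ε x : ℤ) : ZG (Zn n)) = 0 ↔ _
    rw [Submodule.Quotient.mk_eq_zero, RingHom.mem_ker, augS_intCast]
    exact hεk x
  have he's : Surjective e' := by
    intro y
    obtain ⟨s, rfl⟩ := Submodule.Quotient.mk_surjective _ y
    obtain ⟨x, hx⟩ := hεs (augS n s)
    refine ⟨x, ?_⟩
    change Submodule.Quotient.mk ((ε x : ℤ) : ZG (Zn n)) = _
    rw [Submodule.Quotient.eq, RingHom.mem_ker, map_sub, augS_intCast, hx, sub_self]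
  have hex1 : ∀ y, (C.d 1 0).hom y = 0 ↔
      ∃ z, ((C.d 2 1).hom ∘ₗ (LinearMap.ker ψ).subtype) z = y := by
    intro y
    constructor
    · intro hy
      obtain ⟨x, hx⟩ := (exactAt_succ_iff C 0).1 hC.homology_one y hy
      refine ⟨⟨x - ψ x, ?_⟩, ?_⟩
      · rw [LinearMap.mem_ker, map_sub, hψ', sub_self]
      · change (C.d 2 1).hom (x - ψ x) = y
        rw [map_sub]
        obtain ⟨w, hw⟩ := (ψ x).2
        rw [← hw]
        have h0 : (C.d 2 1).hom ((C.d 3 2).hom w) = 0 := dd_zero C 3 2 1 w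
        rw [h0, sub_zero]
        exact hx
    · rintro ⟨z, rfl⟩
      exact dd_zero C 2 1 0 _
  obtain ⟨r, b, s, E0, E1, E2, h1, h2, hc0, hc1, hcp⟩ := normal_form (isTrans_S n) (good_S n)
    (kosS n) (kosS_range n) (IsFree.of_free (M := C.X 0)) (IsFree.of_free (M := C.X 1)) hpfree
    e' he's (C.d 1 0).hom ((C.d 2 1).hom ∘ₗ (LinearMap.ker ψ).subtype) he' hex1
  refine ⟨ψ, r, b, s, E0, E1, E2, hψ', h1, h2, ?_⟩
  -- the Euler characteristic
  have hsupp : Function.support (fun i : ℕ => (-1 : ℤ) ^ i *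
      (Module.finrank (ZG (Zn n)) (C.X i) : ℤ)) ⊆ (Finset.range (N + 3) : Finset ℕ) := by
    intro i hi
    rw [Function.mem_support] at hi
    by_contra hcon
    apply hi
    have h3 : N < i := by
      rw [Finset.coe_range, Set.mem_Iio] at hcon
      omega
    have := hN i h3
    rw [Module.finrank_zero_of_subsingleton]
    simp
  change ∑ᶠ i : ℕ, (-1 : ℤ) ^ i * (Module.finrank (ZG (Zn n)) (C.X i) : ℤ) = _
  rw [finsum_eq_sum_of_support_subset _ hsupp, Finset.sum_range_succ', Finset.sum_range_succ',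
    Finset.sum_range_succ']
  have h4 : ∑ i ∈ Finset.range N, (-1 : ℤ) ^ (i + 1 + 1 + 1) *
      (Module.finrank (ZG (Zn n)) (C.X (i + 1 + 1 + 1)) : ℤ) = - k2 := by
    rw [hsum, ← Finset.sum_neg_distrib]
    refine Finset.sum_congr rfl fun i _ => ?_
    rw [pow_succ, pow_succ, pow_succ]
    ring
  rw [h4, hc0]
  have h5 : (Module.finrank (ZG (Zn n)) (C.X (0 + 1)) : ℤ) = n + b + r := by
    exact_mod_cast hc1
  have h6 : (Module.finrank (ZG (Zn n)) (C.X (0 + 1 + 1)) : ℤ) = p + k2 := by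
    exact_mod_cast hp.symm
  have h7 : (p : ℤ) = n.choose 2 + s + b := by exact_mod_cast hcp
  rw [h5, h6, h7]
  push_cast
  ring

end Vale.Agent.P246
end
end

section

section

set_option linter.unusedSectionVars false

namespace Vale.Agent.P246

open CategoryTheory Function

variable {G : Type} [Group G]

/-- The Fox complex as a chain complex in the sense of Mathlib. -/
noncomputable def foxCC (P : FinPresentation G) : ChainComplex (ModuleCat.{0} (ZG G)) ℕ :=
  foxComplex P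

/-- its modules -/
noncomputable abbrev foxX (P : FinPresentation G) : ℕ → ModuleCat.{0} (ZG G) := threeX (ZG G) P.gens P.rels

/-- its boundary maps -/
noncomputable abbrev foxD (P : FinPresentation G) : ∀ i, foxX P (i + 1) ⟶ foxX P i :=
  threeD (fun i => elt (P.x i) - 1) (fun j => foxWord P.x (P.r j).toWord)

theorem fox_d (P : FinPresentation G) (i : ℕ) : (foxCC P).d (i + 1) i = foxD P i := by
  exact ChainComplex.of_d (foxX P) (foxD P) i

/-- the first boundary map of the Fox complex -/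
noncomputable abbrev foxD1 (P : FinPresentation G) : (Fin P.gens → ZG G) →ₗ[ZG G] ZG G :=
  Fintype.linearCombination (ZG G) fun i => elt (P.x i) - 1

/-- the second boundary map of the Fox complex -/
noncomputable abbrev foxD2 (P : FinPresentation G) :
    (Fin P.rels → ZG G) →ₗ[ZG G] (Fin P.gens → ZG G) :=
  Fintype.linearCombination (ZG G) fun j => foxWord P.x (P.r j).toWord

theorem fox_d10 (P : FinPresentation G) (u : Fin P.gens → ZG G) :
    ((foxCC P).d 1 0).hom u = foxD1 P u :=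
  LinearMap.congr_fun (congrArg ModuleCat.Hom.hom (fox_d P 0)) u

theorem fox_d21 (P : FinPresentation G) (u : Fin P.rels → ZG G) :
    ((foxCC P).d 2 1).hom u = foxD2 P u :=
  LinearMap.congr_fun (congrArg ModuleCat.Hom.hom (fox_d P 1)) u

theorem fox_subsingleton (P : FinPresentation G) (i : ℕ) :
    Subsingleton ((foxCC P).X (i + 3)) :=
  inferInstanceAs (Subsingleton PUnit)

theorem fox_free (P : FinPresentation G) :
    ∀ i, Module.Free (ZG G) ((foxCC P).X i)
  | 0 => inferInstanceAs (Module.Free (ZG G) (ZG G))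
  | 1 => inferInstanceAs (Module.Free (ZG G) (Fin P.gens → ZG G))
  | 2 => inferInstanceAs (Module.Free (ZG G) (Fin P.rels → ZG G))
  | _ + 3 => inferInstanceAs (Module.Free (ZG G) PUnit)

theorem fox_finite (P : FinPresentation G) :
    ∀ i, Module.Finite (ZG G) ((foxCC P).X i)
  | 0 => inferInstanceAs (Module.Finite (ZG G) (ZG G))
  | 1 => inferInstanceAs (Module.Finite (ZG G) (Fin P.gens → ZG G))
  | 2 => inferInstanceAs (Module.Finite (ZG G) (Fin P.rels → ZG G))
  | _ + 3 => inferInstanceAs (Module.Finite (ZG G) PUnit)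

/-- the components of a chain map out of a Fox complex -/
noncomputable def foxComp (P : FinPresentation G)
    (C : ChainComplex (ModuleCat.{0} (ZG G)) ℕ)
    (f0 : foxX P 0 ⟶ C.X 0) (f1 : foxX P 1 ⟶ C.X 1) (f2 : foxX P 2 ⟶ C.X 2) :
    ∀ i, foxX P i ⟶ C.X i
  | 0 => f0
  | 1 => f1
  | 2 => f2
  | _ + 3 => 0

/-- a chain map out of a Fox complex -/
noncomputable def foxHom (P : FinPresentation G)
    (C : ChainComplex (ModuleCat.{0} (ZG G)) ℕ)
    (f0 : foxX P 0 ⟶ C.X 0) (f1 : foxX P 1 ⟶ C.X 1) (f2 : foxX P 2 ⟶ C.X 2)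
    (h1 : f1 ≫ C.d 1 0 = foxD P 0 ≫ f0) (h2 : f2 ≫ C.d 2 1 = foxD P 1 ≫ f1) :
    foxCC P ⟶ C where
  f := foxComp P C f0 f1 f2
  comm' := by
    rintro i j hij
    obtain rfl : j + 1 = i := hij
    have key : ∀ j, foxComp P C f0 f1 f2 (j + 1) ≫ C.d (j + 1) j
        = foxD P j ≫ foxComp P C f0 f1 f2 j := by
      intro j
      rcases j with _ | _ | j
      · exact h1
      · exact h2
      · exact Limits.zero_comp.trans Limits.zero_comp.symm
    have h3 : (foxCC P).d (j + 1) j = foxD P j := fox_d P j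
    refine (key j).trans ?_
    exact congrArg (fun g : foxX P (j + 1) ⟶ foxX P j => g ≫ foxComp P C f0 f1 f2 j) h3.symm

theorem projective_of_free' {R : Type} [Ring R] (M : ModuleCat.{0} R) [Module.Free R M] :
    Projective M :=
  ModuleCat.projective_of_free (Module.Free.chooseBasis R M)

/-- a criterion for being homotopy equivalent to a Fox complex -/
theorem fox_equiv (P : FinPresentation G) (C : ChainComplex (ModuleCat.{0} (ZG G)) ℕ)
    (hfree : ∀ i, Module.Free (ZG G) (C.X i))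
    (F0 : ZG G →ₗ[ZG G] C.X 0) (F1 : (Fin P.gens → ZG G) →ₗ[ZG G] C.X 1)
    (F2 : (Fin P.rels → ZG G) →ₗ[ZG G] C.X 2)
    (c1 : ∀ u, (C.d 1 0).hom (F1 u) = F0 (foxD1 P u))
    (c2 : ∀ t, (C.d 2 1).hom (F2 t) = F1 (foxD2 P t))
    (i0 : ∀ x, (∃ y, (C.d 1 0).hom y = F0 x) → ∃ z, foxD1 P z = x)
    (s0 : ∀ y, ∃ x z, y = F0 x + (C.d 1 0).hom z)
    (i1 : ∀ x, foxD1 P x = 0 → ∃ z, foxD2 P z = x)
    (s1 : ∀ y, (C.d 1 0).hom y = 0 → ∃ z, (C.d 2 1).hom z = y)
    (i2 : ∀ x, foxD2 P x = 0 → (∃ y, (C.d 3 2).hom y = F2 x) → x = 0)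
    (s2 : ∀ y, (C.d 2 1).hom y = 0 → ∃ x, foxD2 P x = 0 ∧ ∃ z, y = F2 x + (C.d 3 2).hom z)
    (s3 : ∀ (i : ℕ) (y : C.X (i + 3)), (C.d (i + 3) (i + 2)).hom y = 0 →
      ∃ z, (C.d (i + 4) (i + 3)).hom z = y) :
    Nonempty (HomotopyEquiv C (foxCC P)) := by
  have h1 : ModuleCat.ofHom F1 ≫ C.d 1 0 = foxD P 0 ≫ ModuleCat.ofHom F0 := by
    apply ModuleCat.hom_ext
    apply LinearMap.ext
    intro u
    exact c1 u
  have h2 : ModuleCat.ofHom F2 ≫ C.d 2 1 = foxD P 1 ≫ ModuleCat.ofHom F1 := by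
    apply ModuleCat.hom_ext
    apply LinearMap.ext
    intro t
    exact c2 t
  let f : foxCC P ⟶ C := foxHom P C (ModuleCat.ofHom F0) (ModuleCat.ofHom F1)
    (ModuleCat.ofHom F2) h1 h2
  have hq : QuasiIso f := by
    apply chainComplex_quasiIso
    · rintro x ⟨y, hy⟩
      obtain ⟨z, hz⟩ := i0 x ⟨y, hy⟩
      exact ⟨z, (fox_d10 P z).trans hz⟩
    · intro y
      obtain ⟨x, z, h⟩ := s0 y
      exact ⟨x, z, h⟩
    · rintro (_ | _ | i) x hx ⟨y, hy⟩
      · obtain ⟨z, hz⟩ := i1 x ((fox_d10 P x).symm.trans hx)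
        exact ⟨z, (fox_d21 P z).trans hz⟩
      · refine ⟨0, ?_⟩
        have h3 : x = 0 := i2 x ((fox_d21 P x).symm.trans hx) ⟨y, hy⟩
        rw [h3]
        exact map_zero ((foxCC P).d 3 2).hom
      · have := fox_subsingleton P i
        exact ⟨0, Subsingleton.elim _ _⟩
    · rintro (_ | _ | i) y hy
      · obtain ⟨z, hz⟩ := s1 y hy
        refine ⟨0, map_zero ((foxCC P).d 1 0).hom, z, ?_⟩
        refine hz.symm.trans ?_
        have h3 : f.f 1 0 = 0 := map_zero F1
        exact ((zero_add _).symm).trans (congrArg (fun w => w + (C.d 2 1).hom z) h3.symm)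
      · obtain ⟨x, hx, z, hz⟩ := s2 y hy
        exact ⟨x, (fox_d21 P x).trans hx, z, hz⟩
      · obtain ⟨z, hz⟩ := s3 i y hy
        refine ⟨0, map_zero ((foxCC P).d (i + 3) (i + 2)).hom, z, ?_⟩
        refine hz.symm.trans ?_
        have h3 : f.f (i + 3) 0 = 0 := rfl
        exact ((zero_add _).symm).trans
          (congrArg (fun w => w + (C.d (i + 4) (i + 3)).hom z) h3.symm)
  have hK : ∀ i, Projective ((foxCC P).X i) := by
    intro i
    have := fox_free P i
    exact projective_of_free' _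
  have hL : ∀ i, Projective (C.X i) := by
    intro i
    have := hfree i
    exact projective_of_free' _
  obtain ⟨e, -⟩ := (ChainComplex.quasiIso_iff_of_projective f).1 hq
  exact ⟨e.symm⟩

end Vale.Agent.P246
end
end

section

section

set_option linter.unusedSectionVars false

namespace Vale.Agent.P246

open CategoryTheory Function

theorem foxD1_std (n s : ℕ) (u : Fin n → ZG (Zn n)) :
    foxD1 (stdPres n s) u = lin (gensS n) u := (lin_eq n u).symm

theorem foxD2_std (n s : ℕ) (t : Fin (n.choose 2 + s) → ZG (Zn n)) :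
    foxD2 (stdPres n s) t = kosS n s t := rfl

/-- every finite algebraic D(2) complex over `ℤ[ℤ^n]` is homotopy equivalent to the Fox complex
of a standard presentation -/
theorem d2_standard (n : ℕ) (C : ChainComplex (ModuleCat.{0} (ZG (Zn n))) ℕ)
    (hC : D2Data (Zn n) C) :
    ∃ s : ℕ, Cx.euler (R := ZG (Zn n)) C = 1 - n + n.choose 2 + s ∧
      Nonempty (HomotopyEquiv C (foxCC (stdPres n s))) := by
  obtain ⟨ψ, r, b, s, E0, E1, E2, hψ, h1, h2, he⟩ := d2_normal n C hC
  refine ⟨s, he, ?_⟩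
  have h1' : ∀ y : C.X 1, E0 ((C.d 1 0).hom y) = (lin (gensS n) (E1 y).1.1, (E1 y).2) := h1
  have h2' : ∀ z : LinearMap.ker ψ, E1 ((C.d 2 1).hom z.1) = ((kosS n s (E2 z).1, (E2 z).2), 0) := h2
  let F0 : ZG (Zn n) →ₗ[ZG (Zn n)] C.X 0 := E0.symm.toLinearMap ∘ₗ LinearMap.inl _ _ _
  let F1 : (Fin n → ZG (Zn n)) →ₗ[ZG (Zn n)] C.X 1 :=
    E1.symm.toLinearMap ∘ₗ LinearMap.inl _ _ _ ∘ₗ LinearMap.inl _ _ _
  let F2 : (Fin (n.choose 2 + s) → ZG (Zn n)) →ₗ[ZG (Zn n)] C.X 2 :=
    (LinearMap.ker ψ).subtype ∘ₗ E2.symm.toLinearMap ∘ₗ LinearMap.inl _ _ _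
  have hF0 : ∀ x, E0 (F0 x) = (x, 0) := fun x => E0.apply_symm_apply _
  have hF1 : ∀ x, E1 (F1 x) = ((x, 0), 0) := fun x => E1.apply_symm_apply _
  have hF2 : ∀ x, F2 x = (E2.symm (x, 0)).1 := fun x => rfl
  have hdd : ∀ w, (C.d 2 1).hom ((C.d 3 2).hom w) = 0 := fun w => dd_zero C 3 2 1 w
  have C1 : ∀ u : Fin n → ZG (Zn n), (C.d 1 0).hom (F1 u) = F0 (lin (gensS n) u) := by
    intro u
    apply E0.injective
    rw [h1', hF1, hF0]
  have C2 : ∀ t, (C.d 2 1).hom (F2 t) = F1 (kosS n s t) := by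
    intro t
    apply E1.injective
    have h3 := h2' (E2.symm (t, 0))
    rw [E2.apply_symm_apply] at h3
    refine h3.trans ?_
    exact (hF1 _).symm
  have S2 : ∀ y, (C.d 2 1).hom y = 0 → ∃ x, kosS n s x = 0 ∧ ∃ z,
      y = F2 x + (C.d 3 2).hom z := by
    intro y hy
    -- decompose `y = p + b`
    obtain ⟨w, hw⟩ := (ψ y).2
    have hq : y - (ψ y : C.X 2) ∈ LinearMap.ker ψ := by
      rw [LinearMap.mem_ker, map_sub, hψ, sub_self]
    have h3 : (C.d 2 1).hom (y - (ψ y : C.X 2)) = 0 := by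
      rw [map_sub, ← hw, hdd, sub_zero]
      exact hy
    have h4 := h2' ⟨y - (ψ y : C.X 2), hq⟩
    rw [h3, map_zero] at h4
    have h5 : kosS n s (E2 ⟨y - (ψ y : C.X 2), hq⟩).1 = 0 := (congrArg (fun z => z.1.1) h4).symm
    have h6 : (E2 ⟨y - (ψ y : C.X 2), hq⟩).2 = 0 := (congrArg (fun z => z.1.2) h4).symm
    refine ⟨(E2 ⟨y - (ψ y : C.X 2), hq⟩).1, h5, w, ?_⟩
    have h7 : F2 (E2 ⟨y - (ψ y : C.X 2), hq⟩).1 = y - (ψ y : C.X 2) := by
      rw [hF2]
      have h8 : ((E2 ⟨y - (ψ y : C.X 2), hq⟩).1, (0 : Fin b → ZG (Zn n)))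
          = E2 ⟨y - (ψ y : C.X 2), hq⟩ := by
        rw [← h6]
      rw [h8, E2.symm_apply_apply]
    rw [h7, hw, sub_add_cancel]
  refine fox_equiv (stdPres n s) C hC.free F0 F1 F2
    (fun u => (C1 u).trans (congrArg F0 (foxD1_std n s u).symm)) C2 ?_ ?_ ?_ ?_ ?_ S2 ?_
  · rintro x ⟨y, hy⟩
    have h3 : E0 ((C.d 1 0).hom y) = (x, 0) := by rw [hy, hF0]
    rw [h1'] at h3
    exact ⟨(E1 y).1.1, (foxD1_std n s _).trans (congrArg Prod.fst h3)⟩
  · intro y
    refine ⟨(E0 y).1, E1.symm ((0, 0), (E0 y).2), ?_⟩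
    apply E0.injective
    have h3 : E0 ((C.d 1 0).hom (E1.symm ((0, 0), (E0 y).2))) = (0, (E0 y).2) := by
      rw [h1', E1.apply_symm_apply, map_zero]
    rw [map_add, hF0, h3]
    simp
  · intro x hx
    have h3 : lin (gensS n) x = 0 := (foxD1_std n s x).symm.trans hx
    obtain ⟨t, ht⟩ := (kosS_range n s x).1 h3
    exact ⟨t, ht⟩
  · exact (exactAt_succ_iff C 0).1 hC.homology_one
  · rintro x - ⟨y, hy⟩
    have h3 : F2 x ∈ LinearMap.range (C.d 3 2).hom := ⟨y, hy⟩
    have h4 : ψ (F2 x) = 0 := (E2.symm (x, 0)).2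
    have h5 : F2 x = 0 := by
      have h6 := hψ ⟨F2 x, h3⟩
      have h7 : ψ (F2 x) = ⟨F2 x, h3⟩ := h6
      rw [h4] at h7
      exact (congrArg Subtype.val h7).symm
    have h6 : E2.symm (x, 0) = 0 := Subtype.ext h5
    have h7 : ((x, 0) : (Fin (n.choose 2 + s) → ZG (Zn n)) × (Fin b → ZG (Zn n))) = 0 := by
      rw [← E2.apply_symm_apply (x, 0), h6, map_zero]
    exact congrArg Prod.fst h7
  · intro i y hy
    exact (exactAt_succ_iff C (i + 2)).1 (hC.homology_high (i + 3) (by omega)) y hy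

/-- the Fox complex of the standard presentation is a finite algebraic D(2) complex -/
theorem d2Data_std (n s : ℕ) : D2Data (Zn n) (foxCC (stdPres n s)) where
  free := fox_free _
  finite := fox_finite _
  bounded := ⟨2, fun i hi => by
    obtain ⟨j, rfl⟩ : ∃ j, i = j + 3 := ⟨i - 3, by omega⟩
    exact fox_subsingleton _ j⟩
  homology_zero := by
    refine ⟨(augS n).toAddMonoidHom, fun k => ⟨(k : ZG (Zn n)), augS_intCast n k⟩, ?_, ?_⟩
    · intro g x
      have key : ∀ x : ZG (Zn n), augS n (elt g * x) = augS n x := by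
        intro x
        rw [map_mul, augS_elt, one_mul]
      exact key x
    · intro x
      refine ((good_S n).gen x).trans ?_
      constructor
      · rintro ⟨u, hu⟩
        exact ⟨u, ((fox_d10 (stdPres n s) u).trans (foxD1_std n s u)).trans hu⟩
      · rintro ⟨u, hu⟩
        exact ⟨u, ((fox_d10 (stdPres n s) u).trans (foxD1_std n s u)).symm.trans hu⟩
  homology_one := by
    rw [exactAt_succ_iff]
    intro x hx
    have h3 : lin (gensS n) x = 0 :=
      ((fox_d10 (stdPres n s) x).trans (foxD1_std n s x)).symm.trans hx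
    obtain ⟨t, ht⟩ := (kosS_range n s x).1 h3
    exact ⟨t, (fox_d21 (stdPres n s) t).trans ht⟩
  homology_high := by
    intro i hi
    obtain ⟨j, rfl⟩ : ∃ j, i = j + 3 := ⟨i - 3, by omega⟩
    rw [exactAt_succ_iff]
    intro x _
    have := fox_subsingleton (stdPres n s) j
    exact ⟨0, Subsingleton.elim _ _⟩
  cohomology_three := by
    intro M _ _ _ φ _
    refine ⟨0, fun x => ?_⟩
    have := fox_subsingleton (stdPres n s) 0
    rw [Subsingleton.elim x 0, map_zero]
    rfl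

theorem isD2_std (n s : ℕ) : IsD2Complex (foxComplex (stdPres n s)) :=
  (d2Data_std n s).isD2

theorem euler_std (n s : ℕ) :
    (foxComplex (stdPres n s)).euler = 1 - n + n.choose 2 + s := by
  have hdom := isDomain_S n
  have hsupp : Function.support (fun i : ℕ => (-1 : ℤ) ^ i *
      (Module.finrank (ZG (Zn n)) ((foxCC (stdPres n s)).X i) : ℤ)) ⊆
        (Finset.range 3 : Finset ℕ) := by
    intro i hi
    rw [Function.mem_support] at hi
    by_contra hcon
    apply hi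
    obtain ⟨j, rfl⟩ : ∃ j, i = j + 3 := ⟨i - 3, by
      rw [Finset.coe_range, Set.mem_Iio] at hcon
      omega⟩
    have := fox_subsingleton (stdPres n s) j
    rw [Module.finrank_zero_of_subsingleton]
    simp
  change ∑ᶠ i : ℕ, (-1 : ℤ) ^ i *
    (Module.finrank (ZG (Zn n)) ((foxCC (stdPres n s)).X i) : ℤ) = _
  rw [finsum_eq_sum_of_support_subset _ hsupp, Finset.sum_range_succ, Finset.sum_range_succ,
    Finset.sum_range_one]
  have h0 : Module.finrank (ZG (Zn n)) ((foxCC (stdPres n s)).X 0) = 1 :=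
    Module.finrank_self (ZG (Zn n))
  have h1 : Module.finrank (ZG (Zn n)) ((foxCC (stdPres n s)).X 1) = n :=
    Module.finrank_fin_fun (ZG (Zn n))
  have h2 : Module.finrank (ZG (Zn n)) ((foxCC (stdPres n s)).X 2) = n.choose 2 + s :=
    Module.finrank_fin_fun (ZG (Zn n))
  rw [h0, h1, h2]
  push_cast
  ring

/-- the main theorem -/
theorem d2_main (n : ℕ) : AlgebraicD2Property (Multiplicative (Fin n → ℤ)) ∧
    ClassifiedByEuler (Multiplicative (Fin n → ℤ)) (1 - n + n.choose 2) := by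
  have key : ∀ C : Cx (ZG (Multiplicative (Fin n → ℤ))), IsD2Complex C →
      ∃ s : ℕ, C.euler = 1 - n + n.choose 2 + s ∧ C.Equiv (foxComplex (stdPres n s)) :=
    fun C hC => d2_standard n C hC.data
  refine ⟨fun C hC => ?_, fun C C' hC hC' h => ?_, fun k => ⟨?_, fun hk => ?_⟩⟩
  · obtain ⟨s, -, h⟩ := key C hC
    exact ⟨stdPres n s, h⟩
  · obtain ⟨s, hs, ⟨e⟩⟩ := key C hC
    obtain ⟨s', hs', ⟨e'⟩⟩ := key C' hC'
    have hss : s = s' := by
      rw [hs, hs'] at h
      exact_mod_cast add_left_cancel h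
    subst hss
    exact ⟨e.trans e'.symm⟩
  · rintro ⟨C, hC, rfl⟩
    obtain ⟨s, hs, -⟩ := key C hC
    rw [hs]
    have : (0 : ℤ) ≤ s := Int.natCast_nonneg s
    linarith
  · obtain ⟨s, hs⟩ := Int.le.dest hk
    exact ⟨foxComplex (stdPres n s), isD2_std n s, by rw [euler_std, ← hs]⟩

end Vale.Agent.P246
end
end
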